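import Vale.Agent.P319.A.Cls

/-! The action of h sigma on J / y J. -/

namespace Vale.Agent.P319.A.Crv

open Polynomial Finset

variable {F : Type} [Field F] [IsAlgClosed F] {C : Crv F}

omit [IsAlgClosed F] in
theorem actx_y {J : C.FI} {w : C.L} (hw : w ∈ J) : C.y * w ∈ C.sp C.y * J :=
  mem_sp_mul.2 ⟨w, hw, rfl⟩
omit [IsAlgClosed F] in
theorem actx_le {J : C.FI} {w : C.L} (hw : w ∈ C.sp C.y * J) : w ∈ J := by
  obtain ⟨j, hj, rfl⟩ := mem_sp_mul.1 hw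
  exact mul_mem y_mem_one hj
theorem actx_dvd {J : C.FI} (hJ : J ≠ 0) {g : F[X]} (h : ∀ w ∈ J, C.pl g * w ∈ C.sp C.y * J) :
    C.f ∣ g := by
  have h1 : C.sp (C.pl g) * J ≤ C.sp C.y * J := fun w hw => by
    obtain ⟨j, hj, rfl⟩ := mem_sp_mul.1 hw
    exact h j hj
  have h2 := mul_le_mul_left h1 J⁻¹
  simp only [mul_inv_cancel_right₀ hJ] at h2
  exact pl_mem_spy.1 (sp_le.1 h2)
omit [IsAlgClosed F] in
theorem Act.mem {z : F} {h : C.L} {J : C.FI} {s : F[X]} (h1 : C.Act z h J s) {w : C.L}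
    (hw : w ∈ J) : h * (C.sg z).1 w ∈ J := by
  have := add_mem (actx_le (h1 w hw)) (mul_mem (pl_mem_one s) hw)
  rwa [sub_add_cancel] at this

theorem exists_act {z : F} (hz : z ^ C.l = 1) {h : C.L} {J : C.FI} (hJ : J ≠ 0)
    (hs : ∀ w ∈ J, h * (C.sg z).1 w ∈ J) : ∃ s, C.Act z h J s := by
  obtain ⟨w0, h0, e⟩ := exists_gen hJ
  have k : ∀ w ∈ J, ∃ o ∈ (1 : C.FI), ∃ j ∈ J, w = w0 * o + C.y * j := fun w hw => by
    rw [e] at hw
    obtain ⟨a, ha, b, hb, rfl⟩ := (FractionalIdeal.mem_add _ _ _).1 hw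
    obtain ⟨o, ho, rfl⟩ := mem_sp.1 ha
    obtain ⟨j, hj, rfl⟩ := mem_sp_mul.1 hb
    exact ⟨o, ho, j, hj, rfl⟩
  obtain ⟨o, ho, j, hj, e0⟩ := k _ (hs w0 h0)
  obtain ⟨g, -, hg⟩ := sub_co0 ho
  refine ⟨g, fun w hw => ?_⟩
  obtain ⟨o1, ho1, j1, hj1, rfl⟩ := k w hw
  have a1 := FractionalIdeal.mul_mem_mul (sg_sub_mem z ho1) (hs w0 h0)
  have a2 := mul_mem ho1 (add_mem (FractionalIdeal.mul_mem_mul hg h0) (actx_y hj))
  have a3 := actx_y (sub_mem (smul_mem z (hs j1 hj1)) (mul_mem (pl_mem_one g) hj1))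
  refine (congrArg (· ∈ C.sp C.y * J) ?_).mp (add_mem (add_mem a1 a2) a3)
  rw [map_add, map_mul, map_mul, sg_y hz, ← pl_C, ← pl_C]
  linear_combination (-o1) * e0
theorem Act.unique {z : F} {h : C.L} {J : C.FI} {s s' : F[X]} (hJ : J ≠ 0) (h1 : C.Act z h J s)
    (h2 : C.Act z h J s') : C.f ∣ s - s' := by
  refine actx_dvd hJ fun w hw => (congrArg (· ∈ C.sp C.y * J) ?_).mp (sub_mem (h2 w hw) (h1 w hw))
  rw [map_sub]
  ring
theorem Act.congr {z : F} {h : C.L} {J : C.FI} {s s' : F[X]} (h1 : C.Act z h J s)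
    (e : C.f ∣ s - s') : C.Act z h J s' := by
  refine fun w hw => (congrArg (· ∈ C.sp C.y * J) ?_).mp
    (add_mem (h1 w hw) (FractionalIdeal.mul_mem_mul (pl_mem_spy.2 e) hw))
  rw [map_sub]
  ring
theorem Act.hp {z : F} (hz : z ^ C.l = 1) {h : C.L} {J : C.FI} {s : F[X]} (h1 : C.Act z h J s)
    (t : ℕ) {w : C.L} (hw : w ∈ J) :
    C.hp z h t * (C.sg (z ^ t)).1 w - C.pl (s ^ t) * w ∈ C.sp C.y * J := by
  induction t with
  | zero =>
    rw [pow_zero, pow_zero, sg_one, Crv.hp, prod_range_zero, map_one, one_mul, one_mul]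
    exact (sub_self w).symm ▸ FractionalIdeal.zero_mem _
  | succ t ih =>
    obtain ⟨j, hj, e⟩ := mem_sp_mul.1 ih
    rw [← hp_succ hz, eq_add_of_sub_eq e]
    refine (congrArg (· ∈ C.sp C.y * J) ?_).mp
      (add_mem (actx_y (smul_mem z (h1.mem hj))) (mul_mem (pl_mem_one (s ^ t)) (h1 w hw)))
    rw [map_add, map_mul, map_mul, sg_y hz, sg_pl, ← pl_C, ← pl_C, pow_succ, map_mul]
    ring
theorem Act.pow {z : F} (hz : IsPrimitiveRoot z C.l) {h : C.L} {J : C.FI} {s U : F[X]} (hJ : J ≠ 0)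
    (hn : C.nrm h = C.pl U) (h1 : C.Act z h J s) : C.f ∣ s ^ C.l - U := by
  rw [← dvd_neg, neg_sub]
  refine actx_dvd hJ fun w hw => ?_
  have := h1.hp hz.pow_eq_one C.l hw
  rwa [Crv.hp, ← nrm_eq hz, hn, hz.pow_eq_one, sg_one, show (1 : C.G).1 w = w from rfl, ← sub_mul,
    ← map_sub] at this
omit [IsAlgClosed F] in
theorem Act.conj {z : F} {h b : C.L} {J : C.FI} {s : F[X]} (hb : b ≠ 0) (h1 : C.Act z h J s) :
    C.Act z (h * (C.sg z).1 b / b) (C.sp b⁻¹ * J) s := by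
  intro w hw
  obtain ⟨j, hj, rfl⟩ := mem_sp_mul.1 hw
  rw [mul_left_comm (C.sp C.y)]
  refine mem_sp_mul.2 ⟨_, h1 j hj, ?_⟩
  have : (C.sg z).1 b ≠ 0 := (_root_.map_ne_zero _).2 hb
  rw [map_mul, map_inv₀]
  field_simp
omit [IsAlgClosed F] in
theorem Act.smul {z : F} {h : C.L} {J : C.FI} {s : F[X]} (c : F) (h1 : C.Act z h J s) :
    C.Act z (c • h) J (Polynomial.C c * s) := by
  refine fun w hw => (congrArg (· ∈ C.sp C.y * J) ?_).mp (smul_mem c (h1 w hw))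
  rw [← pl_C, ← pl_C, map_mul]
  ring
omit [IsAlgClosed F] in
theorem Act.fr {z : F} (hz : z ^ C.l = 1) {r : F ≃+* F} (hr : C.f.map r = C.f) (hrz : r z = z)
    {h : C.L} {J : C.FI} {s : F[X]} (h1 : C.Act z h J s) :
    C.Act z ((C.fr r).1 h) (C.act (C.fr r) J) (s.map r) := by
  intro w hw
  obtain ⟨w, rfl⟩ := (C.fr r).1.surjective w
  have h2 := (mem_act (C.fr r) _ _).2 (h1 w ((mem_act _ _ _).1 hw))
  have h3 : (C.fr r).1 ((C.sg z).1 w) = (C.sg z).1 ((C.fr r).1 w) :=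
    congrArg (fun t : C.G => t.1 w) (fr_sg hr hz hrz).eq
  rwa [map_mul, act_sp, fr_y, map_sub, map_mul, map_mul, fr_pl hr, h3] at h2
omit [IsAlgClosed F] in
theorem Act.mulP {z : F} (hz : z ^ C.l = 1) {h : C.L} {J : C.FI} {s : F[X]} (h1 : C.Act z h J s)
    {a : F} (ha : C.f.IsRoot a) : ∃ s', C.Act z h (J * C.P a) s' ∧ s'.eval a = z * s.eval a ∧
      ∀ b, C.f.IsRoot b → b ≠ a → s'.eval b = s.eval b := by
  obtain ⟨q, hq⟩ := dvd_iff_isRoot.2 ha
  have hqa : q.eval a ≠ 0 := fun k => by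
    obtain ⟨q', rfl⟩ := dvd_iff_isRoot.2 k
    exact not_isUnit_X_sub_C a (C.sep.squarefree _ ⟨q', by rw [hq, mul_assoc]⟩)
  obtain ⟨c, hc⟩ : ∃ c : F, c = (z - 1) * (q.eval a)⁻¹ := ⟨_, rfl⟩
  have e1 : (s * (1 + Polynomial.C c * q)).eval a = z * s.eval a := by
    simp only [eval_mul, eval_add, eval_one, eval_C, hc]
    field_simp
    ring
  have m1 : ∀ j ∈ J, C.pl (X - Polynomial.C a) * j ∈ J * C.P a := fun j hj => by
    rw [mul_comm J]
    exact FractionalIdeal.mul_mem_mul (sp_le.1 le_sup_left) hj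
  have m2 : ∀ j ∈ J, C.y * j ∈ J * C.P a := fun j hj => by
    rw [mul_comm J]
    exact FractionalIdeal.mul_mem_mul (sp_le.1 le_sup_right) hj
  refine ⟨s * (1 + Polynomial.C c * q), fun w hw => ?_, e1, fun b hb hba => ?_⟩
  · rw [P, mul_add, mul_comm J, mul_comm J] at hw
    obtain ⟨w1, k1, w2, k2, rfl⟩ := (FractionalIdeal.mem_add _ _ _).1 hw
    obtain ⟨j1, hj1, rfl⟩ := mem_sp_mul.1 k1
    obtain ⟨j2, hj2, rfl⟩ := mem_sp_mul.1 k2
    obtain ⟨i1, hi1, d1⟩ := mem_sp_mul.1 (h1 j1 hj1)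
    obtain ⟨i2, hi2, d2⟩ := mem_sp_mul.1 (h1 j2 hj2)
    obtain ⟨r, hr⟩ := dvd_iff_isRoot.2 (show (Polynomial.C z * s -
      s * (1 + Polynomial.C c * q)).IsRoot a by rw [IsRoot, eval_sub, e1]; simp)
    obtain ⟨n, hn⟩ := Nat.exists_eq_add_of_le C.hl.two_le
    have hy : C.y ^ n ∈ (1 : C.FI) := sp_le.1 (by
      rw [sp_pow]; exact pow_le_one₀ (FractionalIdeal.zero_le _) (sp_le.2 y_mem_one))
    have a1 := sub_mem (m1 _ hi1) (m2 _ (mul_mem hy (mul_mem (pl_mem_one (s * Polynomial.C c)) hj1)))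
    have a2 := add_mem (m2 _ (smul_mem z hi2)) (m1 _ (mul_mem (pl_mem_one r) hj2))
    refine (congrArg (· ∈ C.sp C.y * (J * C.P a)) ?_).mp (actx_y (add_mem a1 a2))
    have f1 := y_pow (C := C)
    have f2 := congrArg C.pl hr
    rw [hq, hn, map_mul] at f1
    simp only [map_add, map_mul, map_one, map_sub C.pl (_ * _), sg_pl, sg_y hz, ← pl_C] at f2 ⊢
    linear_combination (-C.pl (X - Polynomial.C a)) * d1 - C.pl (Polynomial.C z) * C.y * d2 -
      C.y * j2 * f2 - C.pl s * C.pl (Polynomial.C c) * j1 * f1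
  · have : q.eval b = 0 := by
      rw [IsRoot, hq, eval_mul, eval_sub, eval_X, eval_C] at hb
      exact (mul_eq_zero.1 hb).resolve_left (sub_ne_zero.2 hba)
    simp [this]
omit [IsAlgClosed F] in
theorem Act.mulP_pow {z : F} (hz : z ^ C.l = 1) {h : C.L} {J : C.FI} {s : F[X]}
    (h1 : C.Act z h J s) {a : F} (ha : C.f.IsRoot a) (k : ℕ) : ∃ s', C.Act z h (J * C.P a ^ k) s' ∧
      s'.eval a = z ^ k * s.eval a ∧ ∀ b, C.f.IsRoot b → b ≠ a → s'.eval b = s.eval b := by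
  induction k with
  | zero => exact ⟨s, by rwa [pow_zero, mul_one], by rw [pow_zero, one_mul], fun _ _ _ => rfl⟩
  | succ k ih =>
    obtain ⟨s1, a1, a2, a3⟩ := ih
    obtain ⟨s2, b1, b2, b3⟩ := a1.mulP hz ha
    exact ⟨s2, by rwa [pow_succ, ← mul_assoc], by rw [b2, a2]; ring,
      fun b hb h => (b3 b hb h).trans (a3 b hb h)⟩
theorem Act.adjust {z : F} (hz : IsPrimitiveRoot z C.l) {h : C.L} {J : C.FI} {s s' : F[X]}
    (h1 : C.Act z h J s) (e : C.f ∣ s ^ C.l - s' ^ C.l) :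
    ∃ k : F → ℕ, C.Act z h (J * ∏ a ∈ C.rts, C.P a ^ k a) s' := by
  classical
  have := C.hl.ne_zero
  have : NeZero C.l := ⟨this⟩
  have k0 : ∀ a, ∃ k : ℕ, C.f.IsRoot a → s'.eval a = z ^ k * s.eval a := fun a => by
    by_cases ha : C.f.IsRoot a
    swap
    · exact ⟨0, fun k => absurd k ha⟩
    have e1 := f_dvd.1 e a ha
    rw [eval_sub, eval_pow, eval_pow, sub_eq_zero] at e1
    by_cases h0 : s.eval a = 0
    · rw [h0, zero_pow C.hl.ne_zero] at e1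
      exact ⟨0, fun _ => by rw [h0, pow_eq_zero_iff C.hl.ne_zero |>.1 e1.symm, mul_zero]⟩
    obtain ⟨k, -, hk⟩ := hz.eq_pow_of_pow_eq_one (ξ := s'.eval a / s.eval a)
      (by rw [div_pow, ← e1, div_self (pow_ne_zero _ h0)])
    exact ⟨k, fun _ => by rw [hk, div_mul_cancel₀ _ h0]⟩
  choose k hk using k0
  have key : ∀ S : Finset F, S ⊆ C.rts → ∃ s1, C.Act z h (J * ∏ a ∈ S, C.P a ^ k a) s1 ∧
      ∀ b, C.f.IsRoot b → s1.eval b = if b ∈ S then s'.eval b else s.eval b := by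
    intro S
    induction S using Finset.induction_on with
    | empty => exact fun _ => ⟨s, by rwa [prod_empty, mul_one], fun b _ => by simp⟩
    | insert a S ha ih =>
      intro hS
      have hr := mem_rts.1 (hS (mem_insert_self a S))
      obtain ⟨s1, a1, a2⟩ := ih ((subset_insert a S).trans hS)
      obtain ⟨s2, b1, b2, b3⟩ := a1.mulP_pow hz.pow_eq_one hr (k a)
      refine ⟨s2, by rwa [prod_insert ha, mul_comm (C.P a ^ k a), ← mul_assoc], fun b hb => ?_⟩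
      rcases eq_or_ne b a with rfl | hba
      · rw [b2, a2 b hb, if_neg ha, if_pos (mem_insert_self b S), hk b hb]
      · simp only [b3 b hb hba, a2 b hb, mem_insert, hba, false_or]
  obtain ⟨s1, a1, a2⟩ := key C.rts subset_rfl
  exact ⟨k, a1.congr (f_dvd.2 fun a ha => by
    rw [eval_sub, a2 a ha, if_pos (mem_rts.2 ha), sub_self])⟩
theorem actx_den (J : C.FI) : ∃ D : F[X], D ≠ 0 ∧ ∀ j ∈ J, C.pl D * j ∈ (1 : C.FI) := by
  obtain ⟨d, hd, h⟩ := J.isFractional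
  have d0 : (d : C.L) ≠ 0 := fun k => nonZeroDivisors.ne_zero hd (Subtype.ext k)
  have d1 : (d : C.L) ∈ (1 : C.FI) := mem_one.2 d.2
  obtain ⟨D, hD⟩ := exists_nrm_pl d1
  obtain ⟨o, ho, e⟩ := mem_sp.1 (nrmI_le (sp_le.2 d1) (nrm_mem (sp_le.1 le_rfl)))
  refine ⟨D, fun k => nrm_ne d0 (by rw [hD, k, map_zero]), fun j hj => ?_⟩
  rw [← hD, e, mul_comm (d : C.L), mul_assoc]
  exact mul_mem ho ((FractionalIdeal.mem_one_iff _).2 (h j hj))
theorem actx_co {z : F} (hz : IsPrimitiveRoot z C.l) {J : C.FI} (h1 : C.Act z 1 J 1) {b : ℕ}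
    (hb : b < C.l) {w : C.L} (hw : w ∈ J) : C.kl (C.co b w) ∈ J := by
  have k1 : ∀ t : ℕ, (C.sg (z ^ t)).1 w ∈ J := fun t => by
    induction t with
    | zero => rw [pow_zero, sg_one]; exact hw
    | succ t ih =>
      have := h1.mem ih
      rw [one_mul] at this
      rw [pow_succ', sg_mul hz.pow_eq_one
        (by rw [← pow_mul, mul_comm, pow_mul, hz.pow_eq_one, one_pow])]
      exact this
  have k2 : C.kl (C.co b w) * C.y ^ b ∈ J := by
    rw [co_avg hz hb]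
    exact smul_mem _ (sum_mem fun t _ => smul_mem _ (k1 t))
  generalize C.co b w = k at k2
  induction b with
  | zero => rwa [pow_zero, mul_one] at k2
  | succ b ih =>
    refine ih (by omega) ?_
    have h2 := smul_mem (z ^ (b + 1) - 1)⁻¹ (h1 _ k2)
    rw [one_mul, map_one, one_mul, map_mul, map_pow, sg_kl, sg_y hz.pow_eq_one, _root_.smul_pow,
      mul_smul_comm, ← one_smul F (C.kl k * C.y ^ (b + 1)), smul_smul, mul_one, ← sub_smul,
      inv_smul_smul₀ (sub_ne_zero.2 (hz.pow_ne_one_of_pos_of_lt (by omega) hb))] at h2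
    obtain ⟨j, hj, e⟩ := mem_sp_mul.1 h2
    rwa [← mul_left_cancel₀ y_ne (show C.y * (C.kl k * C.y ^ b) = C.y * j by rw [← e]; ring)] at hj
theorem inv_triv {z : F} (hz : IsPrimitiveRoot z C.l) {h : C.L} {J : C.FI} (hJ : J ≠ 0)
    (hb : C.Bal h) (hn : C.nrm h = 1) (he : C.sp h * C.act (C.sg z) J = J)
    (h1 : C.Act z h J 1) : C.cl J = 0 := by
  obtain ⟨w, w0, hw⟩ := h90 hz hn
  have bw : C.Bal w := bal_of_sg hz w0 (by
    rw [show (C.sg z).1 w / w = h⁻¹ by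
      rw [div_eq_iff w0, eq_inv_mul_iff_mul_eq₀ hb.1, hw]]
    exact hb.inv)
  have h2 := h1.conj w0
  rw [hw, div_self w0] at h2
  obtain ⟨J', hJ'⟩ : ∃ J', J' = C.sp w⁻¹ * J := ⟨_, rfl⟩
  have e0 : J = C.sp w * J' := by rw [hJ', ← mul_assoc, ← sp_mul, mul_inv_cancel₀ w0, sp_one, one_mul]
  rw [← hJ'] at h2
  obtain ⟨D, D0, hD⟩ := actx_den J'
  have D1 : C.pl D ≠ 0 := (map_ne_zero_iff _ pl_inj).2 D0
  let M : Ideal F[X] :=
    { carrier := {p | C.pl p / C.pl D ∈ J'}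
      add_mem' := fun {a b} ha hb => by
        change C.pl (a + b) / C.pl D ∈ J'
        rw [map_add, add_div]
        exact add_mem ha hb
      zero_mem' := by
        change C.pl 0 / C.pl D ∈ J'
        rw [map_zero, zero_div]
        exact FractionalIdeal.zero_mem _
      smul_mem' := fun a b hb => by
        change C.pl (a * b) / C.pl D ∈ J'
        rw [map_mul, mul_div_assoc]
        exact mul_mem (pl_mem_one a) hb }
  obtain ⟨g, hg⟩ := (IsPrincipalIdealRing.principal M).principal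
  have e1 : J' = C.sp (C.pl g / C.pl D) := by
    refine le_antisymm (fun j hj => ?_) (sp_le.2 (show g ∈ M from
      hg ▸ Submodule.mem_span_singleton_self g))
    rw [co_sum j]
    refine sum_mem fun b hb => ?_
    have k1 := actx_co hz h2 (mem_range.1 hb) hj
    have k2 := hD _ k1
    rw [← kl_alg, ← map_mul] at k2
    obtain ⟨p, hp⟩ := kl_mem_one.1 k2
    have k3 : C.kl (C.co b j) = C.pl p / C.pl D := by
      rw [eq_div_iff D1, ← kl_alg, ← kl_alg, ← hp, map_mul, mul_comm]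
    have k4 : p ∈ M := show C.pl p / C.pl D ∈ J' from k3 ▸ k1
    obtain ⟨q, hq⟩ := Submodule.mem_span_singleton.1 (hg ▸ k4)
    refine mem_sp.2 ⟨C.pl q * C.y ^ b, mul_mem (pl_mem_one q) (sp_le.1 (by
      rw [sp_pow]; exact pow_le_one₀ (FractionalIdeal.zero_le _) (sp_le.2 y_mem_one))), ?_⟩
    rw [k3, ← hq, smul_eq_mul, map_mul]
    ring
  have g0 : g ≠ 0 := fun k => hJ (by
    rw [e0, e1, k, map_zero, zero_div, sp, sp, FractionalIdeal.spanSingleton_zero, mul_zero])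
  rw [e0, e1, ← sp_mul, div_eq_mul_inv]
  exact cl_sp (bw.mul ((bal_pl g0).mul (bal_pl D0).inv))

end Vale.Agent.P319.A.Crv
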