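import Vale.Agent.P319.A.Crv

/-! Coordinates, the filtration, automorphisms and their action on ideals. -/

namespace Vale.Agent.P319.A.Crv

open Polynomial Finset

variable {F : Type} [Field F] {C : Crv F}

theorem bas_eval {S : Type} [CommRing S] (i : RatFunc F →+* S) (x : S) :
    C.T.eval₂ i x = x ^ C.l - i (algebraMap F[X] (RatFunc F) C.f) := by
  rw [T, eval₂_sub, eval₂_X_pow, eval₂_C]
theorem y_pow : C.y ^ C.l = C.pl C.f := by
  have h := AdjoinRoot.eval₂_root C.T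
  rw [bas_eval, sub_eq_zero] at h
  exact h
theorem kl_alg (g : F[X]) : C.kl (algebraMap F[X] (RatFunc F) g) = C.pl g := rfl
theorem pl_inj : Function.Injective C.pl :=
  C.kl.injective.comp (IsFractionRing.injective F[X] (RatFunc F))
theorem y_ne : C.y ≠ 0 := fun h => by
  have h1 := y_pow (C := C)
  rw [h, zero_pow C.hl.ne_zero, ← map_zero C.pl] at h1
  exact C.mon.ne_zero (pl_inj h1).symm
theorem pl_C (a : F) (z : C.L) : C.pl (Polynomial.C a) * z = a • z := by
  rw [Algebra.smul_def]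
  rfl
theorem kl_smul (k : RatFunc F) (z : C.L) : k • z = C.kl k * z := Algebra.smul_def k z
theorem bas_deg : C.T.degree = C.l := degree_X_pow_sub_C C.hl.pos _
theorem bas_lt (z : C.L) : (AdjoinRoot.modByMonicHom C.T_monic z).degree < C.l := by
  induction z using AdjoinRoot.induction_on with
  | ih p => rw [AdjoinRoot.modByMonicHom_mk, ← bas_deg]; exact degree_modByMonic_lt _ C.T_monic
theorem co_sum (z : C.L) : z = ∑ b ∈ range C.l, C.kl (C.co b z) * C.y ^ b := by
  have h : (AdjoinRoot.modByMonicHom C.T_monic z).natDegree < C.l := by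
    by_cases h0 : AdjoinRoot.modByMonicHom C.T_monic z = 0
    · rw [h0, natDegree_zero]; exact C.hl.pos
    · exact (natDegree_lt_iff_degree_lt h0).2 (bas_lt z)
  conv_lhs => rw [← AdjoinRoot.mk_leftInverse C.T_monic z, ← AdjoinRoot.aeval_eq,
    aeval_eq_sum_range' h]
  exact sum_congr rfl fun b _ => kl_smul _ _
theorem co_mono {b : ℕ} (hb : b < C.l) (k : RatFunc F) (c : ℕ) :
    C.co c (C.kl k * C.y ^ b) = if c = b then k else 0 := by
  have e : C.kl k * C.y ^ b = AdjoinRoot.mk C.T (monomial b k) := by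
    rw [← AdjoinRoot.aeval_eq, aeval_monomial]
    rfl
  have h : monomial b k %ₘ C.T = monomial b k := (modByMonic_eq_self_iff C.T_monic).2 (by
    rw [bas_deg]
    exact (degree_monomial_le b k).trans_lt (by exact_mod_cast hb))
  rw [e, co, LinearMap.comp_apply, AdjoinRoot.modByMonicHom_mk, h, lcoeff_apply, coeff_monomial]
  simp only [eq_comm]
theorem co_ge {b : ℕ} (hb : C.l ≤ b) (z : C.L) : C.co b z = 0 :=
  coeff_eq_zero_of_degree_lt ((bas_lt z).trans_le (by exact_mod_cast hb))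
theorem co_smul (a : F) (b : ℕ) (z : C.L) : C.co b (a • z) = a • C.co b z :=
  LinearMap.map_smul_of_tower _ a z
theorem co_kl (k : RatFunc F) (b : ℕ) (z : C.L) : C.co b (C.kl k * z) = k * C.co b z := by
  rw [← kl_smul, map_smul, smul_eq_mul]
theorem ext_co {z w : C.L} (h : ∀ b < C.l, C.co b z = C.co b w) : z = w := by
  rw [co_sum z, co_sum w]
  exact sum_congr rfl fun b hb => by rw [h b (mem_range.1 hb)]
theorem bas_intDegree {a : F} (ha : a ≠ 0) (k : RatFunc F) : (a • k).intDegree = k.intDegree := by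
  rcases eq_or_ne k 0 with rfl | hk
  · rw [smul_zero]
  rw [RatFunc.smul_eq_C_mul, RatFunc.intDegree_mul ((_root_.map_ne_zero _).2 ha) hk,
    RatFunc.intDegree_C, zero_add]
theorem mem_V {t : ℤ} {z : C.L} : z ∈ C.V t ↔ ∀ b < C.l,
    C.co b z = 0 ∨ C.l * ((C.co b z).intDegree + C.m * b) + b < t := by
  refine ⟨fun h => ?_, fun h => Submodule.subset_span h⟩
  induction h using Submodule.span_induction with
  | mem x hx => exact hx
  | zero => exact fun b _ => Or.inl (map_zero _)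
  | add x w _ _ hx hw =>
    intro b hb
    rw [map_add]
    rcases hx b hb with h1 | h1
    · rw [h1, zero_add]; exact hw b hb
    by_cases h2 : C.co b w = 0
    · rw [h2, add_zero]; exact Or.inr h1
    have h3 := (hw b hb).resolve_left h2
    by_cases h4 : C.co b x + C.co b w = 0
    · exact Or.inl h4
    refine Or.inr ?_
    have h5 := RatFunc.intDegree_add_le h2 h4
    have h6 : (0 : ℤ) ≤ C.l := Int.natCast_nonneg _
    rcases le_max_iff.1 h5 with h7 | h7 <;> nlinarith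
  | smul a x _ hx =>
    intro b hb
    rcases eq_or_ne a 0 with rfl | ha
    · rw [zero_smul]; exact Or.inl (map_zero _)
    rw [co_smul, bas_intDegree ha]
    exact (hx b hb).imp_left fun h => by rw [h, smul_zero]
theorem mem_one {z : C.L} : z ∈ (1 : C.FI) ↔ z ∈ C.O :=
  (FractionalIdeal.mem_one_iff _).trans ⟨fun ⟨x, h⟩ => h ▸ x.2, fun h => ⟨⟨z, h⟩, rfl⟩⟩
theorem pl_mem_one (g : F[X]) : C.pl g ∈ (1 : C.FI) := mem_one.2 (C.O.algebraMap_mem g)
theorem y_mem_one : C.y ∈ (1 : C.FI) := by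
  refine mem_one.2 ⟨X ^ C.l - Polynomial.C C.f, monic_X_pow_sub_C _ C.hl.ne_zero, ?_⟩
  rw [eval₂_sub, eval₂_X_pow, eval₂_C, y_pow, sub_eq_zero]
  rfl
theorem mul_mem {I : C.FI} {o z : C.L} (ho : o ∈ (1 : C.FI)) (hz : z ∈ I) : o * z ∈ I :=
  (I : Submodule C.O C.L).smul_mem (⟨o, mem_one.1 ho⟩ : C.O) hz
theorem smul_mem {I : C.FI} (a : F) {z : C.L} (hz : z ∈ I) : a • z ∈ I := by
  rw [← pl_C]
  exact mul_mem (pl_mem_one _) hz
theorem add_mem {I : C.FI} {z w : C.L} (hz : z ∈ I) (hw : w ∈ I) : z + w ∈ I :=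
  (I : Submodule C.O C.L).add_mem hz hw
theorem sub_mem {I : C.FI} {z w : C.L} (hz : z ∈ I) (hw : w ∈ I) : z - w ∈ I :=
  (I : Submodule C.O C.L).sub_mem hz hw
theorem sum_mem {I : C.FI} {ι : Type} {s : Finset ι} {g : ι → C.L} (h : ∀ i ∈ s, g i ∈ I) :
    ∑ i ∈ s, g i ∈ I := (I : Submodule C.O C.L).sum_mem h
theorem mem_und {I : C.FI} {z : C.L} : z ∈ C.und I ↔ z ∈ I := by
  refine ⟨fun h => ?_, fun h => Submodule.subset_span h⟩
  induction h using Submodule.span_induction with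
  | mem x hx => exact hx
  | zero => exact (I : Submodule C.O C.L).zero_mem
  | add x w _ _ hx hw => exact add_mem hx hw
  | smul a x _ hx => exact smul_mem a hx
theorem sp_mul (z w : C.L) : C.sp (z * w) = C.sp z * C.sp w :=
  (FractionalIdeal.spanSingleton_mul_spanSingleton z w).symm
theorem sp_one : C.sp 1 = 1 := FractionalIdeal.spanSingleton_one
theorem sp_pow (z : C.L) (k : ℕ) : C.sp (z ^ k) = C.sp z ^ k :=
  (FractionalIdeal.spanSingleton_pow z k).symm
theorem sp_ne {z : C.L} (h : z ≠ 0) : C.sp z ≠ 0 := FractionalIdeal.spanSingleton_ne_zero_iff.2 h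
theorem sp_le {z : C.L} {I : C.FI} : C.sp z ≤ I ↔ z ∈ I := FractionalIdeal.spanSingleton_le_iff_mem
theorem sp_smul {a : F} (ha : a ≠ 0) (z : C.L) : C.sp (a • z) = C.sp z := by
  refine le_antisymm (sp_le.2 (smul_mem a (sp_le.1 le_rfl))) (sp_le.2 ?_)
  have h := smul_mem a⁻¹ (sp_le.1 (le_refl (C.sp (a • z))))
  rwa [inv_smul_smul₀ ha] at h
theorem mem_sp_mul {h z : C.L} {I : C.FI} : z ∈ C.sp h * I ↔ ∃ w ∈ I, z = h * w :=
  FractionalIdeal.mem_singleton_mul
theorem mem_sp {h z : C.L} : z ∈ C.sp h ↔ ∃ o ∈ (1 : C.FI), z = h * o := by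
  rw [← mem_sp_mul, mul_one]
theorem bas_kl (k : RatFunc F) : C.kl k = C.pl k.num / C.pl k.denom := by
  rw [← kl_alg, ← kl_alg, ← map_div₀, RatFunc.num_div_denom]
theorem G_ext {s t : C.G} (hy : s.1 C.y = t.1 C.y) (hk : ∀ g, s.1 (C.pl g) = t.1 (C.pl g)) :
    s = t := by
  refine Subtype.ext (RingEquiv.ext fun z => ?_)
  rw [co_sum z]
  simp only [map_sum, map_mul, map_pow, bas_kl, map_div₀, hy, hk]

/-- the action of a field automorphism on rational functions -/
noncomputable def basR (s : F ≃+* F) : RatFunc F ≃+* RatFunc F :=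
  IsFractionRing.ringEquivOfRingEquiv (mapEquiv s)

theorem basR_alg (s : F ≃+* F) (g : F[X]) :
    basR s (algebraMap F[X] (RatFunc F) g) = algebraMap F[X] (RatFunc F) (g.map s) :=
  IsFractionRing.ringEquivOfRingEquiv_algebraMap _ g

theorem basR_deg (s : F ≃+* F) (k : RatFunc F) : (basR s k).intDegree = k.intDegree := by
  rcases eq_or_ne k 0 with rfl | hk
  · rw [map_zero]
  have h : ∀ g : F[X], g ≠ 0 → algebraMap F[X] (RatFunc F) (g.map s) ≠ 0 := fun g hg =>
    RatFunc.algebraMap_ne_zero (Polynomial.map_ne_zero hg)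
  conv_lhs => rw [← RatFunc.num_div_denom k]
  rw [map_div₀, basR_alg, basR_alg, RatFunc.intDegree_div (h _ (RatFunc.num_ne_zero hk))
    (h _ (RatFunc.denom_ne_zero k)), RatFunc.intDegree_polynomial, RatFunc.intDegree_polynomial,
    natDegree_map, natDegree_map]
  rfl

theorem bas_co {φ : C.L →+* C.L} {ψ : RatFunc F → RatFunc F} {z : F}
    (hk : ∀ k, φ (C.kl k) = C.kl (ψ k)) (hy : φ C.y = z • C.y) {b : ℕ} (hb : b < C.l) (w : C.L) :
    C.co b (φ w) = z ^ b • ψ (C.co b w) := by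
  conv_lhs => rw [co_sum w]
  simp only [map_sum, map_mul, map_pow, hk, hy, _root_.smul_pow, mul_smul_comm, co_smul]
  rw [sum_eq_single b (fun c hc h => by rw [co_mono (mem_range.1 hc), if_neg h.symm, smul_zero])
    fun h => absurd (mem_range.2 hb) h, co_mono hb, if_pos rfl]

theorem bas_exists {s : F ≃+* F} (hs : C.f.map s = C.f) {z : F} (hz : z ^ C.l = 1) :
    ∃ t : C.G, t.1 C.y = z • C.y ∧ ∀ g, t.1 (C.pl g) = C.pl (g.map s) := by
  have hz0 : z ≠ 0 := fun h => by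
    rw [h, zero_pow C.hl.ne_zero] at hz
    exact zero_ne_one hz
  obtain ⟨φ, hk, hy⟩ : ∃ φ : C.L →+* C.L, (∀ k, φ (C.kl k) = C.kl (basR s k)) ∧
      φ C.y = z • C.y := by
    have h : C.T.eval₂ (C.kl.comp (basR s)) (z • C.y) = 0 := by
      rw [bas_eval, _root_.smul_pow, hz, one_smul, y_pow, sub_eq_zero,
        RingHom.comp_apply, RingHom.coe_coe, basR_alg, hs, kl_alg]
    exact ⟨AdjoinRoot.lift _ _ h, fun k => AdjoinRoot.lift_of h, AdjoinRoot.lift_root h⟩
  have hp : ∀ g, φ (C.pl g) = C.pl (g.map s) := fun g => by rw [← kl_alg, hk, basR_alg, kl_alg]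
  have hb : Function.Bijective φ := by
    refine ⟨φ.injective, fun w => ⟨∑ b ∈ range C.l,
      C.kl ((basR s).symm ((z ^ b)⁻¹ • C.co b w)) * C.y ^ b, ext_co fun b hb => ?_⟩⟩
    rw [bas_co hk hy hb, map_sum, sum_eq_single b
      (fun c hc h => by rw [co_mono (mem_range.1 hc), if_neg h.symm])
      fun h => absurd (mem_range.2 hb) h, co_mono hb, if_pos rfl, RingEquiv.apply_symm_apply,
      smul_inv_smul₀ (pow_ne_zero _ hz0)]
  refine ⟨⟨RingEquiv.ofBijective φ hb, fun w => ⟨fun h => ?_, fun h => ?_⟩, fun k w => ?_⟩, hy, hp⟩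
  · have := IsIntegral.map_of_comp_eq (mapRingHom (s.symm : F →+* F))
      ((RingEquiv.ofBijective φ hb).symm : C.L →+* C.L) (RingHom.ext fun g => ?_) h
    · rwa [RingHom.coe_coe, RingEquiv.symm_apply_apply] at this
    · refine ((RingEquiv.symm_apply_eq (RingEquiv.ofBijective φ hb)).2 ?_).symm
      change C.pl g = φ (C.pl (g.map s.symm))
      rw [hp, Polynomial.map_map]
      simp
  · exact IsIntegral.map_of_comp_eq (mapRingHom (s : F →+* F)) φ
      (RingHom.ext fun g => (hp g).symm) h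
  · change φ w ∈ _ ↔ _
    simp only [mem_V]
    refine forall₂_congr fun b hb => ?_
    rw [bas_co hk hy hb, bas_intDegree (pow_ne_zero _ hz0), basR_deg,
      smul_eq_zero_iff_right (pow_ne_zero _ hz0), EmbeddingLike.map_eq_zero_iff]

theorem sg_y {z : F} (hz : z ^ C.l = 1) : (C.sg z).1 C.y = z • C.y := by
  have h : ∃ t : C.G, t.1 C.y = z • C.y ∧ ∀ k, t.1 (C.kl k) = C.kl k := by
    obtain ⟨t, h1, h2⟩ := bas_exists (C := C) (s := RingEquiv.refl F) (by simp) hz
    exact ⟨t, h1, fun k => by simp [bas_kl, h2]⟩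
  rw [sg, dif_pos h]
  exact h.choose_spec.1
theorem sg_kl (z : F) (k : RatFunc F) : (C.sg z).1 (C.kl k) = C.kl k := by
  unfold sg
  split_ifs with h
  · exact h.choose_spec.2 k
  · rfl
theorem sg_pl (z : F) (g : F[X]) : (C.sg z).1 (C.pl g) = C.pl g := sg_kl z _
theorem sg_smul (z a : F) (w : C.L) : (C.sg z).1 (a • w) = a • (C.sg z).1 w := by
  rw [← pl_C, map_mul, sg_pl, pl_C]
theorem sg_one : C.sg 1 = 1 :=
  G_ext (by rw [sg_y (one_pow _), one_smul]; rfl) fun g => sg_pl 1 g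
theorem sg_mul {z u : F} (hz : z ^ C.l = 1) (hu : u ^ C.l = 1) :
    C.sg (z * u) = C.sg z * C.sg u := by
  refine G_ext ?_ fun g => ?_
  · change _ = (C.sg z).1 ((C.sg u).1 C.y)
    rw [sg_y (by rw [mul_pow, hz, hu, one_mul]), sg_y hu, sg_smul, sg_y hz, smul_smul, mul_comm]
  · change _ = (C.sg z).1 ((C.sg u).1 _)
    rw [sg_pl, sg_pl, sg_pl]
theorem sg_pow {z : F} (hz : z ^ C.l = 1) (k : ℕ) : C.sg (z ^ k) = C.sg z ^ k := by
  induction k with
  | zero => rw [pow_zero, pow_zero, sg_one]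
  | succ k ih =>
    rw [pow_succ, pow_succ, sg_mul (by rw [← pow_mul, mul_comm, pow_mul, hz, one_pow]) hz, ih]
theorem co_sg {z : F} (hz : z ^ C.l = 1) (b : ℕ) (w : C.L) :
    C.co b ((C.sg z).1 w) = z ^ b • C.co b w := by
  rcases lt_or_ge b C.l with hb | hb
  · exact bas_co (φ := ((C.sg z).1 : C.L →+* C.L)) (ψ := id) (sg_kl z) (sg_y hz) hb w
  · rw [co_ge hb, co_ge hb, smul_zero]
theorem fr_y (s : F ≃+* F) : (C.fr s).1 C.y = C.y := by
  unfold fr
  split_ifs with h
  · exact h.choose_spec.1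
  · rfl
theorem fr_pl {s : F ≃+* F} (hs : C.f.map s = C.f) (g : F[X]) :
    (C.fr s).1 (C.pl g) = C.pl (g.map s) := by
  have h : ∃ t : C.G, t.1 C.y = C.y ∧ ∀ g, t.1 (C.pl g) = C.pl (g.map s) := by
    simpa only [one_smul] using bas_exists hs (one_pow _)
  rw [fr, dif_pos h]
  exact h.choose_spec.2 g
theorem fr_smul {s : F ≃+* F} (hs : C.f.map s = C.f) (a : F) (w : C.L) :
    (C.fr s).1 (a • w) = s a • (C.fr s).1 w := by
  rw [← pl_C, map_mul, fr_pl hs, map_C, pl_C]
  rfl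
theorem fr_pow {s : F ≃+* F} (hs : C.f.map s = C.f) (k : ℕ) : C.fr (s ^ k) = C.fr s ^ k := by
  have e : ∀ (k : ℕ) (g : F[X]), g.map ((s ^ (k + 1) : F ≃+* F) : F →+* F) =
      (g.map (s : F →+* F)).map ((s ^ k : F ≃+* F) : F →+* F) := fun k g => by
    rw [Polynomial.map_map, pow_succ]
    rfl
  have h : ∀ k : ℕ, C.f.map ((s ^ k : F ≃+* F) : F →+* F) = C.f := fun k => by
    induction k with
    | zero => exact Polynomial.map_id
    | succ k ih => rw [e, hs, ih]
  induction k with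
  | zero => exact G_ext (fr_y _) fun g => (fr_pl (h 0) g).trans (congrArg _ Polynomial.map_id)
  | succ k ih =>
    rw [pow_succ (C.fr s), ← ih]
    refine G_ext ?_ fun g => ?_
    · change _ = (C.fr (s ^ k)).1 ((C.fr s).1 C.y)
      rw [fr_y, fr_y, fr_y]
    · change _ = (C.fr (s ^ k)).1 ((C.fr s).1 _)
      rw [fr_pl (h _), fr_pl hs, fr_pl (h _), e]
theorem fr_sg {s : F ≃+* F} (hs : C.f.map s = C.f) {z : F} (hz : z ^ C.l = 1) (h : s z = z) :
    Commute (C.fr s) (C.sg z) := by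
  refine G_ext ?_ fun g => ?_
  · change (C.fr s).1 ((C.sg z).1 C.y) = (C.sg z).1 ((C.fr s).1 C.y)
    rw [fr_y, sg_y hz, fr_smul hs, fr_y, h]
  · change (C.fr s).1 ((C.sg z).1 _) = (C.sg z).1 ((C.fr s).1 _)
    rw [sg_pl, fr_pl hs, sg_pl]
theorem mem_act (t : C.G) (I : C.FI) (z : C.L) : t.1 z ∈ C.act t I ↔ z ∈ I := by
  have h : ∃ e : C.FI ≃+* C.FI, ∀ I z, t.1 z ∈ e I ↔ z ∈ I := by
    let r : C.O ≃+* C.O :=
      { toFun := fun o => ⟨t.1 o, (t.2.1 o).2 o.2⟩
        invFun := fun o => ⟨t.1.symm o, (t.2.1 _).1 (by rw [RingEquiv.apply_symm_apply]; exact o.2)⟩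
        left_inv := fun o => Subtype.ext (t.1.symm_apply_apply _)
        right_inv := fun o => Subtype.ext (t.1.apply_symm_apply _)
        map_mul' := fun a b => Subtype.ext (map_mul t.1 _ _)
        map_add' := fun a b => Subtype.ext (map_add t.1 _ _) }
    have e : ∀ w : C.L, IsFractionRing.ringEquivOfRingEquiv r w = t.1 w := fun w => by
      obtain ⟨a, b, -, rfl⟩ := IsFractionRing.div_surjective (A := C.O) w
      rw [map_div₀, map_div₀, IsFractionRing.ringEquivOfRingEquiv_algebraMap,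
        IsFractionRing.ringEquivOfRingEquiv_algebraMap]
      rfl
    refine ⟨FractionalIdeal.ringEquivOfRingEquiv C.L C.L r, fun I z => ⟨fun ⟨w, h1, h2⟩ => ?_,
      fun h => ⟨z, h, e z⟩⟩⟩
    rwa [← t.1.injective ((e w).symm.trans h2)]
  rw [act, dif_pos h]
  exact h.choose_spec I z
theorem act_mul (s t : C.G) (I : C.FI) : C.act (s * t) I = C.act s (C.act t I) := by
  refine FractionalIdeal.ext fun w => ?_
  obtain ⟨z, rfl⟩ := (s * t).1.surjective w
  rw [mem_act]
  exact ((mem_act s _ (t.1 z)).trans (mem_act t I z)).symm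
theorem act_one (I : C.FI) : C.act 1 I = I := FractionalIdeal.ext fun w => mem_act 1 I w
theorem G_mem_one (t : C.G) {z : C.L} : t.1 z ∈ (1 : C.FI) ↔ z ∈ (1 : C.FI) := by
  rw [mem_one, mem_one]
  exact t.2.1 z
theorem act_sp (t : C.G) (z : C.L) : C.act t (C.sp z) = C.sp (t.1 z) := by
  refine FractionalIdeal.ext fun w => ?_
  obtain ⟨w, rfl⟩ := t.1.surjective w
  rw [mem_act, mem_sp, mem_sp]
  refine ⟨fun ⟨o, h1, h2⟩ => ⟨t.1 o, (G_mem_one t).2 h1, by rw [h2, map_mul]⟩, fun ⟨o, h1, h2⟩ => ?_⟩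
  obtain ⟨o, rfl⟩ := t.1.surjective o
  exact ⟨o, (G_mem_one t).1 h1, t.1.injective (by rw [h2, map_mul])⟩
theorem act_le (t : C.G) {I J : C.FI} : C.act t I ≤ C.act t J ↔ I ≤ J := by
  refine ⟨fun h z hz => (mem_act t J z).1 (h ((mem_act t I z).2 hz)), fun h w hw => ?_⟩
  obtain ⟨z, rfl⟩ := t.1.surjective w
  exact (mem_act t J z).2 (h ((mem_act t I z).1 hw))

end Vale.Agent.P319.A.Crv
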