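import Vale.Agent.P319.A.Sem

/-! Correctness of the branch free linear algebra. -/

namespace Vale.Agent.P319.A

open Polynomial Finset

variable {C E F : Type} [Ops C E] [Field F] {c : C} {Q : ℕ} {π : E → F}

theorem semLA_piv (h : Pt c Q π) {W : Submodule F F[X]} (j : ℕ) (rows : List (List E))
    (hW : ∀ r ∈ rows, toP π r ∈ W) (p : List E) (hp : toP π p ∈ W) :
    toP π (rows.foldl (fun p r => padd c p (psmul c (ind c Q (cf c p j)) r)) p) ∈ W ∧
      ((toP π (rows.foldl (fun p r => padd c p (psmul c (ind c Q (cf c p j)) r)) p)).coeff j = 0 →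
        (toP π p).coeff j = 0 ∧ ∀ r ∈ rows, (toP π r).coeff j = 0) := by
  classical
  induction rows generalizing p with
  | nil => exact ⟨hp, fun e => ⟨e, by simp⟩⟩
  | cons r rows ih =>
    have e : toP π (padd c p (psmul c (ind c Q (cf c p j)) r)) =
        toP π p + (if (toP π p).coeff j = 0 then (1 : F) else 0) • toP π r := by
      rw [h.toHom.padd, h.toHom.psmul, h.ind, ← h.toHom.coeff, smul_eq_C_mul]
    obtain ⟨h1, h2⟩ := ih (fun r hr => hW r (List.mem_cons_of_mem _ hr)) _
      (e ▸ W.add_mem hp (W.smul_mem _ (hW r List.mem_cons_self)))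
    refine ⟨h1, fun e0 => ?_⟩
    obtain ⟨h3, h4⟩ := h2 e0
    rw [e] at h3
    by_cases h5 : (toP π p).coeff j = 0
    · exact ⟨h5, List.forall_mem_cons.2 ⟨by simpa [h5] using h3, h4⟩⟩
    · simp [h5] at h3
theorem piv_spec (h : Pt c Q π) (rows : List (List E)) (j : ℕ) :
    toP π (piv c Q rows j) ∈ spn F (toP π) rows ∧
      ((toP π (piv c Q rows j)).coeff j = 0 → ∀ v ∈ spn F (toP π) rows, v.coeff j = 0) := by
  obtain ⟨h1, h2⟩ := semLA_piv h (W := spn F (toP π) rows) j rows (fun r hr => spn_mem _ hr) []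
    (Submodule.zero_mem _)
  exact ⟨h1, fun e v hv => (spn_le (W := LinearMap.ker (lcoeff F j))).2 (h2 e).2 hv⟩
theorem kill_spec (h : Pt c Q π) (rows : List (List E)) (j : ℕ) (v : F[X]) :
    v ∈ spn F (toP π) (kill c Q rows j) ↔ v ∈ spn F (toP π) rows ∧ v.coeff j = 0 := by
  obtain ⟨h1, h2⟩ := piv_spec h rows j
  obtain ⟨i, hi⟩ : ∃ i, i = π (pinv c Q (cf c (piv c Q rows j) j)) := ⟨_, rfl⟩
  let L : F[X] →ₗ[F] F[X] := LinearMap.id - (lcoeff F j).smulRight (i • toP π (piv c Q rows j))
  have hL : ∀ v, L v = v - v.coeff j • i • toP π (piv c Q rows j) := fun v => rfl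
  have e : ∀ r, toP π (padd c r (psmul c (Ops.neg c (Ops.mul c (cf c r j)
      (pinv c Q (cf c (piv c Q rows j) j)))) (piv c Q rows j))) = L (toP π r) := fun r => by
    rw [h.toHom.padd, h.toHom.psmul, h.neg, h.mul, ← hi, ← h.toHom.coeff, hL, smul_smul,
      ← smul_eq_C_mul, neg_smul, sub_eq_add_neg]
  constructor
  · refine fun hv => (spn_le (W := spn F (toP π) rows ⊓ LinearMap.ker (lcoeff F j))).2 ?_ hv
    intro a ha
    obtain ⟨r, hr, rfl⟩ := List.mem_map.1 ha
    rw [e, hL]
    refine ⟨Submodule.sub_mem _ (spn_mem _ hr) (Submodule.smul_mem _ _ (Submodule.smul_mem _ _ h1)),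
      ?_⟩
    rw [SetLike.mem_coe, LinearMap.mem_ker, lcoeff_apply]
    rw [coeff_sub, coeff_smul, coeff_smul]
    by_cases h3 : (toP π (piv c Q rows j)).coeff j = 0
    · simp [h2 h3 _ (spn_mem _ hr)]
    · rw [hi, h.pinv (h.toHom.coeff _ j ▸ h3), ← h.toHom.coeff, smul_eq_mul, smul_eq_mul,
        inv_mul_cancel₀ h3, mul_one, sub_self]
  · rintro ⟨hv, h0⟩
    have := (spn_le (W := (spn F (toP π) (kill c Q rows j)).comap L)).2
      (fun r hr => Submodule.mem_comap.2 (e r ▸ spn_mem _ (List.mem_map_of_mem hr))) hv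
    rwa [Submodule.mem_comap, hL, h0, zero_smul, sub_zero] at this
theorem elim_succ (c : C) (Q : ℕ) (rows : List (List E)) (w : ℕ) :
    elim c Q rows (w + 1) = kill c Q (elim c Q rows w) w := by
  simp [elim, List.range_succ]
theorem elim_spec (h : Pt c Q π) (rows : List (List E)) (w : ℕ) (v : F[X]) :
    v ∈ spn F (toP π) (elim c Q rows w) ↔
      v ∈ spn F (toP π) rows ∧ ∀ j < w, v.coeff j = 0 := by
  induction w with
  | zero => simp [elim]
  | succ w ih => rw [elim_succ, kill_spec h, ih, Nat.forall_lt_succ_right, and_assoc]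
theorem semLA_rk (h : Pt c Q π) (rows : List (List E)) (j : ℕ) :
    π (eps c Q (cf c (piv c Q rows j) j)) + Module.finrank F (spn F (toP π) (kill c Q rows j)) =
      Module.finrank F (spn F (toP π) rows) := by
  classical
  obtain ⟨h1, h2⟩ := piv_spec h rows j
  have e : spn F (toP π) (kill c Q rows j) = spn F (toP π) rows ⊓ LinearMap.ker (lcoeff F j) :=
    Submodule.ext fun v => kill_spec h rows j v
  rw [h.eps, ← h.toHom.coeff, e]
  split_ifs with h3
  · rw [zero_add, inf_eq_left.2 fun v hv => h2 h3 v hv]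
  · have h4 := ((lcoeff F j).domRestrict (spn F (toP π) rows)).finrank_range_add_finrank_ker
    have h5 : LinearMap.range ((lcoeff F j).domRestrict (spn F (toP π) rows)) = ⊤ :=
      eq_top_iff.2 fun x _ => ⟨(x / (toP π (piv c Q rows j)).coeff j) • ⟨_, h1⟩, by
        simp [h3]⟩
    rw [h5, finrank_top, Module.finrank_self, LinearMap.ker_domRestrict,
      ← Submodule.finrank_map_subtype_eq, Submodule.map_comap_subtype] at h4
    rw [← h4]
    push_cast
    rfl
/-- the rank, if all rows have at most `w` entries -/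
theorem rk_spec (h : Pt c Q π) {w : ℕ} {rows : List (List E)} (hw : ∀ r ∈ rows, r.length ≤ w) :
    π (rk c Q w rows) = (Module.finrank F (spn F (toP π) rows) : F) := by
  have h1 : ∀ n, ∑ j ∈ range n, π (eps c Q (cf c (piv c Q (elim c Q rows j) j) j)) +
      Module.finrank F (spn F (toP π) (elim c Q rows n)) = Module.finrank F (spn F (toP π) rows) := by
    intro n
    induction n with
    | zero => rw [sum_range_zero, zero_add]; rfl
    | succ n ih => rw [sum_range_succ, elim_succ, add_assoc, semLA_rk h, ih]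
  have h2 : spn F (toP π) (elim c Q rows w) = ⊥ := by
    refine eq_bot_iff.2 fun v hv => ?_
    obtain ⟨h3, h4⟩ := (elim_spec h rows w v).1 hv
    have h5 := mem_degreeLT.1 ((spn_le (W := degreeLT F w)).2 (fun r hr => mem_degreeLT.2
      ((degree_toP_lt r).trans_le (by exact_mod_cast hw r hr))) h3)
    refine Polynomial.ext fun j => ?_
    rcases lt_or_ge j w with hj | hj
    · exact h4 j hj
    · exact coeff_eq_zero_of_degree_lt (h5.trans_le (by exact_mod_cast hj))
  rw [rk, h.toHom.sumL_range, ← h1 w, h2]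
  simp
theorem semLA_drop (w : ℕ) (L : List (List E)) (lam : F[X]) :
    lam ∈ spn F (toP π) (L.map (List.drop w)) ↔
      ∃ v ∈ spn F (toP π) L, ∀ j, lam.coeff j = v.coeff (w + j) := by
  have e : ∀ (μ : ℕ → F) (j : ℕ), (∑ i ∈ range (L.map (List.drop w)).length,
      μ i • toP π ((L.map (List.drop w)).getD i (List.drop w []))).coeff j =
      (∑ i ∈ range L.length, μ i • toP π (L.getD i [])).coeff (w + j) := fun μ j => by
    simp only [finset_sum_coeff, coeff_smul, List.getD_map, coeff_toP_drop, List.length_map]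
  simp only [mem_spn _ (L.map (List.drop w)) (List.drop w []), mem_spn _ L []]
  constructor
  · rintro ⟨μ, rfl⟩
    exact ⟨_, ⟨μ, rfl⟩, e μ⟩
  · rintro ⟨_, ⟨μ, rfl⟩, h⟩
    exact ⟨μ, Polynomial.ext fun j => (h j).trans (e μ j).symm⟩
theorem kerC_spec (h : Pt c Q π) (w : ℕ) (rows : List (List E)) (lam : F[X]) :
    lam ∈ spn F (toP π) (kerC c Q w rows) ↔ lam.degree < rows.length ∧ ∀ j < w,
      ∑ i ∈ range rows.length, lam.coeff i * (toP π (rows.getD i [])).coeff j = 0 := by
  have e : ∀ (μ : ℕ → F) (j : ℕ), (∑ i ∈ range rows.length, μ i • toP π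
      (((List.range rows.length).map fun i => fit c w (rows.getD i []) ++ xp c i).getD i [])).coeff j =
      ∑ i ∈ range rows.length, μ i * ((if j < w then (toP π (rows.getD i [])).coeff j else 0) +
        if j = w + i then 1 else 0) := fun μ j => by
    rw [finset_sum_coeff]
    refine sum_congr rfl fun i hi => ?_
    rw [List.getD_eq_getElem _ _ (by simpa using hi), List.getElem_map, List.getElem_range,
      toP_append, h.toHom.xp, length_fit, ← pow_add, coeff_smul, coeff_add, h.toHom.coeff_fit,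
      coeff_X_pow, smul_eq_mul]
  have e1 : ∀ (μ : ℕ → F) (j : ℕ), j < w → ∑ i ∈ range rows.length,
      μ i * ((if j < w then (toP π (rows.getD i [])).coeff j else 0) + if j = w + i then 1 else 0) =
      ∑ i ∈ range rows.length, μ i * (toP π (rows.getD i [])).coeff j := fun μ j hj =>
    sum_congr rfl fun i _ => by rw [if_pos hj, if_neg (by omega), add_zero]
  have e2 : ∀ (μ : ℕ → F) (j : ℕ), ∑ i ∈ range rows.length,
      μ i * ((if w + j < w then (toP π (rows.getD i [])).coeff (w + j) else 0) +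
        if w + j = w + i then 1 else 0) = if j < rows.length then μ j else 0 := fun μ j => by
    simp
  simp only [kerC, semLA_drop, elim_spec h]
  simp only [mem_spn _ _ ([] : List E), List.length_map, List.length_range]
  constructor
  · rintro ⟨_, ⟨⟨μ, rfl⟩, h1⟩, h2⟩
    simp only [e, e2] at h1 h2
    refine ⟨(degree_lt_iff_coeff_zero _ _).2 fun j hj => by rw [h2, if_neg (by omega)],
      fun j hj => ?_⟩
    rw [← h1 j hj, e1 _ _ hj]
    exact sum_congr rfl fun i hi => by rw [h2, if_pos (mem_range.1 hi)]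
  · rintro ⟨h1, h2⟩
    refine ⟨_, ⟨⟨lam.coeff, rfl⟩, fun j hj => by rw [e, e1 _ _ hj, h2 j hj]⟩, fun j => ?_⟩
    rw [e, e2]
    split_ifs with hj
    · rfl
    · exact (degree_lt_iff_coeff_zero _ _).1 h1 j (by omega)
theorem solC_spec (h : Pt c Q π) (w : ℕ) (rows : List (List E)) (tg : List E) (μ : ℕ → F)
    (hμ : ∀ j < w, ∑ i ∈ range rows.length, μ i * (toP π (rows.getD i [])).coeff j =
      (toP π tg).coeff j) :
    ∀ j < w, ∑ i ∈ range rows.length, (toP π (solC c Q w rows tg)).coeff i *
      (toP π (rows.getD i [])).coeff j = (toP π tg).coeff j := by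
  intro j hj
  obtain ⟨h1, h2⟩ := piv_spec h (kerC c Q w (pneg c tg :: rows)) 0
  have e : ∀ (lam : F[X]) (j : ℕ), ∑ i ∈ range (pneg c tg :: rows).length,
      lam.coeff i * (toP π ((pneg c tg :: rows).getD i [])).coeff j =
      ∑ i ∈ range rows.length, lam.coeff (i + 1) * (toP π (rows.getD i [])).coeff j -
        lam.coeff 0 * (toP π tg).coeff j := fun lam j => by
    rw [List.length_cons, sum_range_succ']
    simp only [List.getD_cons_succ, List.getD_cons_zero, h.toHom.pneg, coeff_neg]
    ring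
  have h3 : (toP π (piv c Q (kerC c Q w (pneg c tg :: rows)) 0)).coeff 0 ≠ 0 := fun h3 => by
    have h4 := h2 h3 (toP id (1 :: (List.range rows.length).map μ)) ((kerC_spec h _ _ _).2
      ⟨by simpa using degree_toP_lt (π := id) (1 :: (List.range rows.length).map μ),
        fun j hj => by
          rw [e, ← hμ j hj, toP_cons, sub_eq_zero]
          simp only [coeff_add, coeff_C_succ, coeff_X_mul, zero_add, coeff_toP_range]
          rw [coeff_C_zero, mul_coeff_zero, coeff_X_zero, zero_mul, add_zero, id, one_mul]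
          exact sum_congr rfl fun i hi => by rw [if_pos (mem_range.1 hi), id]⟩)
    simp [toP_cons] at h4
  have h5 := ((kerC_spec h _ _ _).1 h1).2 j hj
  rw [e, sub_eq_zero] at h5
  refine mul_left_cancel₀ h3 ?_
  rw [← h5, mul_sum]
  refine sum_congr rfl fun i _ => ?_
  rw [solC, coeff_toP_drop, h.toHom.psmul, h.pinv (h.toHom.coeff _ 0 ▸ h3), ← h.toHom.coeff,
    coeff_C_mul, ← mul_assoc, mul_inv_cancel_left₀ h3, add_comm]

end Vale.Agent.P319.A
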