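import Vale.Agent.P319.A.Top
import Vale.Agent.P319.A.SemLA

/-! Roots and the reduction of factoring to root finding. -/

namespace Vale.Agent.P319.A

open Polynomial Finset

variable {p : ℕ} [Fact p.Prime]

/-- the statement proved in CSplit -/
def SplitOK (p : ℕ) [Fact p.Prime] : Prop := ∀ {g : List ℕ}, 2 ≤ g.length → bnd g.length < p →
  (mon (pz p) g).Separable → (mon (pz p) g).Splits → ∀ {t : List ℕ × List ℕ},
    FieldOK p g.length.minFac t → Cut p g (split p t g)
theorem berl_len {g u : List ℕ} (h : mon (pz p) g ∣ mon (pz p) u) : g.length ≤ u.length := by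
  have := natDegree_le_of_dvd h (mon_monic u).ne_zero
  rwa [natDegree_mon, natDegree_mon] at this

theorem berl_deg (g : List ℕ) : (mon (pz p) g).degree = g.length := by
  rw [degree_eq_natDegree (mon_monic g).ne_zero, natDegree_mon]

theorem berl_nu {g : List ℕ} (h0 : 0 < g.length) : ¬ IsUnit (mon (pz p) g) := fun h => by
  have := natDegree_eq_zero_of_isUnit h
  rw [natDegree_mon] at this
  omega

theorem berl_getD {α : Type} (f : ℕ → α) {n i : ℕ} (hi : i < n) (d : α) :
    ((List.range n).map f).getD i d = f i := by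
  simp [List.getD_eq_getElem?_getD, hi]

theorem berl_rootC (hS : SplitOK p) {tab : Tab} {N : ℕ} (ht : TabOK p tab N) {g : List ℕ}
    (hN : g.length ≤ N) (hs : (mon (pz p) g).Separable) (hr : (mon (pz p) g).Splits)
    (h0 : 0 < g.length) (hi : ¬ Irreducible (mon (pz p) g)) : Cut p g (rootC p tab g) := by
  have h2 : 2 ≤ g.length := by
    by_contra hc
    refine hi (irreducible_of_degree_eq_one ?_)
    rw [berl_deg, show g.length = 1 by omega]; rfl
  unfold rootC
  split_ifs with hp
  · obtain ⟨ρ, hρ⟩ := hr.exists_eval_eq_zero (by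
      rw [berl_deg]; exact_mod_cast (by omega : g.length ≠ 0))
    have e : toP (pz p) [Ops.neg p ρ.val, 1] = X - Polynomial.C ρ := by
      rw [toP_cons, toP_single, (pt_pz (p := p)).toHom.neg]
      simp only [pz, ZMod.natCast_val, ZMod.cast_id', id_eq, Nat.cast_one, map_one, mul_one,
        map_neg]
      ring
    refine ⟨[Ops.neg p ρ.val, 1], List.mem_map.2 ⟨ρ.val, ?_, rfl⟩, ?_, ?_⟩
    · rw [List.mem_range, min_eq_left hp]; exact ZMod.val_lt ρ
    · rw [e]
      exact fun hc => not_isUnit_X_sub_C ρ (hc.isUnit_of_dvd' (dvd_iff_isRoot.2 hρ) dvd_rfl)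
    · rw [e]
      intro hd
      have := natDegree_le_of_dvd hd (X_sub_C_ne_zero ρ)
      rw [natDegree_mon, natDegree_X_sub_C] at this
      omega
  · push Not at hp
    rw [minF_eq h2]
    have hl : g.length.minFac ≤ g.length := Nat.minFac_le h0
    refine hS h2 hp hs hr (ht _ (Nat.minFac_prime (by omega)) (hl.trans hN) (lt_of_le_of_lt ?_ hp))
    exact Nat.pow_le_pow_left (by omega) 8

theorem roots_spec (hS : SplitOK p) {tab : Tab} {N : ℕ} (ht : TabOK p tab N) {u : List ℕ}
    (hN : u.length ≤ N) (hs : (mon (pz p) u).Separable) (hr : (mon (pz p) u).Splits)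
    {r : ZMod p} (h : (mon (pz p) u).IsRoot r) : ∃ a ∈ roots p tab u, (a : ZMod p) = r := by
  have h0 : 0 < u.length := by
    rcases u with _ | ⟨a, u⟩
    · simp [mon, toP_nil] at h
    · simp
  obtain ⟨h1, h2⟩ := refine_spec (cand := rootC p tab) h0 fun g hd hg hi =>
    berl_rootC hS ht ((berl_len hd).trans hN) (hs.of_dvd hd)
      (hr.of_dvd (mon_monic u).ne_zero hd) hg hi
  have h3 : X - Polynomial.C r ∣ ((refine p (rootC p tab) u).map (mon (pz p))).prod := by
    rw [h1]; exact dvd_iff_isRoot.2 h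
  obtain ⟨G, hG, hd⟩ := (prime_X_sub_C r).dvd_prod_iff.1 h3
  obtain ⟨g, hg, rfl⟩ := List.mem_map.1 hG
  have hroot := dvd_iff_isRoot.1 hd
  have h4 := degree_eq_one_of_irreducible_of_root (h2 g hg) hroot
  rw [berl_deg] at h4
  have h5 : g.length = 1 := by exact_mod_cast h4
  obtain ⟨c, rfl⟩ := List.length_eq_one_iff.1 h5
  refine ⟨_, List.mem_map.2 ⟨[c], hg, rfl⟩, ?_⟩
  have e := (pt_pz (p := p)).toHom.neg (cf p [c] 0)
  simp only [mon, toP_single, IsRoot, List.length_singleton, pow_one, eval_add, eval_X,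
    eval_C] at hroot
  change pz p _ = r
  rw [e]
  change -pz p c = r
  linear_combination -hroot
theorem berl_lin {K : Type} [Field K] {G : K[X]} (hG : G.Monic) {n : ℕ} (hn : G.natDegree = n)
    (μ : ℕ → K) (T : ℕ → K[X]) (t : K[X]) :
    (∀ j < n, ∑ i ∈ range n, μ i * (T i %ₘ G).coeff j = (t %ₘ G).coeff j) ↔
      G ∣ ∑ i ∈ range n, μ i • T i - t := by
  have e : (∑ i ∈ range n, μ i • T i - t) %ₘ G = ∑ i ∈ range n, μ i • (T i %ₘ G) - t %ₘ G := by
    have := map_sub (modByMonicHom G) (∑ i ∈ range n, μ i • T i) t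
    rw [map_sum] at this
    simpa only [map_smul, modByMonicHom_apply] using this
  have e2 : ∀ j, ((∑ i ∈ range n, μ i • T i - t) %ₘ G).coeff j =
      ∑ i ∈ range n, μ i * (T i %ₘ G).coeff j - (t %ₘ G).coeff j := fun j => by
    rw [e, coeff_sub, finsetSum_coeff]
    simp only [coeff_smul, smul_eq_mul]
  rw [← modByMonic_eq_zero_iff_dvd hG]
  constructor
  · intro h
    ext j
    by_cases hj : j < n
    · rw [e2, h j hj, sub_self, coeff_zero]
    · refine coeff_eq_zero_of_degree_lt ((degree_modByMonic_lt _ hG).trans_le ?_)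
      rw [degree_eq_natDegree hG.ne_zero, hn]
      exact_mod_cast not_lt.1 hj
  · intro h j _
    rw [← sub_eq_zero, ← e2, h, coeff_zero]

theorem berl_chi {K : Type} [Field K] {G : K[X]} (hG : G.Monic) (B : K[X]) :
    ∃ μ : ℕ → K, G ∣ ∑ i ∈ range G.natDegree, μ i • B ^ i + B ^ G.natDegree := by
  have := hG.free_adjoinRoot
  have := hG.finite_adjoinRoot
  set β := AdjoinRoot.mk G B with hβ
  have h1 : (minpoly K β).natDegree ≤ G.natDegree := by
    have := minpoly.natDegree_le (A := K) β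
    rwa [(AdjoinRoot.powerBasis' hG).finrank, AdjoinRoot.powerBasis'_dim] at this
  have hm : (minpoly K β).Monic := minpoly.monic (Algebra.IsIntegral.isIntegral β)
  set χ := X ^ (G.natDegree - (minpoly K β).natDegree) * minpoly K β with hχ
  have hχm : χ.Monic := (monic_X_pow _).mul hm
  have hχd : χ.natDegree = G.natDegree := by
    rw [hχ, (monic_X_pow _).natDegree_mul hm, natDegree_X_pow]; omega
  refine ⟨χ.coeff, ?_⟩
  have h2 : aeval B χ = ∑ i ∈ range G.natDegree, χ.coeff i • B ^ i + B ^ G.natDegree := by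
    rw [aeval_eq_sum_range, sum_range_succ, hχm.coeff_natDegree, hχd, one_smul]
  rw [← h2, ← AdjoinRoot.mk_eq_zero]
  have h3 := aeval_algHom_apply (AdjoinRoot.mkₐ G) B χ
  simp only [AdjoinRoot.coe_mkₐ] at h3
  rw [← h3, ← hβ, hχ, map_mul, minpoly.aeval, mul_zero]

theorem berl_sum {K : Type} [Field K] {B : K[X]} {n : ℕ} (h : B.degree < n) (T : K[X]) :
    aeval T B = ∑ i ∈ range n, B.coeff i • T ^ i := by
  by_cases h0 : B = 0
  · simp [h0]
  · exact aeval_eq_sum_range' ((natDegree_lt_iff_degree_lt h0).2 h) T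

theorem berl_frob {B : (ZMod p)[X]} {n : ℕ} (h : B.degree < n) :
    ∑ i ∈ range n, B.coeff i • (((X : (ZMod p)[X]) ^ i) ^ p - X ^ i) - 0 = B ^ p - B := by
  have h1 := berl_sum h X
  have h2 := berl_sum h (X ^ p)
  rw [aeval_X_left_apply] at h1
  rw [← comp_eq_aeval, ← expand_eq_comp_X_pow, ZMod.expand_card] at h2
  simp only [smul_sub, sum_sub_distrib, sub_zero]
  rw [← h1, h2]
  simp only [← pow_mul, mul_comm]

theorem berl_idem {G : (ZMod p)[X]} (hG : G.Monic) (hs : G.Separable) (hu : ¬ IsUnit G)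
    (hi : ¬ Irreducible G) :
    ∃ b : (ZMod p)[X], b.degree < G.degree ∧ G ∣ b ^ p - b ∧ ¬ b.degree ≤ 0 := by
  obtain ⟨G1, G2, rfl, h1, h2⟩ : ∃ G1 G2, G = G1 * G2 ∧ ¬ IsUnit G1 ∧ ¬ IsUnit G2 := by
    by_contra hc
    push Not at hc
    refine hi ⟨hu, fun a b e => ?_⟩
    by_cases ha : IsUnit a
    · exact Or.inl ha
    · exact Or.inr (hc a b e ha)
  obtain ⟨a1, a2, e⟩ := hs.isCoprime
  set b := (a1 * G1) %ₘ (G1 * G2) with hb
  have hd : G1 * G2 ∣ b - a1 * G1 := dvd_modByMonic_sub _ _
  have d1 : G1 ∣ b := by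
    have := dvd_add ((Dvd.intro _ rfl : G1 ∣ G1 * G2).trans hd) (Dvd.intro_left a1 rfl)
    rwa [sub_add_cancel] at this
  have d2 : G2 ∣ b - 1 := by
    have := dvd_sub ((Dvd.intro_left _ rfl : G2 ∣ G1 * G2).trans hd) (Dvd.intro_left a2 rfl)
    rwa [show b - a1 * G1 - a2 * G2 = b - 1 by rw [← e]; ring] at this
  refine ⟨b, degree_modByMonic_lt _ hG, ?_, fun h0 => ?_⟩
  · have hp : 1 ≤ p := (Fact.out : p.Prime).one_le
    have e1 : b ^ p - b = b * (b ^ (p - 1) - 1) := by
      rw [mul_sub, mul_one, ← pow_succ', Nat.sub_add_cancel hp]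
    rw [e1]
    refine mul_dvd_mul d1 (d2.trans ?_)
    simpa using sub_dvd_pow_sub_pow b 1 (p - 1)
  · rw [eq_C_of_degree_le_zero h0] at d1 d2
    by_cases hc : b.coeff 0 = 0
    · rw [hc, map_zero, zero_sub, dvd_neg] at d2
      exact h2 (isUnit_of_dvd_one d2)
    · exact h1 (isUnit_of_dvd_unit d1 (isUnit_C.2 (Ne.isUnit hc)))

theorem berl_main (hS : SplitOK p) {tab : Tab} {N : ℕ} (ht : TabOK p tab N) {g : List ℕ}
    (hN : g.length ≤ N) (h0 : 0 < g.length) {b : List ℕ} (hb1 : (toP (pz p) b).degree < g.length)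
    (hb2 : mon (pz p) g ∣ toP (pz p) b ^ p - toP (pz p) b) (hb3 : ¬ (toP (pz p) b).degree ≤ 0)
    {nu : List ℕ} (hnu : nu = fit p g.length (solC p p g.length
      ((List.range g.length).map fun i => pw (Quo.mk p g) b i)
      (Ops.neg (Quo.mk p g) (pw (Quo.mk p g) b g.length)))) :
    ∃ r ∈ roots p tab (pgcd p nu (sub (Quo.mk p nu) (pw (Quo.mk p nu) [0, 1] p) [0, 1])),
      ¬ IsCoprime (mon (pz p) g) (toP (pz p) (sub (Quo.mk p g) b [r])) ∧
      ¬ mon (pz p) g ∣ toP (pz p) (sub (Quo.mk p g) b [r]) := by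
  have H := (pt_pz (p := p)).toHom
  have hG := mon_monic (π := pz p) g
  have hn : (mon (pz p) g).natDegree = g.length := natDegree_mon g
  set G := mon (pz p) g with hGd
  set B := toP (pz p) b with hB
  obtain ⟨μ, hμ⟩ := berl_chi hG B
  rw [hn] at hμ
  have etg : toP (pz p) (Ops.neg (Quo.mk p g) (pw (Quo.mk p g) b g.length)) =
      (-B ^ g.length) %ₘ G := by
    rw [H.quo_neg, H.quo_pw]
    refine modByMonic_eq_of_dvd_sub hG ?_
    rw [neg_sub_neg, ← dvd_neg, neg_sub]
    exact dvd_modByMonic_sub _ _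
  have erow : ∀ (ν : ℕ → ZMod p) (j : ℕ),
      ∑ i ∈ range ((List.range g.length).map fun i => pw (Quo.mk p g) b i).length,
        ν i * (toP (pz p) (((List.range g.length).map fun i =>
          pw (Quo.mk p g) b i).getD i [])).coeff j =
      ∑ i ∈ range g.length, ν i * (B ^ i %ₘ G).coeff j := fun ν j => by
    rw [List.length_map, List.length_range]
    refine sum_congr rfl fun i hi => ?_
    rw [berl_getD _ (mem_range.1 hi), H.quo_pw]
  have hsol := solC_spec (pt_pz (p := p)) g.length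
    ((List.range g.length).map fun i => pw (Quo.mk p g) b i)
    (Ops.neg (Quo.mk p g) (pw (Quo.mk p g) b g.length)) μ (by
      simp only [erow, etg]
      exact (berl_lin hG hn μ (fun i => B ^ i) _).2 (by rwa [sub_neg_eq_add]))
  simp only [erow, etg] at hsol
  have hsol2 := (berl_lin hG hn _ (fun i => B ^ i) _).1 hsol
  have hlen : nu.length = g.length := by rw [hnu, length_fit]
  have hν : G ∣ aeval B (mon (pz p) nu) := by
    have h1 : (toP (pz p) nu).degree < g.length := hlen ▸ degree_toP_lt nu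
    rw [mon, map_add, berl_sum h1, hlen, map_pow, aeval_X, add_comm]
    rw [sub_neg_eq_add] at hsol2
    convert hsol2 using 2
    refine sum_congr rfl fun i hi => ?_
    rw [hnu, H.coeff_fit, if_pos (mem_range.1 hi)]
  have eX : toP (pz p) [0, 1] = X := by
    rw [toP_cons, toP_single]; simp
  have hsub : mon (pz p) nu ∣ toP (pz p)
      (sub (Quo.mk p nu) (pw (Quo.mk p nu) [0, 1] p) [0, 1]) - (X ^ p - X) := by
    rw [H.quo_sub, H.quo_pw, eX]
    have a1 := dvd_modByMonic_sub (X ^ p %ₘ mon (pz p) nu - X) (mon (pz p) nu)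
    have a2 := dvd_modByMonic_sub (X ^ p) (mon (pz p) nu)
    convert dvd_add a1 a2 using 1
    ring
  obtain ⟨g1, g2, g3⟩ := pgcd_spec (p := p) nu
    (sub (Quo.mk p nu) (pw (Quo.mk p nu) [0, 1] p) [0, 1])
  set d := pgcd p nu (sub (Quo.mk p nu) (pw (Quo.mk p nu) [0, 1] p) [0, 1]) with hd
  have d1 : mon (pz p) d ∣ X ^ p - X := by
    have := dvd_sub g2 (g1.trans hsub)
    rwa [sub_sub_cancel] at this
  have hXne : (X ^ p - X : (ZMod p)[X]) ≠ 0 :=
    FiniteField.X_pow_card_sub_X_ne_zero _ (Fact.out : p.Prime).one_lt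
  have hsp : (X ^ p - X : (ZMod p)[X]).Splits := by
    rw [splits_iff_card_roots]
    have h1 := FiniteField.roots_X_pow_card_sub_X (ZMod p)
    rw [ZMod.card] at h1
    rw [h1, FiniteField.X_pow_card_sub_X_natDegree_eq _ (Fact.out : p.Prime).one_lt]
    exact ZMod.card p
  have d2 : G ∣ aeval B (mon (pz p) d) := by
    classical
    have a1 : EuclideanDomain.gcd (mon (pz p) nu) (X ^ p - X) ∣ mon (pz p) d := by
      refine g3 _ (EuclideanDomain.gcd_dvd_left _ _) ?_
      have := dvd_add ((EuclideanDomain.gcd_dvd_left _ (X ^ p - X)).trans hsub)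
        (EuclideanDomain.gcd_dvd_right (mon (pz p) nu) (X ^ p - X))
      rwa [sub_add_cancel] at this
    refine dvd_trans ?_ (map_dvd (aeval B) a1)
    rw [EuclideanDomain.gcd_eq_gcd_ab, map_add, map_mul, map_mul]
    refine dvd_add (hν.mul_right _) (Dvd.dvd.mul_right ?_ _)
    simpa using hb2
  have hsd := hsp.of_dvd hXne d1
  obtain ⟨φ, hφ, hφG⟩ := WfDvdMonoid.exists_irreducible_factor (berl_nu h0) hG.ne_zero
  have d3 := hφG.trans d2
  rw [hsd.eq_prod_roots_of_monic (mon_monic d), map_multiset_prod, Multiset.map_map] at d3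
  obtain ⟨r, hr, hφr⟩ := hφ.prime.exists_mem_multiset_map_dvd d3
  simp only [Function.comp, map_sub, aeval_X, aeval_C, Polynomial.algebraMap_eq] at hφr
  obtain ⟨a, ha, rfl⟩ := roots_spec hS ht ((berl_len g1).trans (hlen ▸ hN))
    ((galois_poly_separable p p dvd_rfl).of_dvd d1) hsd ((mem_roots (mon_monic d).ne_zero).1 hr)
  refine ⟨a, ha, ?_, ?_⟩
  · rw [H.quo_sub, toP_single]
    intro hc
    refine hφ.not_isUnit (hc.isUnit_of_dvd' hφG ?_)
    have := dvd_add (hφG.trans (dvd_modByMonic_sub (B - Polynomial.C (pz p a)) G)) hφr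
    rwa [sub_add_cancel] at this
  · rw [H.quo_sub, toP_single, dvd_modByMonic_iff_dvd]
    intro hc
    have h1 : (B - Polynomial.C (pz p a)).degree = B.degree := degree_sub_C (not_le.1 hb3)
    have h2 := eq_zero_of_dvd_of_degree_lt hc (by rw [h1, berl_deg]; exact hb1)
    rw [h2, degree_zero] at h1
    exact hb3 (h1 ▸ bot_le)

theorem berl_spec (hS : SplitOK p) {tab : Tab} {N : ℕ} (ht : TabOK p tab N) {g : List ℕ}
    (hN : g.length ≤ N) (h0 : 0 < g.length) (hi : ¬ Irreducible (mon (pz p) g)) :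
    Cut p g (berl p tab g) := by
  have H := (pt_pz (p := p)).toHom
  have hG := mon_monic (π := pz p) g
  have hn : (mon (pz p) g).natDegree = g.length := natDegree_mon g
  have hp : p ≠ 0 := (Fact.out : p.Prime).ne_zero
  by_cases hs : (mon (pz p) g).Separable
  · obtain ⟨b, b1, b2, b3⟩ := berl_idem hG hs (berl_nu h0) hi
    rw [berl_deg] at b1
    have key : ∀ lam : (ZMod p)[X], lam ∈ spn (ZMod p) (toP (pz p)) (kerC p p g.length
        ((List.range g.length).map fun i =>
          sub (Quo.mk p g) (pw (Quo.mk p g) (xp p i) p) (xp p i))) ↔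
        lam.degree < g.length ∧ mon (pz p) g ∣ lam ^ p - lam := fun lam => by
      rw [kerC_spec (pt_pz (p := p)), List.length_map, List.length_range]
      refine and_congr_right fun hl => ?_
      rw [← berl_frob hl, ← berl_lin hG hn]
      refine forall₂_congr fun j _ => ?_
      rw [zero_modByMonic, coeff_zero, sum_congr rfl]
      intro i hi'
      rw [berl_getD _ (mem_range.1 hi'), H.quo_sub, H.quo_pw, H.xp]
      congr 2
      refine modByMonic_eq_of_dvd_sub hG ?_
      rw [sub_sub_sub_cancel_right]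
      exact dvd_modByMonic_sub _ _
    have hex : ∃ b' ∈ kerC p p g.length ((List.range g.length).map fun i =>
        sub (Quo.mk p g) (pw (Quo.mk p g) (xp p i) p) (xp p i)),
        ¬ (toP (pz p) b').degree ≤ 0 := by
      by_contra hc
      push Not at hc
      have h1 := (spn_le (W := degreeLE (ZMod p) 0)).2 fun a ha => mem_degreeLE.2 (hc a ha)
      exact b3 (mem_degreeLE.1 (h1 ((key b).2 ⟨b1, b2⟩)))
    obtain ⟨b', hb', hb3⟩ := hex
    obtain ⟨hb1, hb2⟩ := (key _).1 (spn_mem _ hb')
    obtain ⟨r, hr, c1, c2⟩ := berl_main hS ht hN h0 hb1 hb2 hb3 rfl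
    exact ⟨_, List.mem_cons_of_mem _ (List.mem_cons_of_mem _
      (List.mem_flatMap.2 ⟨b', hb', List.mem_map.2 ⟨r, hr, rfl⟩⟩)), c1, c2⟩
  · by_cases hd : derivative (mon (pz p) g) = 0
    · have e : toP (pz p) ((List.range (g.length + 1)).map fun j => cf p (mono p g) (p * j)) =
          contract p (mon (pz p) g) := by
        ext j
        rw [coeff_toP_range, coeff_contract hp, ← H.coeff, H.mono, mul_comm j]
        split_ifs with hj
        · rfl
        · refine (coeff_eq_zero_of_natDegree_lt ?_).symm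
          rw [hn]
          exact lt_of_lt_of_le (by omega) (Nat.le_mul_of_pos_left j (Nat.pos_of_ne_zero hp))
      have e2 : contract p (mon (pz p) g) ^ p = mon (pz p) g := by
        rw [← ZMod.expand_card, expand_contract p hd hp]
      refine ⟨_, List.mem_cons_of_mem _ List.mem_cons_self, ?_, ?_⟩
      · rw [e]
        intro hc
        have h1 := hc.isUnit_of_dvd' ((dvd_pow_self _ hp).trans e2.dvd) dvd_rfl
        have h2 := h1.pow p
        rw [e2] at h2
        exact berl_nu h0 h2
      · rw [e]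
        intro hc
        have h1 : contract p (mon (pz p) g) ≠ 0 := fun h => hG.ne_zero (by
          rw [← e2, h, zero_pow hp])
        have h2 := natDegree_le_of_dvd hc h1
        have h3 := congrArg natDegree e2
        rw [natDegree_pow] at h3
        have h4 := (Fact.out : p.Prime).two_le
        rw [hn] at h2 h3
        nlinarith
    · refine ⟨_, List.mem_cons_self, ?_, ?_⟩
      · rw [H.pder]; exact hs
      · rw [H.pder]
        exact fun hc => hd (eq_zero_of_dvd_of_degree_lt hc (degree_derivative_lt hG.ne_zero))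
theorem fact_spec (hS : SplitOK p) {tab : Tab} {N : ℕ} (ht : TabOK p tab N) {u : List ℕ}
    (hN : u.length ≤ N) (h0 : 0 < u.length) :
    ((fact p tab u).map (mon (pz p))).prod = mon (pz p) u ∧
      ∀ g ∈ fact p tab u, Irreducible (mon (pz p) g) := by
  exact refine_spec h0 fun g hd hg hi => berl_spec hS ht ((berl_len hd).trans hN) hg hi

end Vale.Agent.P319.A
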