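import Vale.Agent.P319.A.DivE

/-! Every solution of the linear system gives a quotient by 1 - sigma. -/

namespace Vale.Agent.P319.A.Crv

open Polynomial Finset

variable {F : Type} [Field F] [IsAlgClosed F] {C : Crv F}

private theorem divS_K {z : F} (hz : IsPrimitiveRoot z C.l) {J : C.FI} (hJ : J ≠ 0) :
    ∃ K : C.FI, K ≠ 0 ∧ K ≤ 1 ∧ K + C.sp C.y = 1 ∧ C.act (C.sg z) (K * J) = K * J ∧
      ∀ c, c ∈ K ↔ ∀ t < C.l, C.sp c * J ≤ C.act (C.sg (z ^ t)) J := by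
  have := NeZero.mk C.hl.ne_zero
  obtain ⟨M, hM⟩ : ∃ M : C.FI, ∀ X, X ≤ M ↔ ∀ u : F, u ^ C.l = 1 → X ≤ C.act (C.sg u) J :=
    ⟨(nthRootsFinset C.l (1 : F)).inf' ⟨1, int_mem_rt.2 (one_pow _)⟩ fun u => C.act (C.sg u) J,
      fun X => (le_inf'_iff _ _).trans (by simp only [int_mem_rt])⟩
  have h0 : 0 < J := (FractionalIdeal.zero_le J).lt_of_ne hJ.symm
  have hK : ∀ X, X ≤ M * J⁻¹ ↔ X * J ≤ M := fun X => le_mul_inv_iff₀ h0
  have hne : ∀ u : F, u ^ C.l = 1 → u ≠ 0 := fun u hu h => by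
    rw [h, zero_pow C.hl.ne_zero] at hu
    exact zero_ne_one hu
  have h1 : ∀ u : F, u ^ C.l = 1 → C.act (C.sg u) M ≤ M := fun u hu => (hM _).2 fun w hw => by
    have h2 : (u⁻¹ * w) ^ C.l = 1 := by rw [mul_pow, inv_pow, hu, hw, inv_one, one_mul]
    have := (act_le (C.sg u)).2 ((hM M).1 le_rfl _ h2)
    rwa [← act_mul, ← sg_mul hu h2, mul_inv_cancel_left₀ (hne u hu)] at this
  obtain ⟨Q, A, B, -, hQ, hA, hB, hA', hB', e⟩ := decomp hJ
  have ha : ∀ (t : C.G) {X : C.FI}, X ≤ 1 → C.act t X ≤ 1 := fun t X h =>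
    ((act_le t).2 h).trans (map_one _).le
  have hy : C.sp C.y ≤ 1 := sp_le.2 y_mem_one
  have hN : C.nrmI A ≤ 1 ∧ C.nrmI A + C.sp C.y = 1 := by
    refine prod_induction _ (fun X : C.FI => X ≤ 1 ∧ X + C.sp C.y = 1)
      (fun a b h h' => ⟨mul_le_one' h.1 h'.1, cop_mul h.1 h'.1 h.2 h'.2⟩)
      ⟨le_rfl, sup_eq_left.2 hy⟩ fun u hu => ⟨ha _ hA, ?_⟩
    rw [int_mem_rt] at hu
    rw [← sp_smul (hne u hu), ← sg_y hu, ← act_sp, ← map_add, hA', map_one]
  have h2 : B * C.nrmI A ≤ M * J⁻¹ := (hK _).2 ((hM _).2 fun u _ => by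
    calc B * C.nrmI A * J = C.nrmI (C.act (C.sg u) A) * (Q * A) := by
          rw [nrmI_sg, ← e]
          ring
      _ ≤ C.act (C.sg u) A * (Q * 1) := mul_le_mul' (nrmI_le (ha _ hA)) (mul_le_mul' le_rfl hA)
      _ = C.act (C.sg u) (J * B) := by rw [e, map_mul, hQ, mul_one, mul_comm]
      _ ≤ C.act (C.sg u) J := (act_le _).2 (mul_le_of_le_one_right' hB))
  have h3 : M * J⁻¹ ≤ 1 := by
    rw [mul_inv_le_iff₀ h0, one_mul]
    have := (hM M).1 le_rfl 1 (one_pow _)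
    rwa [sg_one, act_one] at this
  have h4 : M * J⁻¹ + C.sp C.y = 1 := le_antisymm (sup_le h3 hy)
    ((cop_mul hB hN.1 hB' hN.2).ge.trans (sup_le_sup_right h2 _))
  refine ⟨_, fun h => ?_, h3, h4, ?_, fun c => ?_⟩
  · rw [h, zero_add] at h4
    have h5 := natDegree_eq_zero_of_isUnit (isUnit_of_dvd_one (pl_mem_spy.1 (h4 ▸ pl_mem_one 1)))
    exact (Nat.mul_pos C.hl.pos C.hm).ne' (C.deg ▸ h5)
  · have h5 : z⁻¹ ^ C.l = 1 := hz.inv.pow_eq_one
    have h6 := (act_le (C.sg z)).2 (h1 _ h5)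
    rw [← act_mul, ← sg_mul hz.pow_eq_one h5, mul_inv_cancel₀ (hne z hz.pow_eq_one), sg_one,
      act_one] at h6
    rw [inv_mul_cancel_right₀ hJ]
    exact le_antisymm (h1 z hz.pow_eq_one) h6
  · rw [← sp_le, hK, hM]
    refine ⟨fun h t _ => h _ (int_pow_rt hz.pow_eq_one t), fun h u hu => ?_⟩
    obtain ⟨t, ht, rfl⟩ := hz.eq_pow_of_pow_eq_one hu
    exact h t ht

omit [IsAlgClosed F] in
private theorem divS_single (z : F) (g w : C.L) {t : ℕ} (ht : t < C.l) :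
    C.op z g (Pi.single t 1) w = C.hp z g t * (C.sg (z ^ t)).1 w := by
  rw [op, sum_eq_single t (fun b _ hb => by rw [Pi.single_eq_of_ne hb, zero_mul, zero_mul])
    (fun h => absurd (mem_range.2 ht) h), Pi.single_eq_same, one_mul]

omit [IsAlgClosed F] in
private theorem divS_zero (z : F) (g w : C.L) : C.op z g (Pi.single 0 1) w = w := by
  rw [divS_single z g w C.hl.pos, hp, prod_range_zero, pow_zero, int_sg_one, one_mul]

omit [IsAlgClosed F] in
private theorem divS_kl (z : F) (g w : C.L) (A : ℕ → C.L) (k : RatFunc F) :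
    C.op z g A (C.kl k * w) = C.kl k * C.op z g A w := by
  rw [op, op, mul_sum]
  refine sum_congr rfl fun t _ => ?_
  rw [map_mul, sg_kl]
  ring

private noncomputable def divL (z : F) (g D : C.L) (A : ℕ → C.L) : C.L →ₗ[RatFunc F] C.L where
  toFun w := C.op z g A w / D
  map_add' a b := by
    rw [← add_div, op, op, op, ← sum_add_distrib]
    simp only [map_add, mul_add]
  map_smul' k a := by rw [RingHom.id_apply, kl_smul, kl_smul, divS_kl, mul_div_assoc]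

private theorem divS_iter {z : F} (hz : IsPrimitiveRoot z C.l) {g : C.L} {U D : F[X]}
    (hn : C.nrm g = C.pl U) (hD : D ≠ 0) (R : ℕ → C.L) (k : ℕ) (w : C.L) :
    C.op z g ((C.tw z U R)^[k] (Pi.single 0 1)) w =
      C.pl (D ^ k) * (divL z g (C.pl D) R ^ k) w := by
  induction k with
  | zero => rw [Function.iterate_zero_apply, divS_zero, pow_zero, pow_zero, map_one, one_mul,
      Module.End.one_apply]
  | succ k ih =>
    have h : C.pl D ≠ 0 := (map_ne_zero_iff _ pl_inj).2 hD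
    rw [Function.iterate_succ_apply', op_tw hz hn, ih, ← kl_alg, divS_kl, kl_alg,
      pow_succ' (divL _ _ _ _), Module.End.mul_apply, pow_succ, map_mul, mul_assoc]
    exact congrArg _ (mul_div_cancel₀ _ h).symm

omit [IsAlgClosed F] in
private theorem divS_int {z : F} {U : F[X]} {A B : ℕ → C.L} (hA : ∀ t < C.l, A t ∈ (1 : C.FI))
    (hB : ∀ t < C.l, B t ∈ (1 : C.FI)) (t : ℕ) : C.tw z U A B t ∈ (1 : C.FI) := by
  refine sum_mem fun a ha => mul_mem (mul_mem (hA a (mem_range.1 ha))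
    ((G_mem_one _).2 (hB _ (Nat.mod_lt _ C.hl.pos)))) ?_
  split_ifs
  · exact map_one C.pl ▸ pl_mem_one 1
  · exact pl_mem_one U

omit [IsAlgClosed F] in
private theorem divS_int1 (a t : ℕ) : (Pi.single a 1 : ℕ → C.L) t ∈ (1 : C.FI) := by
  rw [Pi.single_apply]
  split_ifs
  · exact map_one C.pl ▸ pl_mem_one 1
  · exact map_zero C.pl ▸ pl_mem_one 0

private theorem divS_Le {z : F} {U : F[X]} {e : ℕ} (he : U.natDegree = C.l * e) {A B : ℕ → C.L}
    {i j : ℤ} (hA : ∀ t < C.l, A t ∈ C.Le (i - e * t)) (hB : ∀ t < C.l, B t ∈ C.Le (j - e * t)) :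
    ∀ t < C.l, C.tw z U A B t ∈ C.Le (i + j - e * t) := by
  refine fun t ht => Submodule.sum_mem _ fun a ha => ?_
  rw [mem_range] at ha
  have h1 := Le_mul (hA a ha) ((G_Le (C.sg (z ^ a))).2 (hB _ (Nat.mod_lt (t + C.l - a) C.hl.pos)))
  split_ifs with h
  · obtain ⟨d, rfl⟩ := Nat.exists_eq_add_of_le h
    rw [show a + d + C.l - a = d + C.l by omega, Nat.add_mod_right,
      Nat.mod_eq_of_lt (by omega)] at h1 ⊢
    rw [mul_one]
    exact Le_mono (le_of_eq (by push_cast; ring)) h1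
  · obtain ⟨d, hd⟩ := Nat.exists_eq_add_of_le (show a ≤ t + C.l by omega)
    rw [show t + C.l - a = d by omega, Nat.mod_eq_of_lt (by omega)] at h1 ⊢
    refine Le_mono (le_of_eq ?_) (Le_mul h1 (pl_mem_Le he.le))
    have h2 : (t : ℤ) + C.l = a + d := by exact_mod_cast hd
    push_cast
    linear_combination (e : ℤ) * h2

private theorem divS_near {D : F[X]} (hD : D.Monic) {w : C.L} (hw : w - 1 ∈ C.Le (-1)) :
    C.pl D * w - C.pl (X ^ D.natDegree) ∈ C.Le (D.natDegree - 1) := by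
  have h1 := Le_mul (pl_mem_Le (le_refl D.natDegree)) hw
  have h2 : C.pl (D - X ^ D.natDegree) ∈ C.Le (D.natDegree - 1) := by
    rcases Nat.eq_zero_or_pos D.natDegree with h | h
    · rw [h, pow_zero, eq_one_of_monic_natDegree_zero hD h, sub_self, map_zero]
      exact zero_mem _
    · have h3 : (D - X ^ D.natDegree).natDegree ≤ D.natDegree - 1 := by
        have := eraseLead_natDegree_le D
        rwa [← self_sub_monomial_natDegree_leadingCoeff, hD.leadingCoeff,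
          ← X_pow_eq_monomial] at this
      exact Le_mono (by omega) (pl_mem_Le h3)
  rw [map_sub] at h2
  rw [← sub_eq_add_neg, mul_sub, mul_one] at h1
  exact sub_add_sub_cancel (C.pl D * w) _ _ ▸ Submodule.add_mem _ h1 h2

private theorem divS_one (T : C.L →ₗ[RatFunc F] C.L)
    (h2 : ∀ t : ℤ, ∀ w ∈ C.V (t + 1), T w - (if (C.l : ℤ) ∣ t then w else 0) ∈ C.V t) (k : ℕ) :
    (T ^ k) 1 - 1 ∈ C.V 0 := by
  induction k with
  | zero =>
    rw [pow_zero, Module.End.one_apply, sub_self]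
    exact zero_mem _
  | succ k ih =>
    have a1 := h2 (-1) _ (by rwa [neg_add_cancel])
    have a2 := h2 0 1 (by
      have := (kl_y_mem_V (C := C) C.hl.pos (k := 1) (t := 0 + 1)).2 (Or.inr (by simp))
      rwa [map_one, pow_zero, one_mul] at this)
    rw [if_neg (fun hd => C.hl.one_lt.ne' (by
      exact_mod_cast Int.eq_one_of_dvd_one (Int.natCast_nonneg _) (dvd_neg.1 hd))), sub_zero,
      map_sub] at a1
    rw [if_pos (dvd_zero _)] at a2
    rw [pow_succ', Module.End.mul_apply, ← sub_add_sub_cancel]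
    exact Submodule.add_mem _ (V_mono (by norm_num) a1) a2

theorem div_sound {z : F} (hz : IsPrimitiveRoot z C.l) {I : C.FI} {U s : F[X]} {e : ℕ}
    (h : C.Nice I U) (he : U.natDegree = C.l * e) (hs : C.f ∣ s ^ C.l - U) {g : C.L} {J : C.FI}
    (hN : C.Nrm z I U s e g J) {R : ℕ → C.L} (hR : C.Sys z I U s e R) :
    (∀ t < C.l, C.Ev z U e R t ∈ (1 : C.FI)) ∧
    C.Ev z U e R 0 - C.pl (X ^ ((C.l * C.m + C.l * e) * (C.l - 1))) ∈
      C.Le (((C.l * C.m + C.l * e) * (C.l - 1) : ℕ) - 1) ∧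
    ∃ K : C.FI, K ≠ 0 ∧ K ≤ 1 ∧ K + C.sp C.y = 1 ∧
      C.cl I = C.cl K - C.ac (C.sg z) (C.cl K) ∧
      ∀ c, c ∈ K ↔ ∀ t < C.l, ∀ w ∈ C.Ip z I t,
        c * w * C.Ev z U e R t ∈ C.sp (C.pl U * C.Ev z U e R 0) := by
  have hD : (C.f * U).Monic := C.mon.mul h.mon
  have hD0 : C.pl (C.f * U) ≠ 0 := (map_ne_zero_iff _ pl_inj).2 hD.ne_zero
  have hU0 : C.pl U ≠ 0 := (map_ne_zero_iff _ pl_inj).2 h.mon.ne_zero
  have hg := bal_near hN.ld
  set T := divL z g (C.pl (C.f * U)) R with hT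
  have h2 : ∀ t : ℤ, ∀ w ∈ C.V (t + 1), T w - (if (C.l : ℤ) ∣ t then w else 0) ∈ C.V t :=
    (hN.e3_iff hz h he hR.e0).1 hR.e3
  obtain ⟨u, hu⟩ := rank_one hN.ne T (fun w hw => by
    obtain ⟨x, hx, ex⟩ := mem_sp_mul.1 ((hN.e2_iff hz h hs hR.mem).1 hR.e2 w hw)
    change C.op z g R w / _ ∈ J
    rwa [ex, mul_div_cancel_left₀ _ hD0]) h2
  have h3 := divS_one T h2
  set S := (C.tw z U R)^[C.l - 1] (Pi.single 0 1) with hS
  have h4 : ∀ w, C.op z g S w = C.pl ((C.f * U) ^ (C.l - 1)) * (T ^ (C.l - 1)) w :=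
    divS_iter hz hN.nr hD.ne_zero R _
  obtain ⟨v, hv⟩ : ∃ v, v = C.op z g S 1 := ⟨_, rfl⟩
  have h5 : v - C.pl (X ^ ((C.l * C.m + C.l * e) * (C.l - 1))) ∈
      C.Le (((C.l * C.m + C.l * e) * (C.l - 1) : ℕ) - 1) := by
    have := divS_near (hD.pow (C.l - 1)) (w := (T ^ (C.l - 1)) 1) (by
      rw [Le, neg_add_cancel, mul_zero]
      exact h3 _)
    rwa [← h4, ← hv, hD.natDegree_pow, C.mon.natDegree_mul h.mon, C.deg, he,
      mul_comm (C.l - 1)] at this
  have hvb := (bal_near h5).1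
  have h6 : ∀ w, ∃ k, C.op z g S w = C.kl k * v := fun w => by
    obtain ⟨k, hk⟩ := hu w
    obtain ⟨k0, hk0⟩ := hu 1
    have : C.kl k0 ≠ 0 := fun h0 => hvb.1 (by rw [hv, h4, hk0, h0, zero_mul, mul_zero])
    refine ⟨k / k0, ?_⟩
    rw [hv, h4, h4, hk, hk0, map_div₀]
    field_simp
  have h7 : ∀ t < C.l, C.Ev z U e R t = C.hp z g t * (C.sg (z ^ t)).1 v / v *
      ∑ b ∈ range C.l, S b * C.pl (X ^ (e * b)) := fun t ht => by
    have := op_inj hz hg.1.1 (A := C.tw z U (Pi.single t 1) S)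
      (B := fun b => C.hp z g t * (C.sg (z ^ t)).1 v / v * S b) fun w => by
        obtain ⟨k, hk⟩ := h6 w
        have a1 : C.op z g (fun b => C.hp z g t * (C.sg (z ^ t)).1 v / v * S b) w =
            C.hp z g t * (C.sg (z ^ t)).1 v / v * C.op z g S w := by
          rw [op, op, mul_sum]
          exact sum_congr rfl fun b _ => by ring
        have := hvb.1
        rw [op_tw hz hN.nr, a1, hk, divS_kl, divS_single z g v ht]
        field_simp
    rw [Ev, mul_sum]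
    exact sum_congr rfl fun b hb => by rw [this b (mem_range.1 hb), mul_assoc]
  have h8 : C.Ev z U e R 0 = ∑ b ∈ range C.l, S b * C.pl (X ^ (e * b)) := by
    rw [h7 0 C.hl.pos, hp, prod_range_zero, pow_zero, int_sg_one, one_mul, div_self hvb.1, one_mul]
  have h9 : ∀ k : ℕ, ∀ t < C.l, (C.tw z U R)^[k] (Pi.single 0 1) t ∈ (1 : C.FI) ∧
      (C.tw z U R)^[k] (Pi.single 0 1) t ∈ C.Le (((C.l * C.m + C.l * e) * k : ℕ) - e * t) := by
    intro k
    induction k with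
    | zero =>
      refine fun t _ => ⟨divS_int1 0 t, ?_⟩
      rw [Function.iterate_zero_apply, Pi.single_apply]
      split_ifs with h0
      · rw [h0]
        exact Le_mono (by simp) one_mem_Le
      · exact zero_mem _
    | succ k ih =>
      intro t ht
      rw [Function.iterate_succ_apply']
      refine ⟨divS_int (fun t ht => ?_) (fun t ht => (ih t ht).1) t, Le_mono (le_of_eq ?_)
        (divS_Le he (i := (C.l * C.m + C.l * e : ℕ)) (fun t ht => ?_) (fun t ht => (ih t ht).2) t ht)⟩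
      · exact (prod_le_one' fun b _ => ((act_le _).2 h.le).trans (map_one _).le :
          C.Ip z I t ≤ 1) (hR.mem t ht)
      · push_cast
        ring
      · have := hR.e0 t ht
        rwa [Nat.cast_sub (by nlinarith), Nat.cast_mul e] at this
  have h10 : C.Ev z U e R 0 - C.pl (X ^ ((C.l * C.m + C.l * e) * (C.l - 1))) ∈
      C.Le (((C.l * C.m + C.l * e) * (C.l - 1) : ℕ) - 1) := by
    rw [← sub_sub_sub_cancel_left _ _ v]
    refine Submodule.sub_mem _ h5 ?_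
    rw [h8, hv, op, ← sum_sub_distrib]
    refine Submodule.sum_mem _ fun b hb => ?_
    rw [mem_range] at hb
    rw [map_one, mul_one, ← mul_sub]
    refine Le_mono (le_of_eq ?_) (Le_mul (h9 _ b hb).2 (hN.hp hz h hb.le).2)
    push_cast
    ring
  have hE := (bal_near h10).1.1
  refine ⟨fun t _ => sum_mem fun b _ => mul_mem (divS_int (fun a _ => divS_int1 t a)
    (fun a ha => (h9 _ a ha).1) b) (pl_mem_one _), h10, ?_⟩
  have hJ : C.sp v⁻¹ * J ≠ 0 := mul_ne_zero (sp_ne (inv_ne_zero hvb.1)) hN.ne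
  obtain ⟨K, k1, k2, k3, k4, k5⟩ := divS_K hz hJ
  refine ⟨K, k1, k2, k3, ?_, fun c => (k5 c).trans (forall₂_congr fun t ht => ?_)⟩
  · have a1 := congrArg C.cl hN.eq
    have a2 := ac_cl (C.sg z) (K * (C.sp v⁻¹ * J))
    rw [cl_mul h.ne hN.ne, cl_mul (sp_ne hg.1.1) ((_root_.map_ne_zero _).2 hN.ne), cl_sp hg.1,
      ← ac_cl] at a1
    rw [k4, cl_mul k1 hJ, cl_mul (sp_ne (inv_ne_zero hvb.1)) hN.ne, cl_sp hvb.inv, zero_add,
      map_add] at a2
    rw [eq_sub_iff_add_eq, ← add_left_inj (C.cl J), add_right_comm, a1, zero_add, add_comm, a2]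
  · have a1 := (hN.hp hz h ht.le).1
    have a0 := hvb.1
    have a2 : (C.sg (z ^ t)).1 v ≠ 0 := (_root_.map_ne_zero _).2 a0
    have a3 : C.hp z g t ≠ 0 := prod_ne_zero_iff.2 fun b _ => (_root_.map_ne_zero _).2 hg.1.1
    have a4 : C.Ip z I t ≠ 0 := prod_ne_zero_iff.2 fun b _ => (_root_.map_ne_zero _).2 h.ne
    obtain ⟨q, hq⟩ : ∃ q, q = C.hp z g t * (C.sg (z ^ t)).1 v / v := ⟨_, rfl⟩
    have a5 : q ≠ 0 := hq ▸ div_ne_zero (mul_ne_zero a3 a2) a0
    have a6 : C.act (C.sg (z ^ t)) (C.sp v⁻¹ * J) * (C.Ip z I t * C.sp q) =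
        C.sp (C.pl U) * (C.sp v⁻¹ * J) := by
      have : C.sp ((C.sg (z ^ t)).1 v⁻¹) * C.sp q = C.sp v⁻¹ * C.sp (C.hp z g t) := by
        rw [← sp_mul, ← sp_mul, map_inv₀, hq]
        congr 1
        field_simp
      rw [map_mul, act_sp, mul_left_comm (C.sp (C.pl U)), ← a1, mul_comm (C.Ip z I t) (C.sp q),
        mul_mul_mul_comm, this]
      ring
    have p0 : ∀ {X : C.FI}, X ≠ 0 → 0 < X := fun hX => (FractionalIdeal.zero_le _).lt_of_ne hX.symm
    rw [← mul_le_mul_iff_left₀ (p0 (mul_ne_zero a4 (sp_ne a5))), a6, mul_right_comm,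
      mul_le_mul_iff_left₀ (p0 hJ), h7 t ht, ← h8, ← hq, mul_comm (C.Ip z I t), ← mul_assoc,
      ← sp_mul]
    refine ⟨fun k w hw => ?_, fun k x hx => ?_⟩
    · obtain ⟨o, ho, eo⟩ := mem_sp.1 (k (mem_sp_mul.2 ⟨w, hw, rfl⟩))
      exact mem_sp.2 ⟨o, ho, by linear_combination C.Ev z U e R 0 * eo⟩
    · obtain ⟨w, hw, rfl⟩ := mem_sp_mul.1 hx
      obtain ⟨o, ho, eo⟩ := mem_sp.1 (k w hw)
      exact mem_sp.2 ⟨o, ho, mul_left_cancel₀ hE (by linear_combination eo)⟩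

end Vale.Agent.P319.A.Crv
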