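import Vale.Agent.P319.A.Act

/-! Kernel of 1 - sigma, normal form, descent, the last step. -/

namespace Vale.Agent.P319.A.Crv

open Polynomial Finset

variable {F : Type} [Field F] [IsAlgClosed F] {C : Crv F}

private theorem key_ne (k : F → ℕ) : ∏ a ∈ C.rts, C.P a ^ k a ≠ 0 :=
  prod_ne_zero_iff.mpr fun a _ => pow_ne_zero _ (P_ne a)

private theorem key_sg (z : F) (k : F → ℕ) :
    C.act (C.sg z) (∏ a ∈ C.rts, C.P a ^ k a) = ∏ a ∈ C.rts, C.P a ^ k a := by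
  rw [map_prod]
  exact prod_congr rfl fun a _ => by rw [map_pow, act_sg_P]

private theorem key_act {z : F} (hz : z ^ C.l = 1) {h : C.L} {I J : C.FI} (hJ : J ≠ 0)
    (hI : I ≤ 1) (e : I * J = C.sp h * C.act (C.sg z) J) : ∃ s, C.Act z h J s := by
  refine exists_act hz hJ fun w hw => ?_
  have h1 : I * J ≤ J := by simpa using mul_le_mul_left hI J
  exact h1 (e ▸ mem_sp_mul.mpr ⟨_, (mem_act _ _ _).mpr hw, rfl⟩)

private theorem key_hJ {z : F} (hz : IsPrimitiveRoot z C.l) {I : C.FI} {U : F[X]} (h : C.Nice I U)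
    {Y : C.Cl} (hY : C.cl I = Y - C.ac (C.sg z) Y) : ∃ J g, J ≠ 0 ∧ C.cl J = -Y ∧ C.Bal g ∧
      C.nrm g = C.pl U ∧ I * J = C.sp g * C.act (C.sg z) J := by
  obtain ⟨J, hJ, hc⟩ := cl_surj (-Y)
  obtain ⟨g, hg⟩ := exists_hJ hz h hJ (by rw [hY, hc, map_neg]; abel)
  exact ⟨J, g, hJ, hc, hg⟩

theorem ker_fr {z : F} (hz : IsPrimitiveRoot z C.l) {r : F ≃+* F} (hr : C.f.map r = C.f)
    (hf : ∀ a, C.f.IsRoot a → r a = a) {Y : C.Cl} (h : C.ac (C.sg z) Y = Y) :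
    C.ac (C.fr r) Y = Y := by
  obtain ⟨J, hJ, rfl⟩ := cl_surj Y
  obtain ⟨g, hb, hn, e⟩ := exists_hJ hz nice_one hJ (by rw [cl_one, zero_add, h])
  obtain ⟨s, hs⟩ := key_act hz.pow_eq_one hJ le_rfl e
  obtain ⟨k, hk⟩ := hs.adjust (s' := 1) hz (by rw [one_pow]; exact hs.pow hz hJ hn)
  have h1 := inv_triv hz (mul_ne_zero hJ (key_ne k)) hb (by rw [hn, map_one])
    (by rw [map_mul, key_sg, ← mul_assoc, ← e, one_mul]) hk
  rw [cl_mul hJ (key_ne k), ← eq_neg_iff_add_eq_zero] at h1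
  rw [h1, map_neg, ac_cl, map_prod]
  congr 2
  exact prod_congr rfl fun a ha => by rw [map_pow, act_fr_P hr (hf a (mem_rts.mp ha))]
theorem nrm_exists {z : F} (hz : IsPrimitiveRoot z C.l) {I : C.FI} {U s : F[X]} {e : ℕ}
    (h : C.Nice I U) (he : U.natDegree = C.l * e) {Y : C.Cl} (hY : C.cl I = Y - C.ac (C.sg z) Y)
    (hs : C.f ∣ s ^ C.l - U) : ∃ h J, C.Nrm z I U s e h J := by
  obtain ⟨J, g, hJ, -, hb, hn, e1⟩ := key_hJ hz h hY
  obtain ⟨b, hb', hld⟩ := h90_inf hz hb hn h.mon he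
  have hb0 := hb'.1
  have hs0 : (C.sg z).1 b ≠ 0 := (hb'.G _).1
  have hJ1 : C.sp b⁻¹ * J ≠ 0 := mul_ne_zero (sp_ne (inv_ne_zero hb0)) hJ
  have e2 : I * (C.sp b⁻¹ * J) =
      C.sp (g * (C.sg z).1 b / b) * C.act (C.sg z) (C.sp b⁻¹ * J) := by
    rw [map_mul, act_sp, mul_left_comm, e1, ← mul_assoc, ← mul_assoc, ← sp_mul, ← sp_mul, map_inv₀]
    congr 2
    field_simp
  have hn' : C.nrm (g * (C.sg z).1 b / b) = C.pl U := by
    refine mul_right_cancel₀ (nrm_ne hb0) ?_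
    rw [← nrm_mul, div_mul_cancel₀ _ hb0, nrm_mul, nrm_sg, hn]
  obtain ⟨s0, hs0⟩ := key_act hz.pow_eq_one hJ1 h.le e2
  obtain ⟨k, hk⟩ := hs0.adjust (s' := s) hz (by
    simpa using (hs0.pow hz hJ1 hn').sub hs)
  exact ⟨_, _, mul_ne_zero hJ1 (key_ne k), by
    rw [map_mul _ _ (∏ a ∈ C.rts, _), key_sg, ← mul_assoc, e2, mul_assoc], hn', hld, hk⟩
theorem ratio {z : F} (hz : IsPrimitiveRoot z C.l) {I : C.FI} {U : F[X]} (h : C.Nice I U)
    {Y : C.Cl} (hY : C.cl I = Y - C.ac (C.sg z) Y) {r : F ≃+* F} (hr : C.f.map r = C.f)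
    (hf : ∀ a, C.f.IsRoot a → r a = a) (hrz : r z = z) (hI : C.act (C.fr r) I = I)
    (hU : U.map r = U) (hrY : C.ac (C.fr r) Y = Y) {a0 : F} (h0 : C.f.IsRoot a0)
    (h1 : U.eval a0 = 1) {a : F} (ha : C.f.IsRoot a) : ∃ u, r u = u ∧ u ^ C.l = U.eval a := by
  obtain ⟨J, g, hJ, hc, hb, hn, e1⟩ := key_hJ hz h hY
  obtain ⟨s, hs⟩ := key_act hz.pow_eq_one hJ h.le e1
  have hp : ∀ a, C.f.IsRoot a → s.eval a ^ C.l = U.eval a := fun a ha => by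
    simpa [sub_eq_zero] using f_dvd.mp (hs.pow hz hJ hn) a ha
  obtain ⟨b, hb', e2⟩ := (cl_eq_iff (I := C.act (C.fr r) J) ((C.act _).map_ne_zero_iff.mpr hJ) hJ).mp
    (by rw [← ac_cl, hc, map_neg, hrY])
  have hb0 := hb'.1
  have h2 := (hs.fr hz.pow_eq_one hr hrz).conj hb0
  rw [e2, ← mul_assoc, ← sp_mul, inv_mul_cancel₀ hb0, sp_one, one_mul] at h2
  have e3 := congrArg (C.act (C.fr r)) e1
  rw [map_mul, map_mul, hI, act_sp, ← act_mul, (fr_sg hr hz.pow_eq_one hrz).eq, act_mul, e2,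
    map_mul, act_sp, mul_left_comm, e1, ← mul_assoc, ← mul_assoc, ← sp_mul, ← sp_mul] at e3
  have e4 := mul_right_cancel₀ ((C.act _).map_ne_zero_iff.mpr hJ) e3
  obtain ⟨c, hc0, e5⟩ := bal_unit (((hb.G (C.fr r)).mul (hb'.G (C.sg z))).mul (hb'.mul hb).inv)
    (by rw [sp_mul, ← e4, ← sp_mul, mul_inv_cancel₀ (hb'.mul hb).1, sp_one])
  have e6 : (C.fr r).1 g * (C.sg z).1 b / b = c • g := by
    rw [← one_mul g, ← smul_mul_assoc, ← e5, one_mul]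
    have := hb.1
    field_simp
  rw [e6] at h2
  have h3 : ∀ a, C.f.IsRoot a → r (s.eval a) = c * s.eval a := fun a ha => by
    have h4 := f_dvd.mp (h2.unique hJ (hs.smul c)) a ha
    rw [eval_sub, eval_mul, eval_C, sub_eq_zero] at h4
    rw [← h4, eval_map, ← RingHom.coe_coe, ← eval₂_at_apply, RingHom.coe_coe, hf a ha]
  refine ⟨s.eval a / s.eval a0, ?_, ?_⟩
  · rw [map_div₀, h3 a ha, h3 a0 h0, mul_div_mul_left _ _ hc0]
  · rw [div_pow, hp a ha, hp a0 h0, h1, div_one]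
private theorem key_min {U : F[X]} (hU : U ≠ 0) {g : C.L} (hb : C.Bal g) (hn : C.nrm g = 1) :
    C.pl U * g ∈ C.Le U.natDegree ∧ ∀ W ∈ C.sp (C.pl U * g), W ≠ 0 → W ∈ C.Le U.natDegree →
      ∃ c : F, c ≠ 0 ∧ W = c • g * C.pl U := by
  obtain ⟨k, hk1, hk2, hk3⟩ := hb.deg (r := 1) (by rw [hn, map_one])
  obtain rfl : k = 0 := by
    have := C.hl.pos
    rw [RatFunc.intDegree_one, eq_comm, mul_eq_zero] at hk3
    omega
  have hUi : (C.pl U)⁻¹ ∈ C.Le (-(U.natDegree : ℤ)) :=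
    inv_of_nrm (pl_mem_Le le_rfl) ((nrm_pl U).trans (kl_alg _).symm)
      (RatFunc.algebraMap_ne_zero (pow_ne_zero _ hU))
      (by rw [RatFunc.intDegree_polynomial, natDegree_pow]; push_cast; rfl)
  refine ⟨by simpa using Le_mul (pl_mem_Le le_rfl) hk1, fun W hW hW0 hW1 => ?_⟩
  obtain ⟨o, ho, e2⟩ := mem_sp.mp hW
  have h2 := Le_mul (Le_mul hW1 hUi) hk2
  rw [e2, mul_assoc, ← mul_inv, mul_comm,
    inv_mul_cancel_left₀ (mul_ne_zero (bal_pl hU).1 hb.1), add_neg_cancel, neg_zero, add_zero] at h2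
  obtain ⟨c, rfl⟩ := int_Le_zero ho h2
  refine ⟨c, ?_, by rw [e2, mul_smul_comm, smul_mul_assoc, mul_one, mul_comm]⟩
  rintro rfl
  exact hW0 (by rw [e2, zero_smul, mul_zero])

private theorem key_val {z : F} {I : C.FI} {U s w : F[X]} (h : C.Nice I U) {g : C.L}
    (hs : C.Act z g I s) (hW : g * C.pl U ∈ (1 : C.FI))
    (hw : C.co 0 (g * C.pl U) = algebraMap F[X] (RatFunc F) w) {a : F} (ha : C.f.IsRoot a) :
    w.eval a / U.eval a = s.eval a := by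
  obtain ⟨w', h3, h4⟩ := sub_co0 hW
  obtain rfl : w = w' := IsFractionRing.injective F[X] (RatFunc F) (hw.symm.trans h3)
  have h5 : C.sp C.y * I ≤ C.sp C.y := by simpa using mul_le_mul_right h.le (C.sp C.y)
  have h6 := sub_mem (h5 (hs _ h.mem)) h4
  rw [sg_pl, sub_sub_sub_cancel_left, ← map_mul, ← map_sub, pl_mem_spy, f_dvd] at h6
  rw [div_eq_iff (cop_iff.mp h.cop a ha)]
  simpa [sub_eq_zero] using h6 a ha

private theorem key_fin {z : F} (hz : IsPrimitiveRoot z C.l) {I : C.FI} (hI : I ≠ 0)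
    (hne : C.cl I ≠ 0) {g : C.L} (hb : C.Bal g) (hn : C.nrm g = 1)
    (e : I = C.sp g * C.act (C.sg z) I) {c : F} (hc : c ≠ 0) {s : F[X]} (hs : C.Act z (c • g) I s) :
    (∀ a, C.f.IsRoot a → s.eval a ^ C.l = c ^ C.l) ∧
      ∃ a b, C.f.IsRoot a ∧ C.f.IsRoot b ∧ s.eval a ≠ s.eval b := by
  have h3 : ∀ a, C.f.IsRoot a → s.eval a ^ C.l = c ^ C.l := fun a ha => by
    simpa [sub_eq_zero] using f_dvd.mp (hs.pow (U := Polynomial.C (c ^ C.l)) hz hI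
      (by rw [nrm_smul, hn, ← pl_C, mul_one])) a ha
  refine ⟨h3, ?_⟩
  by_contra hcon
  push Not at hcon
  obtain ⟨a0, ha0⟩ : C.rts.Nonempty := by
    rw [← card_pos, card_rts]
    exact Nat.mul_pos C.hl.pos C.hm
  rw [mem_rts] at ha0
  have h4 : s.eval a0 ≠ 0 := fun e => pow_ne_zero C.l hc (by
    rw [← h3 a0 ha0, e, zero_pow C.hl.ne_zero])
  refine hne (inv_triv hz hI ((hb.smul hc).smul (inv_ne_zero h4)) ?_ ?_
    ((hs.smul (s.eval a0)⁻¹).congr (f_dvd.mpr fun b hb => ?_)))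
  · rw [nrm_smul, nrm_smul, hn, smul_smul, inv_pow, h3 a0 ha0,
      inv_mul_cancel₀ (pow_ne_zero _ hc), one_smul]
  · rw [sp_smul (inv_ne_zero h4), sp_smul hc, ← e]
  · rw [eval_sub, eval_mul, eval_C, hcon b a0 hb ha0, inv_mul_cancel₀ h4, eval_one, sub_self]

theorem last {z : F} (hz : IsPrimitiveRoot z C.l) {a : ℕ} (h0 : 0 < a) (h1 : a < C.l) {I : C.FI}
    {U : F[X]} (h : C.Nice I U) (hne : C.cl I ≠ 0) (hfix : C.ac (C.sg (z ^ a)) (C.cl I) = C.cl I)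
    {T : C.FI} (hT : T = I * ∏ b ∈ (range C.l).filter (· ≠ a), C.act (C.sg (z ^ b)) I) :
    (∃ W ∈ T, W ≠ 0 ∧ W ∈ C.Le U.natDegree) ∧ ∀ W ∈ T, W ≠ 0 → W ∈ C.Le U.natDegree →
      ∀ w : F[X], C.co 0 W = algebraMap F[X] (RatFunc F) w →
        (∀ a b, C.f.IsRoot a → C.f.IsRoot b →
          (w.eval a / U.eval a) ^ C.l = (w.eval b / U.eval b) ^ C.l) ∧
        ∃ a b, C.f.IsRoot a ∧ C.f.IsRoot b ∧ w.eval a / U.eval a ≠ w.eval b / U.eval b := by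
  have hz' : IsPrimitiveRoot (z ^ a) C.l :=
    hz.pow_of_coprime a (Nat.coprime_of_lt_prime h0.ne' h1 C.hl).symm
  obtain ⟨g, hb, hn, e⟩ := exists_hJ hz' nice_one h.ne (by rw [cl_one, zero_add, hfix])
  rw [map_one] at hn
  rw [one_mul] at e
  have e1 : T = C.sp (C.pl U * g) := by
    rw [filter_ne' (range C.l) a] at hT
    rw [sp_mul, ← h.nrm, nrmI_eq hz, ← mul_prod_erase _ _ (mem_range.mpr h1), mul_comm,
      ← mul_assoc, ← e, hT]
  have hT1 : T ≤ 1 := by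
    rw [hT]
    exact mul_le_one' h.le (prod_le_one' fun b _ => (h.sg _).le)
  obtain ⟨h2, h3⟩ := key_min h.mon.ne_zero hb hn
  refine ⟨⟨C.pl U * g, by rw [← sp_le, e1], mul_ne_zero (bal_pl h.mon.ne_zero).1 hb.1, h2⟩,
    fun W hW hW0 hW1 w hw => ?_⟩
  have hW2 := hT1 hW
  rw [e1] at hW
  obtain ⟨c, hc, rfl⟩ := h3 W hW hW0 hW1
  obtain ⟨s, hs⟩ := key_act (h := c • g) hz'.pow_eq_one h.ne le_rfl
    (by rw [one_mul, sp_smul hc, ← e])
  obtain ⟨h4, x, y, hx, hy, h5⟩ := key_fin hz' h.ne hne hb hn e hc hs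
  exact ⟨fun a b ha hb => by rw [key_val h hs hW2 hw ha, key_val h hs hW2 hw hb, h4 a ha, h4 b hb],
    x, y, hx, hy, by rwa [key_val h hs hW2 hw hx, key_val h hs hW2 hw hy]⟩

end Vale.Agent.P319.A.Crv
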