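import Vale.Agent.P319.A.SemI
import Vale.Agent.P319.A.DivS
import Vale.Agent.P319.A.Key

/-! Correctness of the division step. -/

namespace Vale.Agent.P319.A

open Polynomial Finset

variable {C E F : Type} [Ops C E] [Field F] [IsAlgClosed F] {x : Cx C E} {π : E → F} {V : Crv F}

theorem cdiv_map {M W W' : Type} [AddCommGroup W] [Module F W] [AddCommGroup W'] [Module F W']
    {g : M → W} {l : List M} (φ : W →ₗ[F] W') {S : Submodule F W'} (h : ∀ a ∈ l, φ (g a) ∈ S)
    {v : W} (hv : v ∈ spn F g l) : φ v ∈ S :=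
  (spn_le (W := S.comap φ)).2 h hv

theorem cdiv_mono (t : ℕ) (g : Oe E) :
    toLL V π (List.replicate t [] ++ [g]) = monomial t (toL V π g) := by
  rw [toLL, toP_append, toP_replicate toL_nil, toP_single, List.length_replicate, zero_add,
    mul_comm, C_mul_X_pow_eq_monomial]

theorem cdiv_getD {α : Type} (g : ℕ → α) {n k : ℕ} (hk : k < n) (d : α) :
    ((List.range n).map g).getD k d = g k := by
  rw [List.getD_eq_getElem _ _ (by simpa using hk)]
  simp

theorem cdiv_getD3 {α : Type} (g1 g2 g3 : ℕ → α) {n k : ℕ} (hk : k < n) (d : α) :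
    (((List.range n).map g1) ++ ((List.range n).map g2 ++ (List.range n).map g3)).getD k d = g1 k ∧
    (((List.range n).map g1) ++ ((List.range n).map g2 ++ (List.range n).map g3)).getD (n + k) d
      = g2 k ∧
    (((List.range n).map g1) ++ ((List.range n).map g2 ++ (List.range n).map g3)).getD
      (n + (n + k)) d = g3 k := by
  refine ⟨?_, ?_, ?_⟩
  · rw [List.getD_append _ _ _ _ (by simpa using hk), cdiv_getD g1 hk]
  · rw [List.getD_append_right _ _ _ _ (by simp), List.length_map, List.length_range,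
      Nat.add_sub_cancel_left, List.getD_append _ _ _ _ (by simpa using hk), cdiv_getD g2 hk]
  · rw [List.getD_append_right _ _ _ _ (by simp), List.length_map, List.length_range,
      Nat.add_sub_cancel_left, List.getD_append_right _ _ _ _ (by simp), List.length_map,
      List.length_range, Nat.add_sub_cancel_left, cdiv_getD g3 hk]

theorem cdiv_cases {n k : ℕ} (hk : k < n + (n + n)) :
    ∃ a < n, k = a ∨ k = n + a ∨ k = n + (n + a) := by
  by_cases h1 : k < n
  · exact ⟨k, h1, Or.inl rfl⟩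
  by_cases h2 : k < n + n
  · exact ⟨k - n, by omega, Or.inr (Or.inl (by omega))⟩
  · exact ⟨k - n - n, by omega, Or.inr (Or.inr (by omega))⟩

/-- coefficient as a linear map over the constants -/
noncomputable def cdiv_co (V : Crv F) (k : ℕ) : V.L[X] →ₗ[F] V.L where
  toFun P := P.coeff k
  map_add' P Q := coeff_add P Q k
  map_smul' a P := coeff_smul a P k

noncomputable def cdiv_mon (V : Crv F) (k : ℕ) : V.L →ₗ[F] V.L[X] where
  toFun w := monomial k w
  map_add' P Q := map_add _ P Q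
  map_smul' a P := (smul_monomial a k P).symm

noncomputable def cdiv_sum (V : Crv F) (z : F) (p : ℕ → F[X]) (a : ℕ) : V.L[X] →ₗ[F] V.L :=
  ∑ t ∈ range V.l, z ^ (t * a) • (LinearMap.mulLeft F (V.pl (p t) * V.y ^ a) ∘ₗ cdiv_co V t)

omit [IsAlgClosed F] in
theorem cdiv_sum_apply (z : F) (p : ℕ → F[X]) (a : ℕ) (P : V.L[X]) : cdiv_sum V z p a P =
    ∑ t ∈ range V.l, z ^ (t * a) • (V.pl (p t) * V.y ^ a * P.coeff t) := by
  rw [cdiv_sum, LinearMap.sum_apply]
  rfl

omit [IsAlgClosed F] in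
theorem cdiv_sum_mon (z : F) (p : ℕ → F[X]) (a : ℕ) {t : ℕ} (ht : t < V.l) (w : V.L) :
    cdiv_sum V z p a (monomial t w) = z ^ (t * a) • (V.pl (p t) * V.y ^ a * w) := by
  rw [cdiv_sum_apply, sum_eq_single t (fun b _ hb => by
    rw [coeff_monomial, if_neg hb.symm, mul_zero, smul_zero]) (fun h => absurd (mem_range.2 ht) h),
    coeff_monomial_same]

noncomputable def cdiv_L (V : Crv F) (z : F) (e : ℕ) (s : F[X]) (k : ℕ) : V.L[X] →ₗ[F] V.L :=
  if k < V.l then cdiv_co V k else if k < V.l + V.l then cdiv_sum V z (fun t => X ^ (e * t)) (k - V.l)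
  else cdiv_sum V z (fun t => s ^ t) (k - V.l - V.l)

omit [IsAlgClosed F] in
theorem cdiv_L3 (z : F) (e : ℕ) (s : F[X]) {a : ℕ} (ha : a < V.l) :
    cdiv_L V z e s a = cdiv_co V a ∧
    cdiv_L V z e s (V.l + a) = cdiv_sum V z (fun t => X ^ (e * t)) a ∧
    cdiv_L V z e s (V.l + (V.l + a)) = cdiv_sum V z (fun t => s ^ t) a := by
  refine ⟨if_pos ha, ?_, ?_⟩
  · rw [cdiv_L, if_neg (by omega), if_pos (by omega), Nat.add_sub_cancel_left]
  · rw [cdiv_L, if_neg (by omega), if_neg (by omega), Nat.add_sub_cancel_left,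
      Nat.add_sub_cancel_left]

theorem cdiv_iff (h : Ok x π V) (z : F) (u s : List E) (P : V.L[X]) :
    (∀ k < (divTh x).length, cdiv_L V z x.e (toP π s) k P - toL V π
      ((List.replicate x.l [] ++ [[pmul x.c (mono x.c x.f) (mono x.c u)]]).getD k []) ∈
        Wt V π x.f ((divTh x).getD k 0)) ↔
    (∀ t < V.l, P.coeff t ∈ V.Le ((V.l * V.m + V.l * x.e - x.e * t : ℕ))) ∧
    (∀ a < V.l, ∑ t ∈ range V.l, z ^ (t * a) • (V.pl (X ^ (x.e * t)) * V.y ^ a * P.coeff t) -
      (if a = 0 then V.pl (V.f * mon π u) else 0) ∈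
        V.V ((V.l * (V.l * V.m + V.l * x.e + V.m * a) + a : ℕ))) ∧
    ∀ a < V.l, ∑ t ∈ range V.l, z ^ (t * a) • (V.pl (toP π s ^ t) * V.y ^ a * P.coeff t) ∈
      V.sp (V.pl V.f) := by
  have hl := V.hl.pos
  have hm := V.hm
  have hnu : x.nu = V.l * V.m + V.l * x.e := by rw [Cx.nu, h.n, Cx.ds, h.hl]
  have hth : divTh x = (List.range V.l).map (fun t => V.l * (V.l * V.m + V.l * x.e - x.e * t + 1)) ++
      ((List.range V.l).map (fun a => V.l * (V.l * V.m + V.l * x.e + V.m * a) + a) ++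
        (List.range V.l).map fun _ => 0) := by
    rw [divTh, hnu, h.hl, h.m, List.map_const', List.length_range]
  have hlen : (divTh x).length = V.l + (V.l + V.l) := by simp [hth]
  have htg : ∀ k, toL V π
      ((List.replicate x.l [] ++ [[pmul x.c (mono x.c x.f) (mono x.c u)]]).getD k []) =
      if V.l = k then V.pl (V.f * mon π u) else 0 := fun k => by
    rw [← coeff_toLL, cdiv_mono, coeff_monomial, toL_single, h.hom.pmul, h.hom.mono, h.hom.mono,
      h.hf, h.hl]
  have h1 : ∀ a < V.l, cdiv_L V z x.e (toP π s) a P - (if V.l = a then V.pl (V.f * mon π u) else 0)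
      ∈ Wt V π x.f ((divTh x).getD a 0) ↔
      P.coeff a ∈ V.Le ((V.l * V.m + V.l * x.e - x.e * a : ℕ)) := fun a ha => by
    rw [hth, (cdiv_getD3 _ _ _ ha 0).1, (cdiv_L3 _ _ _ ha).1, if_neg (by omega), sub_zero, Wt,
      if_neg (by positivity), Crv.Le]
    push_cast
    rfl
  have h2 : ∀ a < V.l, cdiv_L V z x.e (toP π s) (V.l + a) P -
      (if V.l = V.l + a then V.pl (V.f * mon π u) else 0)
      ∈ Wt V π x.f ((divTh x).getD (V.l + a) 0) ↔
      ∑ t ∈ range V.l, z ^ (t * a) • (V.pl (X ^ (x.e * t)) * V.y ^ a * P.coeff t) -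
      (if a = 0 then V.pl (V.f * mon π u) else 0) ∈
        V.V ((V.l * (V.l * V.m + V.l * x.e + V.m * a) + a : ℕ)) := fun a ha => by
    rw [hth, (cdiv_getD3 _ _ _ ha 0).2.1, (cdiv_L3 _ _ _ ha).2.1, Wt, if_neg (by positivity),
      cdiv_sum_apply]
    simp only [left_eq_add]
  have h3 : ∀ a < V.l, cdiv_L V z x.e (toP π s) (V.l + (V.l + a)) P -
      (if V.l = V.l + (V.l + a) then V.pl (V.f * mon π u) else 0)
      ∈ Wt V π x.f ((divTh x).getD (V.l + (V.l + a)) 0) ↔
      ∑ t ∈ range V.l, z ^ (t * a) • (V.pl (toP π s ^ t) * V.y ^ a * P.coeff t) ∈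
      V.sp (V.pl V.f) := fun a ha => by
    rw [hth, (cdiv_getD3 _ _ _ ha 0).2.2, (cdiv_L3 _ _ _ ha).2.2, Wt, if_pos rfl,
      cdiv_sum_apply, if_neg (by omega), sub_zero, Crv.mem_und, h.hf]
  simp only [htg, hlen]
  refine ⟨fun H => ⟨fun a ha => (h1 a ha).1 (H _ (by omega)), fun a ha => (h2 a ha).1
    (H _ (by omega)), fun a ha => (h3 a ha).1 (H _ (by omega))⟩, fun H k hk => ?_⟩
  obtain ⟨a, ha, rfl | rfl | rfl⟩ := cdiv_cases hk
  · exact (h1 _ ha).2 (H.1 _ ha)
  · exact (h2 _ ha).2 (H.2.1 _ ha)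
  · exact (h3 _ ha).2 (H.2.2 _ ha)

theorem cdiv_lin (h : Ok x π V) (z : E) (I : Idl E) (s : List E) :
    Lin V π (divTh x) (divSrc x z I s) (cdiv_L V (π z) x.e (toP π s)) := by
  intro p hp k hk
  have hlen : (divTh x).length = V.l + (V.l + V.l) := by simp [divTh, h.hl]
  rw [hlen] at hk
  simp only [divSrc, List.mem_flatMap, List.mem_range, List.mem_map] at hp
  obtain ⟨t, ht, g, -, rfl⟩ := hp
  rw [h.hl] at ht
  simp only [cdiv_mono, h.hl]
  obtain ⟨a, ha, rfl | rfl | rfl⟩ := cdiv_cases hk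
  · rw [(cdiv_getD3 _ _ _ ha _).1, (cdiv_L3 _ _ _ ha).1]
    change _ = (monomial t (toL V π g)).coeff k
    rw [coeff_monomial]
    by_cases hk : k = t
    · rw [if_pos hk, if_pos hk.symm]
    · rw [if_neg hk, if_neg (Ne.symm hk), toL_nil]
  · rw [(cdiv_getD3 _ _ _ ha _).2.1, (cdiv_L3 _ _ _ ha).2.1, cdiv_sum_mon _ _ _ ht, h.smO,
      h.hom.pw, h.o.mul, toL_py, h.hom.xp]
  · rw [(cdiv_getD3 _ _ _ ha _).2.2, (cdiv_L3 _ _ _ ha).2.2, cdiv_sum_mon _ _ _ ht, h.smO,
      h.hom.pw, h.o.mul, toL_py, h.p.pwU]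

theorem divR_spec (h : Ok x π V) {z : E} (hz : IsPrimitiveRoot (π z) V.l) {I : Idl E} {J : V.FI}
    (hI : Rep V π I J) (s : List E) {R : ℕ → V.L}
    (hR : V.Sys (π z) J (mon π I.1) (toP π s) x.e R) :
    V.Sys (π z) J (mon π I.1) (toP π s) x.e fun t => toL V π ((divR x z I s).getD t []) := by
  have hmem := fun t => mem_spec h (Ip_spec h hz.pow_eq_one hI t).spn (x.nu + 1)
  have hnu : x.nu = V.l * V.m + V.l * x.e := by rw [Cx.nu, h.n, Cx.ds, h.hl]
  have hsrc : ∀ G, G ∈ (divSrc x z I s).map Prod.fst ↔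
      ∃ t < V.l, ∃ g ∈ mem x (Ip x z I t) (x.nu + 1), List.replicate t [] ++ [g] = G := fun G => by
    simp only [divSrc, List.map_flatMap, List.map_map, List.mem_flatMap, List.mem_range,
      List.mem_map, h.hl, Function.comp]
  have hco : ∀ t < V.l, (∑ t ∈ range V.l, monomial t (R t)).coeff t = R t := fun t ht => by
    simp only [finsetSum_coeff, coeff_monomial, sum_ite_eq', mem_range, ht, if_true]
  obtain ⟨h1, h2⟩ := solO_spec h x.f (cdiv_lin h z I s)
    (List.replicate x.l [] ++ [[pmul x.c (mono x.c x.f) (mono x.c I.1)]])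
    (P := ∑ t ∈ range V.l, monomial t (R t)) (Submodule.sum_mem _ fun t ht => by
      rw [mem_range] at ht
      refine cdiv_map (cdiv_mon V t) (fun g hg => ?_) ((hmem t).2 _ (hR.mem t ht)
        (Crv.Le_mono (by rw [hnu]; omega) (hR.e0 t ht)))
      change monomial t _ ∈ _
      rw [← cdiv_mono]
      exact spn_mem _ ((hsrc _).2 ⟨t, ht, g, hg, rfl⟩))
    ((cdiv_iff h _ _ _ _).2 ⟨fun t ht => by rw [hco t ht]; exact hR.e0 t ht, fun a ha => by
      rw [sum_congr rfl fun t ht => by rw [hco t (mem_range.1 ht)]]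
      exact hR.e3 a ha, fun a ha => by
      rw [sum_congr rfl fun t ht => by rw [hco t (mem_range.1 ht)]]
      exact hR.e2 a ha⟩)
  obtain ⟨h3, h4, h5⟩ := (cdiv_iff h _ _ _ _).1 h2
  simp only [coeff_toLL] at h3 h4 h5
  refine ⟨fun t ht => ?_, h3, h4, h5⟩
  rw [← coeff_toLL, ← Crv.mem_und]
  refine cdiv_map (cdiv_co V t) (fun G hG => ?_) h1
  obtain ⟨t', -, g, hg, rfl⟩ := (hsrc G).1 hG
  change (toLL V π _).coeff t ∈ _
  rw [cdiv_mono, coeff_monomial]
  split_ifs with ht'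
  · exact ht' ▸ (hmem t').1 (spn_mem _ hg)
  · exact zero_mem _

omit [IsAlgClosed F] in
theorem cdiv_tw (z : F) (U : F[X]) (A : ℕ → V.L) {B B' : ℕ → V.L} (h : ∀ j < V.l, B j = B' j) :
    V.tw z U A B = V.tw z U A B' := by
  funext k
  refine sum_congr rfl fun a _ => ?_
  rw [h _ (Nat.mod_lt _ V.hl.pos)]

theorem cdiv_single (h : Ok x π V) (t : ℕ) :
    (fun j => toL V π ((List.replicate t [] ++ [one x.o]).getD j [])) = Pi.single t 1 := by
  funext j
  rw [← coeff_toLL, cdiv_mono, h.o.one, coeff_monomial, Pi.single_apply]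
  simp only [eq_comm]

theorem divE_spec (h : Ok x π V) {z : E} (hz : π z ^ V.l = 1) (U : List E) (R : List (Oe E))
    {t : ℕ} (ht : t < V.l) : toL V π ((divE x z U R).getD t []) =
      V.Ev (π z) (toP π U) x.e (fun j => toL V π (R.getD j [])) t := by
  have h1 : ∀ n, ∀ j < V.l,
      toL V π (((List.range n).foldl (fun S _ => tw x z U R S) [one x.o]).getD j []) =
      (V.tw (π z) (toP π U) fun j => toL V π (R.getD j []))^[n] (Pi.single 0 1) j := by
    intro n
    induction n with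
    | zero => exact fun j _ => congrFun (cdiv_single h 0) j
    | succ n ih =>
      intro j hj
      rw [List.range_succ, List.foldl_append, List.foldl_cons, List.foldl_nil, h.tw hz _ _ _ hj,
        Function.iterate_succ_apply', cdiv_tw _ _ _ ih]
  rw [divE, cdiv_getD _ (h.hl ▸ ht), phi, h.o.sumL_range, Crv.Ev, h.hl]
  refine sum_congr rfl fun b hb => ?_
  rw [h.o.mul, toL_single, h.hom.xp, h.tw hz _ _ _ (mem_range.1 hb), cdiv_single h,
    cdiv_tw _ _ _ (h1 _)]

theorem length_divI (x : Cx C E) (z : E) (I : Idl E) (s : List E) :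
    (divI x z I s).1.1.length = dD x := length_fit _ _ _

theorem cdiv_gen (h : Ok x π V) {I : Idl E} {J S : V.FI} (hI : Spn V π I J) (c e : V.L) :
    (∀ w ∈ J, c * w * e ∈ S) ↔ ∀ g ∈ gen x I, c * toL V π g * e ∈ S := by
  rw [← gen_spec h hI]
  refine ⟨fun H g hg => H _ ?_, fun H w hw => ?_⟩
  · obtain ⟨j, hj, rfl⟩ := List.mem_iff_getElem.1 hg
    rw [← List.getD_eq_getElem _ [] hj, ← coeff_toLL]
    exact Crv.coeff_mem_gn _ _
  · obtain ⟨o, ho, rfl⟩ := (Crv.mem_gn (degree_toP_lt _)).1 hw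
    rw [mul_sum, sum_mul]
    refine Crv.sum_mem fun j hj => ?_
    rw [mul_left_comm, mul_assoc (o j)]
    refine Crv.mul_mem (ho j) ?_
    rw [← toLL, coeff_toLL, List.getD_eq_getElem _ [] (mem_range.1 hj)]
    exact H _ (List.getElem_mem _)

theorem divI_spec (h : Ok x π V) {z : E} (hz : IsPrimitiveRoot (π z) V.l) {I : Idl E} {J : V.FI}
    (hI : Rep V π I J) (hd : I.1.length = x.ds) {Y : V.Cl}
    (hY : V.cl J = Y - V.ac (V.sg (π z)) Y) {s : List E}
    (hs : V.f ∣ toP π s ^ V.l - mon π I.1) : ∃ K U, Spn V π (divI x z I s).1 K ∧ V.Nice K U ∧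
      π (divI x z I s).2 = U.natDegree ∧ V.cl J = V.cl K - V.ac (V.sg (π z)) (V.cl K) := by
  have hl := V.hl.pos
  have hnu : x.nu = V.l * V.m + V.l * x.e := by rw [Cx.nu, h.n, Cx.ds, h.hl]
  have he : (mon π I.1).natDegree = V.l * x.e := by rw [natDegree_mon, hd, Cx.ds, h.hl]
  obtain ⟨g, J0, hN⟩ := Crv.nrm_exists hz hI.nice he hY hs
  obtain ⟨R, hR⟩ := Crv.div_exists hz hI.nice he hs hN
  obtain ⟨h1, h2, K, hK0, hK1, hKy, hcl, hK⟩ :=
    Crv.div_sound hz hI.nice he hs hN (divR_spec h hz hI s hR)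
  have hE := fun t (ht : t < V.l) => divE_spec h hz.pow_eq_one (mono x.c I.1) (divR x z I s) ht
  rw [h.hom.mono] at hE
  generalize V.Ev (π z) (mon π I.1) x.e _ = Ev at h1 h2 hK hE
  obtain ⟨D0, hD1, hD2, hD3⟩ := Crv.nrm_near (h1 0 hl) h2
  obtain ⟨U, hU1, hU2⟩ := Crv.exists_nrm hK0 hK1
  unfold divI
  generalize divE x z (mono x.c I.1) (divR x z I s) = Es at hE
  have hst := h.star hz (Es.getD 0 [])
  have hn := h.nrmO hz (Es.getD 0 [])
  rw [hE 0 hl, hD3] at hst hn
  have hD : mon π (fit x.c (dD x) (pmul x.c (mono x.c I.1) (nrmO x z (Es.getD 0 [])))) =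
      mon π I.1 * D0 := by
    have e : toP π (pmul x.c (mono x.c I.1) (nrmO x z (Es.getD 0 []))) = mon π I.1 * D0 := by
      rw [h.hom.pmul, h.hom.mono, Crv.pl_inj hn]
    rw [h.hom.mon_fit (e ▸ (mon_monic _).mul hD1), e]
    rw [e, (mon_monic _).natDegree_mul hD1, he, hD2, dD, hnu, Cx.ds, h.hl]
  have hst0 : toL V π (star x z (Es.getD 0 [])) ≠ 0 := fun h0 => by
    rw [h0, mul_zero, ← map_zero V.pl] at hst
    exact hD1.ne_zero (Crv.pl_inj hst).symm
  have hst1 := toL_mem (V := V) (π := π) (star x z (Es.getD 0 []))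
  have hc := colon_spec h (fit x.c (dD x) (pmul x.c (mono x.c I.1) (nrmO x z (Es.getD 0 []))))
    ((List.range x.l).flatMap fun t => (gen x (Ip x z I t)).map fun g =>
      Ops.mul x.o (Ops.mul x.o g (Es.getD t [])) (star x z (Es.getD 0 []))) (K := K) (fun c => ?_)
    (u := fit x.c (dD x) (pmul x.c (mono x.c I.1) (nrmO x z (Es.getD 0 [])))) ?_
  · rw [length_fit] at hc
    exact ⟨K, U, hc.1, ⟨hK1, hU1, hU2, Crv.cop_of hK1 hU2 hKy⟩, hc.2 U hU1.ne_zero hU2, hcl⟩
  · have e : ∀ w : V.L, w * toL V π (star x z (Es.getD 0 [])) ∈ V.sp (V.pl (mon π I.1 * D0)) ↔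
        w ∈ V.sp (V.pl (mon π I.1) * Ev 0) := fun w => by
      rw [map_mul, ← hst, Crv.mem_sp, Crv.mem_sp]
      refine exists_congr fun o => and_congr_right fun _ => ⟨fun e => ?_, fun e => ?_⟩
      · exact mul_right_cancel₀ hst0 (by rw [e]; ring)
      · rw [e]; ring
    rw [hD]
    simp only [List.mem_flatMap, List.mem_range, List.mem_map, h.hl]
    constructor
    · refine fun hc => ⟨hK1 hc, ?_⟩
      rintro _ ⟨t, ht, g, hg, rfl⟩
      rw [h.o.mul, h.o.mul, hE t ht, ← mul_assoc, ← mul_assoc, e]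
      exact (cdiv_gen h (Ip_spec h hz.pow_eq_one hI t).spn _ _).1 ((hK c).1 hc t ht) g hg
    · refine fun hc => (hK c).2 fun t ht =>
        (cdiv_gen h (Ip_spec h hz.pow_eq_one hI t).spn _ _).2 fun g hg => ?_
      have := hc.2 _ ⟨t, ht, g, hg, rfl⟩
      rwa [h.o.mul, h.o.mul, hE t ht, ← mul_assoc, ← mul_assoc, e] at this
  · rw [hD]
    refine (hK _).2 fun t ht w hw => Crv.mem_sp.2 ⟨_, Crv.mul_mem (Crv.mul_mem hst1
      ((Ip_spec h hz.pow_eq_one hI t).nice.le hw)) (h1 t ht), ?_⟩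
    rw [map_mul, ← hst]
    ring

theorem cdiv_sg (h : Ok x π V) {z : E} (hz : π z ^ V.l = 1) (K : Idl E) :
    toLL V π (gen x (sgI x z K)) =
      (toLL V π (gen x K)).map ((V.sg (π z)).1 : V.L →+* V.L) := by
  rw [toLL, map_toP, gen, gen, toP_cons, toP_cons, sgI, toP_map, toL_single]
  have e : toL V π ∘ sgO x z = fun a => ((V.sg (π z)).1 : V.L →+* V.L) (toL V π a) :=
    funext fun g => h.sgO hz g
  rw [e]
  congr 2
  exact (Crv.sg_pl _ _).symm

/-- the coefficients of the product of the conjugates are polynomials which generate the norm -/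
theorem cdiv_prod (h : Ok x π V) {z : E} (hz : IsPrimitiveRoot (π z) V.l) {K : Idl E} {J : V.FI}
    (hK : Spn V π K J) {G : List (Oe E)}
    (hG : G = prodL x.oo ((List.range x.l).map fun t => gen x (sgI x (pw x.c z t) K))) :
    V.gn (toLL V π G) = V.nrmI J ∧ ∀ g ∈ G, toL V π g = V.pl (toP π (c0 x g)) := by
  have hp : ∀ t, π (pw x.c z t) ^ V.l = 1 := fun t => by
    rw [h.hom.pw]
    exact Crv.int_pow_rt hz.pow_eq_one t
  have e : toLL V π G = ∏ t ∈ range V.l, toLL V π (gen x (sgI x (pw x.c z t) K)) := by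
    rw [hG, h.oo.prodL_range, h.hl]
  refine ⟨?_, fun g hg => ?_⟩
  · rw [e, Crv.gn_finprod, Crv.nrmI_eq hz]
    exact prod_congr rfl fun t _ => by rw [gen_spec h (sgI_spn h (hp t) hK), h.hom.pw]
  · have e2 : toLL V π G = ∏ u ∈ nthRootsFinset V.l (1 : F),
        (toLL V π (gen x K)).map ((V.sg u).1 : V.L →+* V.L) := by
      rw [e, Crv.int_prod_eq hz]
      exact prod_congr rfl fun t _ => by rw [cdiv_sg h (hp t), h.hom.pw]
    have e3 : (toLL V π G).map ((V.sg (π z)).1 : V.L →+* V.L) = toLL V π G := by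
      rw [e2, Polynomial.map_prod, ← Crv.int_prod_shift hz.pow_eq_one
        fun u => (toLL V π (gen x K)).map ((V.sg u).1 : V.L →+* V.L)]
      refine prod_congr rfl fun u hu => ?_
      ext j
      simp only [coeff_map]
      exact Crv.int_sg_sg hz.pow_eq_one (Crv.int_mem_rt.1 hu) _
    obtain ⟨j, hj, rfl⟩ := List.mem_iff_getElem.1 hg
    have e4 := congrArg (fun P => P.coeff j) e3
    simp only [coeff_map, coeff_toLL, List.getD_eq_getElem _ [] hj] at e4
    rw [← Crv.kl_alg, ← h.c0]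
    exact Crv.fixed_kl hz e4

theorem cdiv_rows (h : Ok x π V) {z : E} (hz : IsPrimitiveRoot (π z) V.l) {K : Idl E} {J : V.FI}
    (hK : Spn V π K J) {U : F[X]} (hU : V.Nice J U) : U.natDegree ≤ V.l * K.1.length ∧
      U ∈ spn F (toP π) (nrmS x z K) ∧ ∀ r ∈ nrmS x z K, U ∣ toP π r ∧
        (toP π r).degree < (V.l * K.1.length + 1 : ℕ) := by
  have hm : (mon π K.1 ^ V.l).Monic := (mon_monic _).pow _
  have hdeg : (mon π K.1 ^ V.l).natDegree = V.l * K.1.length := by
    rw [(mon_monic _).natDegree_pow, natDegree_mon]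
  have hdvd : U ∣ mon π K.1 ^ V.l := by
    rw [← Crv.pl_mem_sp (C := V), ← hU.nrm, ← Crv.nrm_pl]
    exact Crv.nrm_mem hK.mem
  have hle := natDegree_le_of_dvd hdvd hm.ne_zero
  have hDl : mon π (fit x.c (V.l * K.1.length) (pwU x.p (mono x.c K.1) V.l)) = mon π K.1 ^ V.l := by
    have e : toP π (pwU x.p (mono x.c K.1) V.l) = mon π K.1 ^ V.l := by rw [h.p.pwU, h.hom.mono]
    rw [h.hom.mon_fit (e ▸ hm) (e ▸ hdeg), e]
  obtain ⟨hG1, hG2⟩ := cdiv_prod h hz hK rfl
  simp only [nrmS]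
  generalize prodL x.oo _ = G at hG1 hG2 ⊢
  rw [h.hl, hU.nrm] at *
  generalize fit x.c (V.l * K.1.length) (pwU x.p (mono x.c K.1) V.l) = Dl at hDl ⊢
  generalize mon π K.1 ^ V.l = D at *
  generalize V.l * K.1.length = N at *
  refine ⟨hdeg ▸ hle, ?_, fun r hr => ?_⟩
  · rcases hle.eq_or_lt with he | hlt
    · rw [← eq_of_monic_of_dvd_of_natDegree_le hU.mon hm hdvd he.ge, ← hDl, ← h.hom.mono]
      exact spn_mem _ List.mem_cons_self
    obtain ⟨o, ho, e⟩ := (Crv.mem_gn (degree_toP_lt G)).1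
      (hG1.ge (Crv.pl_mem_sp.2 (dvd_refl U)))
    choose b hb using fun j => Crv.mem_one_iff.1 (ho j) 0 V.hl.pos
    have e1 : U = ∑ j ∈ range G.length, b j * toP π (c0 x (G.getD j [])) := by
      refine IsFractionRing.injective F[X] (RatFunc F) ?_
      have e2 := congrArg (V.co 0) e
      rw [← Crv.kl_alg, Crv.int_co_kl, if_pos rfl, map_sum] at e2
      rw [e2, map_sum]
      refine sum_congr rfl fun j hj => ?_
      rw [← toLL, coeff_toLL, hG2 _ (List.getD_eq_getElem _ [] (mem_range.1 hj) ▸ List.getElem_mem _),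
        mul_comm, ← Crv.kl_alg, Crv.co_kl, hb, map_mul, mul_comm]
    rw [← (modByMonic_eq_self_iff hm).2 (degree_lt_degree hlt), e1, ← modByMonicHom_apply, map_sum]
    refine Submodule.sum_mem _ fun j hj => ?_
    have e2 : modByMonicHom D (b j * toP π (c0 x (G.getD j []))) =
        modByMonicHom D ((b j %ₘ D) * toP π (c0 x (G.getD j []))) := by
      rw [modByMonicHom_apply, modByMonicHom_apply]
      refine modByMonic_eq_of_dvd_sub hm ⟨b j /ₘ D * toP π (c0 x (G.getD j [])), ?_⟩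
      rw [modByMonic_eq_sub_mul_div]
      ring
    have e3 : (b j %ₘ D).natDegree < N := hdeg ▸ natDegree_modByMonic_lt _ hm
      (fun h1 => by rw [h1, natDegree_one] at hlt; omega)
    rw [e2, as_sum_range' _ _ e3, sum_mul, map_sum]
    refine Submodule.sum_mem _ fun i hi => ?_
    rw [← smul_X_eq_monomial, smul_mul_assoc, map_smul]
    refine Submodule.smul_mem _ _ ?_
    rw [modByMonicHom_apply, ← hDl, ← h.hom.xp, ← h.hom.pmul, ← h.hom.prem]
    refine spn_mem _ (List.mem_cons_of_mem _ (List.mem_flatMap.2 ⟨G.getD j [], ?_,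
      List.mem_map.2 ⟨i, List.mem_range.2 (mem_range.1 hi), rfl⟩⟩))
    exact List.getD_eq_getElem _ [] (mem_range.1 hj) ▸ List.getElem_mem _
  · rcases List.mem_cons.1 hr with rfl | hr
    · rw [h.hom.mono, hDl, degree_eq_natDegree hm.ne_zero, hdeg]
      exact ⟨hdvd, Nat.cast_lt.2 (Nat.lt_succ_self _)⟩
    · obtain ⟨g, hg, hr⟩ := List.mem_flatMap.1 hr
      obtain ⟨i, -, rfl⟩ := List.mem_map.1 hr
      rw [h.hom.prem, hDl, h.hom.pmul]
      refine ⟨?_, (degree_modByMonic_lt _ hm).trans ?_⟩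
      · rw [modByMonic_eq_sub_mul_div]
        refine dvd_sub (Dvd.dvd.mul_left ?_ _) (hdvd.mul_right _)
        obtain ⟨j, hj, rfl⟩ := List.mem_iff_getElem.1 hg
        rw [← Crv.pl_mem_sp (C := V), ← hG2 _ hg, ← hG1, ← List.getD_eq_getElem _ [] hj,
          ← coeff_toLL]
        exact Crv.coeff_mem_gn _ _
      · rw [degree_eq_natDegree hm.ne_zero, hdeg]
        exact Nat.cast_lt.2 (Nat.lt_succ_self _)

theorem nrmI_spec (h : Ok x π V) {z : E} (hz : IsPrimitiveRoot (π z) V.l) {K : Idl E} {J : V.FI}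
    (hK : Spn V π K J) {U : F[X]} (hU : V.Nice J U) : U.natDegree ≤ V.l * K.1.length ∧
      Rep V π (nrmI x K (nrmS x z K) U.natDegree) J := by
  obtain ⟨hle, h1, h2⟩ := cdiv_rows h hz hK hU
  refine ⟨hle, ?_⟩
  generalize nrmS x z K = S at h1 h2
  obtain ⟨μ, hμ⟩ := (mem_spn _ _ []).1 h1
  have hdr : ∀ i j, (toP π ((S.map (List.drop U.natDegree)).getD i [])).coeff j =
      (toP π (S.getD i [])).coeff (U.natDegree + j) := fun i j => by
    rw [← coeff_toP_drop, ← List.getD_map S [] (List.drop U.natDegree), List.drop_nil]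
  have hs := solC_spec h.pt (x.l * K.1.length + 1 - U.natDegree) (S.map (List.drop U.natDegree))
    [one x.c] μ fun j _ => by
      have e : U.coeff (U.natDegree + j) = (1 : F[X]).coeff j := by
        rw [coeff_one]
        split_ifs with hj
        · rw [hj]
          exact hU.mon.coeff_natDegree
        · exact coeff_eq_zero_of_natDegree_lt (by omega)
      rw [toP_single, h.hom.one, map_one, ← e, List.length_map]
      conv_rhs => enter [1]; rw [hμ]
      simp only [hdr, finsetSum_coeff, coeff_smul, smul_eq_mul]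
  simp only [hdr, toP_single, h.hom.one, map_one, List.length_map] at hs
  have hW := h.hom.combP (solC x.c x.Q (x.l * K.1.length + 1 - U.natDegree)
    (S.map (List.drop U.natDegree)) [one x.c]) S
  unfold nrmI
  generalize solC x.c x.Q _ _ _ = lam at hs hW
  have hS : ∀ i ∈ range S.length, S.getD i [] ∈ S := fun i hi =>
    List.getD_eq_getElem _ [] (mem_range.1 hi) ▸ List.getElem_mem _
  have hco : ∀ j, (toP π (combP x.c lam S)).coeff (U.natDegree + j) = (1 : F[X]).coeff j := by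
    intro j
    simp only [hW, finsetSum_coeff, coeff_C_mul]
    by_cases hj : j < x.l * K.1.length + 1 - U.natDegree
    · exact hs j hj
    · rw [h.hl] at hj
      rw [coeff_one, if_neg (by omega)]
      refine sum_eq_zero fun i hi => ?_
      rw [coeff_eq_zero_of_degree_lt ((h2 _ (hS i hi)).2.trans_le (Nat.cast_le.2 (by omega))),
        mul_zero]
  have hn : (toP π (combP x.c lam S)).natDegree ≤ U.natDegree :=
    natDegree_le_iff_coeff_eq_zero.2 fun j hj => by
      obtain ⟨i, rfl⟩ := Nat.exists_eq_add_of_le hj.le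
      rw [hco, coeff_one, if_neg (by omega)]
  have hm : (toP π (combP x.c lam S)).Monic :=
    monic_of_natDegree_le_of_coeff_eq_one _ hn (by simpa using hco 0)
  have hWU : toP π (combP x.c lam S) = U := eq_of_monic_of_dvd_of_natDegree_le hU.mon hm
    (hW ▸ dvd_sum fun i hi => (h2 _ (hS i hi)).1.mul_left _) hn
  have hu : mon π (fit x.c U.natDegree (combP x.c lam S)) = U := by
    rw [h.hom.mon_fit hm (by rw [hWU]), hWU]
  refine ⟨fun w => ⟨fun hw => ?_, ?_⟩, hu.symm ▸ hU⟩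
  · obtain ⟨g, hg, hw⟩ := (hK w).1 hw
    obtain ⟨o, ho, e⟩ := Crv.mem_sp.1 hw
    obtain ⟨g', hg', ho'⟩ := h.mons_red (fit x.c U.natDegree (combP x.c lam S)) ho
    rw [length_fit] at hg'
    refine ⟨g + V.pl (mon π K.1) * g', add_mem
      (spn_le.2 (fun a ha => spn_mem _ (List.mem_append_left _ ha)) hg)
      (cdiv_map (LinearMap.mulLeft F (V.pl (mon π K.1))) (fun a ha => ?_) hg'), ?_⟩
    · rw [LinearMap.mulLeft_apply, ← h.hom.mono, ← toL_single, ← h.o.mul]
      exact spn_mem _ (List.mem_append_right _ (List.mem_map_of_mem ha))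
    · rw [← sub_sub, e, ← mul_sub]
      exact Crv.mul_mem (Crv.pl_mem_one _) ho'
  · rintro ⟨g, hg, hw⟩
    rw [hu] at hw
    rw [← sub_add_cancel w g]
    refine Crv.add_mem (Crv.sp_le.2 hU.mem hw) (Crv.mem_und.1 (spn_le.2 (fun a ha => ?_) hg))
    rw [Crv.mem_und]
    rcases List.mem_append.1 ha with ha | ha
    · exact (hK _).2 ⟨_, spn_mem _ ha, by rw [sub_self]; exact FractionalIdeal.zero_mem _⟩
    · obtain ⟨b, -, rfl⟩ := List.mem_map.1 ha
      rw [h.o.mul, toL_single, h.hom.mono, mul_comm]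
      exact Crv.mul_mem (toL_mem _) hK.mem

end Vale.Agent.P319.A
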