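import Vale.Agent.P319.A.CStep

/-! Product over the roots, the final loop. -/

namespace Vale.Agent.P319.A

open Polynomial Finset

variable {C E F : Type} [Ops C E] [Field F] [IsAlgClosed F] {x : Cx C E} {π : E → F} {V : Crv F}
  {z w b : E} {v : ℕ} {r : F ≃+* F}

theorem cfin_sum {E E' R ι : Type} [CommRing R] {π' : E' → R} {s : Finset ι} {ρ : ι → E → R}
    {φ : E → E'} (h : ∀ e, π' (φ e) = ∑ a ∈ s, ρ a e) (l : List E) :
    toP π' (l.map φ) = ∑ a ∈ s, toP (ρ a) l := by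
  induction l with
  | nil => simp [toP_nil]
  | cons e l ih => simp only [List.map_cons, toP_cons, ih, h, map_sum, mul_sum, sum_add_distrib]

theorem cfin_n (h : Ok x π V) : 0 < x.n := h.n ▸ Nat.mul_pos V.hl.pos V.hm

theorem nrmA_spec (h : Good x π V z w b v r) (g : List (Oe (List E))) :
    toLL V π (nrmA x g) = ∏ a ∈ V.rts, toLL V (evq π a) g := by
  have hc : x.n = V.rts.card := by rw [Crv.card_rts, h.toOk.n]
  have h1 := trA_spec h.toOk.hom (h.hf.trans Crv.f_eq) (cfin_n h.toOk)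
  have h2 : ∀ G : Oe (List E), toL V π (G.map (List.map (trA x))) =
      ∑ a ∈ V.rts, toL V (evq π a) G := fun G => by
    rw [toL, evq, cfin_sum (s := V.rts) (ρ := fun a e => V.pl (toP (evq π a) e))
      (fun e => by rw [cfin_sum h1, map_sum]), eval_finsetSum]
    rfl
  unfold nrmA
  rw [hc]
  refine newton_spec h.toOk.oo V.rts (fun a => toLL V (evq π a) g) (fun k hk => ?_)
    (fun k hk => ?_) []
  · have h0 : ((k + 1 : ℕ) : F) ≠ 0 := h.chr _ k.succ_pos (by
      rw [bnd, hc]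
      exact le_trans (by omega) (Nat.le_self_pow (by norm_num) _))
    rw [cf, cdiv_getD _ hk, toLL, toP_single, toL_single, toP_single,
      h.pt.pinv (by rw [h.toOk.hom.ofN]; exact h0), h.toOk.hom.ofN, ← map_natCast Polynomial.C,
      ← map_natCast V.pl, ← map_natCast (Polynomial.C : F →+* F[X]), ← map_mul, ← map_mul,
      ← map_mul, inv_mul_cancel₀ h0, map_one, map_one, map_one]
  · rw [cf, cdiv_getD _ hk, toLL, cfin_sum h2]
    exact sum_congr rfl fun a ha => (h.up (Crv.mem_rts.1 ha)).toOk.oo.pwU _ _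

theorem cfin_nice {ι : Type} {s : Finset ι} {J : ι → V.FI} {U : ι → F[X]}
    (h : ∀ a ∈ s, V.Nice (J a) (U a)) : V.Nice (∏ a ∈ s, J a) (∏ a ∈ s, U a) := by
  classical
  induction s using Finset.induction_on with
  | empty => exact Crv.nice_one
  | insert a s ha ih =>
    rw [prod_insert ha, prod_insert ha]
    exact (h a (mem_insert_self _ _)).mul (ih fun b hb => h b (mem_insert_of_mem hb))

theorem nrmAI_spec (h : Good x π V z w b v r) {I : Idl (List E)} {J : F → V.FI}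
    (hI : ∀ a ∈ V.rts, Rep V (evq π a) I (J a)) : Rep V π (nrmAI x I) (∏ a ∈ V.rts, J a) := by
  have hn := cfin_nice fun a ha => (hI a ha).nice
  have h1 : toP π (c0 x ((nrmA x [[mono (up x).c I.1]]).getD 0 [])) =
      ∏ a ∈ V.rts, mon (evq π a) I.1 := by
    refine h.toOk.c0_pl ?_
    rw [← coeff_toLL, nrmA_spec h, map_prod, coeff_zero_prod]
    refine prod_congr rfl fun a ha => ?_
    rw [toLL, toP_single, toL_single, (h.up (Crv.mem_rts.1 ha)).toOk.hom.mono, coeff_C_zero]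
  have h2 : mon π (nrmAI x I).1 = ∏ a ∈ V.rts, mon (evq π a) I.1 := by
    rw [← h1]
    refine h.toOk.hom.mon_fit (h1 ▸ hn.mon) ?_
    rw [h1, natDegree_prod_of_monic _ _ fun a _ => mon_monic _]
    simp only [natDegree_mon, sum_const, smul_eq_mul, Crv.card_rts, h.toOk.n]
  refine ⟨?_, h2 ▸ hn⟩
  have h3 := mkI_spec h.toOk (nrmAI x I).1 (nrmA x (gen (up x) I))
  have h4 : V.sp (V.pl (∏ a ∈ V.rts, mon (evq π a) I.1)) ≤ ∏ a ∈ V.rts, J a := Crv.sp_le.2 hn.mem
  rw [h2, nrmA_spec h, Crv.gn_finprod, prod_congr rfl fun a ha =>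
    gen_spec (h.up (Crv.mem_rts.1 ha)).toOk (hI a ha).spn, ← FractionalIdeal.sup_eq_add,
    sup_eq_right.2 h4] at h3
  exact h3

/-- `g` vanishes at some but not all roots -/
def Sep (V : Crv F) (π : E → F) (g : List E) : Prop :=
  ∃ a b, V.f.IsRoot a ∧ V.f.IsRoot b ∧ evq π a g = 0 ∧ evq π b g ≠ 0

theorem cfin_sep (h : Good x π V z w b v r) {om : List E}
    (h1 : ∀ a b, V.f.IsRoot a → V.f.IsRoot b → evq π a om ^ V.l = evq π b om ^ V.l)
    (h2 : ∃ a b, V.f.IsRoot a ∧ V.f.IsRoot b ∧ evq π a om ≠ evq π b om) : ∃ j < x.l,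
      Sep V π (sub (Quo.mk x.c x.f) om [Ops.mul x.c
        (amm x.c x.Q x.l w (cf x.c (pw (Quo.mk x.c x.f) om x.l) 0)) (pw x.c z j)]) := by
  obtain ⟨a, b, ha, hb, hab⟩ := h2
  have hp : ∀ a, V.f.IsRoot a → Pt (Quo.mk x.c x.f) x.Q (evq π a) := fun a ha =>
    h.pt.quo (h.hf ▸ ha) (h.root ha)
  have h3 : π (cf x.c (pw (Quo.mk x.c x.f) om V.l) 0) = evq π a om ^ V.l := by
    rw [← h.toOk.hom.coeff, h.toOk.hom.quo_pw, h.hf,
      modByMonic_eq_of_dvd_sub (p₂ := Polynomial.C (evq π a om ^ V.l)) V.mon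
        (Crv.f_dvd.2 fun c hc => by
          rw [eval_sub, eval_pow, eval_C, sub_eq_zero]
          exact h1 c a hc ha),
      (modByMonic_eq_self_iff V.mon).2 (degree_C_le.trans_lt (natDegree_pos_iff_degree_pos.1
        (V.deg ▸ Nat.mul_pos V.hl.pos V.hm))), coeff_C_zero]
  have h4 := amm_spec h.pt V.hl h.dv h.w0 h.w1 ((hp a ha).fix om) h3.symm
  rw [h3] at h4
  rw [h.hl]
  generalize amm x.c x.Q V.l w _ = ga at h4
  obtain ⟨j, hj, e⟩ : ∃ j < V.l, evq π a om = π ga * π z ^ j := by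
    by_cases h0 : π ga = 0
    · rw [h0, zero_pow V.hl.ne_zero] at h4
      exact ⟨0, V.hl.pos, by rw [h0, zero_mul, (pow_eq_zero_iff V.hl.ne_zero).1 h4.symm]⟩
    · have : NeZero V.l := ⟨V.hl.ne_zero⟩
      obtain ⟨j, hj, e⟩ := h.prim.eq_pow_of_pow_eq_one (ξ := evq π a om / π ga)
        (by rw [div_pow, ← h4, div_self (pow_ne_zero _ h0)])
      exact ⟨j, hj, by rw [e, mul_div_cancel₀ _ h0]⟩
  refine ⟨j, hj, a, b, ha, hb, ?_, ?_⟩
  · rw [(hp a ha).toHom.sub, evq_single, h.toOk.hom.mul, h.toOk.hom.pw, e, sub_self]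
  · rw [(hp b hb).toHom.sub, evq_single, h.toOk.hom.mul, h.toOk.hom.pw, ← e, sub_ne_zero]
    exact hab.symm

theorem cands_spec (h : Good x π V z w b v r) {I : Idl E} {J : V.FI} (hI : Rep V π I J) {a : ℕ}
    (h0 : 0 < a) (hl : a < V.l) (hne : V.cl J ≠ 0)
    (hfix : V.ac (V.sg (π z ^ a)) (V.cl J) = V.cl J) : ∃ g ∈ cands x z w I a, Sep V π g := by
  have hT := (prodI_spec h.toOk (Is := I :: ((List.range x.l).filter fun b => decide (b ≠ a)).map
    fun b => sgI x (pw x.c z b) I) (Js := J :: ((List.range x.l).filter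
      fun b => decide (b ≠ a)).map fun b => V.act (V.sg (π z ^ b)) J) (List.Forall₂.cons hI (by
    rw [List.forall₂_map_left_iff, List.forall₂_map_right_iff, List.forall₂_same]
    intro b _
    rw [← h.toOk.hom.pw]
    refine sgI_spec h.toOk ?_ hI
    rw [h.toOk.hom.pw]
    exact Crv.int_pow_rt h.prim.pow_eq_one b))).1.spn
  rw [List.prod_cons, ← List.prod_toFinset _ (List.nodup_range.filter _), List.toFinset_filter,
    List.toFinset_range, h.hl] at hT
  simp only [decide_eq_true_eq] at hT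
  obtain ⟨⟨W, hW1, hW2, hW3⟩, hlast⟩ := Crv.last h.prim h0 hl hI.nice hne hfix rfl
  rw [natDegree_mon] at hW3 hlast
  simp only [cands, h.hl, List.mem_flatMap, List.mem_map, List.mem_range]
  generalize prodI x _ = T at hT ⊢
  obtain ⟨hm1, hm2⟩ := mem_spec h.toOk hT (I.1.length + 1)
  have hk := kerO_spec h.toOk (ths := [V.l * (I.1.length + 1)]) []
    (src := (mem x T (I.1.length + 1)).map fun g => ([g], [g])) (Λ := fun _ => cdiv_co V 0) (by
      intro p hp k hk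
      obtain ⟨g, -, rfl⟩ := List.mem_map.1 hp
      obtain rfl : k = 0 := by simpa using hk
      exact (coeff_toLL _ _).symm)
  have hWt : Wt V π [] (V.l * (I.1.length + 1)) = V.Le I.1.length := by
    have := V.hl.pos
    rw [Wt, if_neg (by positivity), Crv.Le]
    push_cast
    rfl
  simp only [List.length_singleton, Nat.lt_one_iff, forall_eq, List.getD_cons_zero, hWt,
    List.map_map] at hk
  have hC : monomial 0 W ∈ _ := (hk _).2 ⟨cdiv_map (cdiv_mon V 0) (fun g hg => by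
    change monomial 0 _ ∈ _
    rw [← cdiv_mono]
    exact spn_mem _ (List.mem_map.2 ⟨g, hg, rfl⟩)) (hm2 W hW1 (by simpa using hW3)), by
      change (monomial 0 W).coeff 0 ∈ _
      rwa [coeff_monomial_same]⟩
  generalize kerO x _ _ _ = Ks at hk hC ⊢
  obtain ⟨G, hG, hG0⟩ : ∃ G ∈ Ks, toL V π (G.getD 0 []) ≠ 0 := by
    by_contra hc
    push Not at hc
    have := cdiv_map (cdiv_co V 0) (S := ⊥) (fun G hG => (coeff_toLL _ _).trans (hc G hG)) hC
    exact hW2 ((coeff_monomial_same 0 W).symm.trans this)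
  obtain ⟨hG1, hG2⟩ := (hk _).1 (spn_mem _ hG)
  have hG3 := cdiv_map (cdiv_co V 0) (fun p hp => by
    obtain ⟨g, hg, rfl⟩ := List.mem_map.1 hp
    change (toLL V π [g]).coeff 0 ∈ _
    rw [coeff_toLL]
    exact hm1 (spn_mem _ hg)) hG1
  change (toLL V π G).coeff 0 ∈ _ at hG2 hG3
  rw [coeff_toLL] at hG2 hG3
  have hw := hlast _ (Crv.mem_und.1 hG3) hG0 hG2 _ (h.toOk.c0 _)
  have hom : ∀ c, V.f.IsRoot c → evq π c (Ops.mul (Quo.mk x.c x.f) (c0 x (G.getD 0 []))
      (pinv (Quo.mk x.c x.f) x.Q (mono x.c I.1))) =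
      (toP π (c0 x (G.getD 0 []))).eval c / (mon π I.1).eval c := fun c hc => by
    have hp : Pt (Quo.mk x.c x.f) x.Q (evq π c) := h.pt.quo (h.hf ▸ hc) (h.root hc)
    have e : evq π c (mono x.c I.1) = (mon π I.1).eval c := by rw [evq, h.toOk.hom.mono]
    rw [hp.toHom.mul, hp.pinv (e ▸ Crv.cop_iff.1 hI.nice.cop c hc), e, div_eq_mul_inv, evq]
  obtain ⟨j, hj, hs⟩ := cfin_sep h (fun c d hc hd => by
    rw [hom c hc, hom d hd]
    exact hw.1 c d hc hd) (by
      obtain ⟨c, d, hc, hd, hcd⟩ := hw.2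
      exact ⟨c, d, hc, hd, by rwa [hom c hc, hom d hd]⟩)
  rw [h.hl] at hj hs
  exact ⟨_, ⟨G, hG, j, hj, rfl⟩, hs⟩

theorem cfin_keep (x : Cx C E) (z w : E) (as : List ℕ) (s : Idl E × List (List E)) {g : List E}
    (hg : g ∈ s.2) : g ∈ (as.foldl (fstep x z w) s).2 := by
  induction as generalizing s with
  | nil => exact hg
  | cons a as ih => exact ih _ (List.mem_append_left _ hg)

theorem floop_spec (h : Good x π V z w b v r) {as : List ℕ} (has : ∀ a ∈ as, 0 < a ∧ a < V.l)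
    {I : Idl E} {J : V.FI} (hI : Rep V π I J) (hne : V.cl J ≠ 0)
    (h0 : Lam (V.ac (V.sg (π z))) as (V.cl J) = 0) (cs : List (List E)) :
    ∃ g ∈ (as.foldl (fstep x z w) (I, cs)).2, Sep V π g := by
  induction as generalizing I J cs with
  | nil =>
    rw [lam_nil] at h0
    exact absurd h0 hne
  | cons a as ih =>
    obtain ⟨ha0, ha1⟩ := has a List.mem_cons_self
    by_cases hfix : V.ac (V.sg (π z ^ a)) (V.cl J) = V.cl J
    · obtain ⟨g, hg, hs⟩ := cands_spec h hI ha0 ha1 hne hfix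
      exact ⟨g, cfin_keep x z w as _ (List.mem_append_right _ hg), hs⟩
    have h1 : π (one x.c) ≠ 0 := h.toOk.hom.one ▸ one_ne_zero
    obtain ⟨J1, hJ1, e1, -⟩ := negI_spec h.toOk h.prim h1 hI
    have hJ2 := sgI_spec h.toOk (z := pw x.c z a) (by
      rw [h.toOk.hom.pw]
      exact Crv.int_pow_rt h.prim.pow_eq_one a) hJ1
    obtain ⟨J3, hJ3, e3, -⟩ := negI_spec h.toOk h.prim h1 (prodI_rep h.toOk hI hJ2 1).1
    rw [pow_one, Crv.cl_mul hI.nice.ne hJ2.nice.ne, ← Crv.ac_cl, e1, h.toOk.hom.pw, map_neg,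
      ← sub_eq_add_neg] at e3
    refine ih (fun c hc => has c (List.mem_cons_of_mem _ hc)) hJ3 ?_ ?_ _
    · rw [e3, neg_ne_zero, sub_ne_zero]
      exact Ne.symm hfix
    · rw [e3, map_neg, Crv.sg_pow h.prim.pow_eq_one, Crv.ac_pow, ← lam_snoc, lam_snoc', neg_eq_zero]
      exact h0

theorem split0_spec (h : Good x π V z w b v r) {n1 : ℕ} (hn : x.n = V.l ^ v * n1)
    (h1 : ¬ V.l ∣ n1) : ∃ g ∈ split0 x z w b v n1, Sep V π g := by
  have hai : ∀ a, evq π a [zero x.c, one x.c] = a := fun a => by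
    rw [evq_cons, evq_single, h.toOk.hom.zero, h.toOk.hom.one, zero_add, mul_one]
  have hc := fun a (ha : a ∈ V.rts) => climb_spec (h.up (Crv.mem_rts.1 ha))
    (ai := [zero x.c, one x.c]) ((hai a).symm ▸ Crv.mem_rts.1 ha)
  simp only [hai, evq_single] at hc
  choose! J hJ hcl using hc
  have hR := nrmAI_spec h hJ
  have hlen : V.l ∣ (nrmAI x (climb (up x) [z] [w] [zero x.c, one x.c] [b] v)).1.length := by
    rw [nrmAI, mkI, length_fit, h.toOk.n, mul_assoc]
    exact dvd_mul_right _ _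
  unfold split0
  generalize nrmAI x _ = R at hR hlen
  have h0 : π (one x.c) ≠ 0 := h.toOk.hom.one ▸ one_ne_zero
  obtain ⟨J1, hJ1, e1, -⟩ := negI_spec h.toOk h.prim h0 hR
  obtain ⟨hB, hB1⟩ := idB_spec h.toOk h.prim h.b0 h.b1
  obtain ⟨hJ2, e2⟩ := prodI_rep h.toOk hJ1 hB (n1 * (x.l - 1))
  obtain ⟨J3, hJ3, e3, -⟩ := negI_spec h.toOk h.prim h0 hJ2
  refine floop_spec h (fun a ha => h.hl ▸ mem_cyc ha) hJ3 (fun hz => ?_) ?_ []
  · rw [e3, neg_eq_zero] at hz
    have h2 := Crv.cl_deg hJ2.nice hz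
    rw [natDegree_mon, e2, length_negI, h.hl,
      ← Nat.dvd_add_iff_right (Nat.dvd_sub (dvd_mul_right _ _) hlen), V.hl.dvd_mul,
      V.hl.dvd_mul] at h2
    have h3 := V.hl.two_le
    rcases h2 with (h2 | h2) | h2
    · exact h1 h2
    · have := Nat.le_of_dvd (by omega) h2
      omega
    · have := Nat.le_of_dvd one_pos ((Nat.dvd_add_iff_right h2).2 (hB1 ▸ dvd_mul_right _ _))
      omega
  · rw [h.hl, lam_cyc V.hl (Crv.sum_ac h.prim), e3,
      Crv.cl_mul hJ1.nice.ne (pow_ne_zero _ hB.nice.ne), Crv.cl_pow hB.nice.ne, e1,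
      Crv.cl_finprod fun a ha => (hJ a ha).nice.ne, smul_neg, smul_add, smul_neg, smul_sum,
      sum_congr rfl hcl, sum_add_distrib, sum_neg_distrib, Crv.sum_P, neg_zero, zero_add, sum_const,
      Crv.card_rts, ← h.toOk.n, hn, h.hl, smul_smul, smul_smul, mul_assoc, neg_add_cancel,
      neg_zero]

end Vale.Agent.P319.A
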