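import Vale.Agent.P319.A.Cls

/-! The opposite class: existence and properties of the element h. -/

namespace Vale.Agent.P319.A.Crv

open Polynomial Finset

variable {F : Type} [Field F] [IsAlgClosed F] {C : Crv F}

omit [IsAlgClosed F] in
private theorem neg_co {b : ℕ} (hb : b < C.l) (p : ℕ → F[X]) :
    C.co b (∑ c ∈ range C.l, C.pl (p c) * C.y ^ c) = algebraMap F[X] (RatFunc F) (p b) := by
  rw [map_sum, sum_eq_single b]
  · rw [← kl_alg, co_mono hb, if_pos rfl]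
  · intro c hc hcb
    rw [← kl_alg, co_mono (mem_range.mp hc), if_neg hcb.symm]
  · exact fun h => absurd (mem_range.mpr hb) h

omit [IsAlgClosed F] in
private theorem neg_rat (k : RatFunc F) : ∃ p : F[X], k - algebraMap F[X] (RatFunc F) p = 0 ∨
    (k - algebraMap F[X] (RatFunc F) p).intDegree ≤ -1 := by
  refine ⟨k.num /ₘ k.denom, ?_⟩
  have hd : algebraMap F[X] (RatFunc F) k.denom ≠ 0 := RatFunc.algebraMap_ne_zero k.denom_ne_zero
  have e : k - algebraMap F[X] (RatFunc F) (k.num /ₘ k.denom) =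
      algebraMap F[X] (RatFunc F) (k.num %ₘ k.denom) / algebraMap F[X] (RatFunc F) k.denom := by
    rw [eq_div_iff hd, sub_mul, ← map_mul, sub_eq_iff_eq_add, ← map_add, mul_comm (k.num /ₘ _),
      modByMonic_add_div, ← eq_div_iff hd, RatFunc.num_div_denom]
  rw [e]
  by_cases h0 : k.num %ₘ k.denom = 0
  · left
    rw [h0, map_zero, zero_div]
  · right
    have := natDegree_lt_natDegree h0 (degree_modByMonic_lt k.num k.monic_denom)
    rw [RatFunc.intDegree_div (RatFunc.algebraMap_ne_zero h0) hd, RatFunc.intDegree_polynomial,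
      RatFunc.intDegree_polynomial]
    omega

private theorem neg_int (z : C.L) :
    ∃ q ∈ (1 : C.FI), z - q ∈ C.Le (C.m * (C.l - 1) - 1) := by
  choose p hp using fun b => neg_rat (C.co b z)
  refine ⟨∑ c ∈ range C.l, C.pl (p c) * C.y ^ c, mem_one_iff.mpr fun b hb => ⟨_, neg_co hb p⟩,
    mem_Le.mpr fun b hb => ?_⟩
  rw [map_sub, neg_co hb]
  refine (hp b).imp id fun h => ?_
  have : (C.m : ℤ) * b ≤ C.m * (C.l - 1) := mul_le_mul_of_nonneg_left (by omega) (by omega)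
  omega

private theorem neg_short {I : C.FI} {U : F[X]} (h : C.Nice I U) {N : ℕ}
    (hN : U.natDegree < C.l * N) :
    ∃ g, g ≠ 0 ∧ g ∈ I ∧ g ∈ C.Le (N - 1 + C.m * (C.l - 1)) := by
  let ex : (Fin C.l → degreeLT F N) → ℕ → F[X] := fun p c =>
    if h : c < C.l then (p ⟨c, h⟩ : F[X]) else 0
  let φ : (Fin C.l → degreeLT F N) →ₗ[F] C.L :=
    { toFun := fun p => ∑ c ∈ range C.l, C.pl (ex p c) * C.y ^ c
      map_add' := fun p q => by
        rw [← sum_add_distrib]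
        refine sum_congr rfl fun c hc => ?_
        simp only [ex, dif_pos (mem_range.mp hc), Pi.add_apply, Submodule.coe_add, map_add, add_mul]
      map_smul' := fun a p => by
        rw [smul_sum]
        refine sum_congr rfl fun c hc => ?_
        simp only [ex, dif_pos (mem_range.mp hc), Pi.smul_apply, Submodule.coe_smul,
          smul_eq_C_mul, map_mul, pl_C, RingHom.id_apply, smul_mul_assoc] }
  have hφ : ∀ p (b : ℕ) (hb : b < C.l),
      C.co b (φ p) = algebraMap F[X] (RatFunc F) (p ⟨b, hb⟩ : F[X]) := fun p b hb => by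
    rw [← dif_pos (t := fun h : b < C.l => (p ⟨b, h⟩ : F[X])) (e := fun _ => 0) hb]
    exact neg_co hb (ex p)
  have hinj : Function.Injective φ := fun p q e => funext fun b => Subtype.ext
    (IsFractionRing.injective F[X] (RatFunc F) (by rw [← hφ p b.1 b.2, ← hφ q b.1 b.2, e]))
  have := (degreeLTEquiv F N).symm.finiteDimensional
  have h1 := cod_le h.le h.mon.ne_zero h.nrm (LinearMap.range φ) (by
    rintro _ ⟨p, rfl⟩
    exact mem_und.mpr (mem_one_iff.mpr fun b hb => ⟨_, hφ p b hb⟩))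
  rw [LinearMap.finrank_range_of_inj hinj, Module.finrank_pi_fintype,
    (degreeLTEquiv F N).finrank_eq, Module.finrank_fin_fun, sum_const, card_univ,
    Fintype.card_fin, smul_eq_mul] at h1
  have h2 : LinearMap.range φ ⊓ C.und I ≠ ⊥ := by
    intro e
    rw [e, finrank_bot] at h1
    omega
  obtain ⟨_, ⟨⟨p, rfl⟩, h3⟩, h4⟩ := (Submodule.ne_bot_iff _).mp h2
  refine ⟨φ p, h4, mem_und.mp h3, mem_Le.mpr fun b hb => ?_⟩
  rw [hφ p b hb]
  by_cases h5 : (p ⟨b, hb⟩ : F[X]) = 0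
  · left
    rw [h5, map_zero]
  · right
    have h6 := (natDegree_lt_iff_degree_lt h5).mpr (mem_degreeLT.mp (p ⟨b, hb⟩).2)
    have : (C.m : ℤ) * b ≤ C.m * (C.l - 1) := mul_le_mul_of_nonneg_left (by omega) (by omega)
    rw [RatFunc.intDegree_polynomial]
    omega

theorem neg_exists {I : C.FI} {U : F[X]} (h : C.Nice I U) (c : F) {t : ℕ}
    (ht : U.natDegree + C.l * (2 * (C.l * C.m)) < C.l * t) :
    ∃ w ∈ I, w - C.lead c t ∈ C.Le (t - 1) ∧
      C.y ^ (C.l - 1) * w - C.y ^ (C.l - 1) ∈ C.sp (C.pl C.f) := by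
  have hl := C.hl.two_le
  have hm := C.hm
  have h2 : 2 * (C.l * C.m) < t := lt_of_mul_lt_mul_left (by omega) (Nat.zero_le C.l)
  obtain ⟨N, rfl⟩ : ∃ N, t = N + 2 * (C.l * C.m) := ⟨t - 2 * (C.l * C.m), by omega⟩
  obtain ⟨g, hg0, hgI, hg⟩ := neg_short h (N := N) (by rw [mul_add] at ht; omega)
  have h1 : (1 : C.L) ∈ I + C.sp C.y := by
    rw [h.cop']
    exact FractionalIdeal.one_mem_one _
  obtain ⟨w0, hw0, v, hv, e⟩ := (FractionalIdeal.mem_add _ _ _).mp h1
  obtain ⟨o, ho, rfl⟩ := mem_sp.mp hv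
  obtain ⟨q, hq, hr⟩ := neg_int ((w0 - C.lead c (N + 2 * (C.l * C.m))) / (C.y * g))
  refine ⟨w0 - C.y * q * g, sub_mem hw0 (mul_mem (mul_mem y_mem_one hq) hgI), ?_, ?_⟩
  · have h3 := Le_mul (Le_mul (ypow_mem_Le 1) hg) hr
    rw [pow_one, mul_sub (C.y * g), mul_div_cancel₀ _ (mul_ne_zero y_ne hg0)] at h3
    have e2 : w0 - C.y * q * g - C.lead c (N + 2 * (C.l * C.m)) =
        w0 - C.lead c (N + 2 * (C.l * C.m)) - C.y * g * q := by ring
    rw [e2]
    refine Le_mono ?_ h3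
    push_cast
    nlinarith
  · refine mem_sp.mpr ⟨-(o + q * g), ?_, ?_⟩
    · rw [← neg_one_smul F]
      exact smul_mem (-1 : F) (add_mem ho (mul_mem hq (h.le hgI)))
    · rw [← y_pow, ← pow_sub_one_mul C.hl.ne_zero C.y]
      linear_combination C.y ^ (C.l - 1) * e
theorem neg_sound {I : C.FI} {U : F[X]} (h : C.Nice I U) {c : F} (hc : c ≠ 0) {t : ℕ}
    (ht : C.m * (C.l - 1) ≤ t) {w : C.L} (hw : w ∈ I) (h1 : w - C.lead c t ∈ C.Le (t - 1))
    (h2 : C.y ^ (C.l - 1) * w - C.y ^ (C.l - 1) ∈ C.sp (C.pl C.f)) :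
    ∃ (U' : F[X]) (J : C.FI), C.Nice J U' ∧ (U * U').natDegree = C.l * t ∧
      C.nrm w = C.pl (Polynomial.C c * (U * U')) ∧ I * J = C.sp w ∧ C.cl J = -C.cl I ∧
      ∀ a, C.f.IsRoot a → c * U.eval a * U'.eval a = 1 := by
  obtain ⟨hb, D, hD, hdeg, hn⟩ := nrm_lead hc ht (h.le hw) h1
  have e : I * (I⁻¹ * C.sp w) = C.sp w := mul_inv_cancel_left₀ h.ne _
  have h0 : I⁻¹ * C.sp w ≠ 0 := mul_ne_zero (inv_ne_zero h.ne) (sp_ne hb.1)
  have hle : I⁻¹ * C.sp w ≤ 1 := by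
    rw [← inv_mul_cancel₀ h.ne]
    exact mul_le_mul_right (sp_le.mpr hw) _
  obtain ⟨U', hU', hn'⟩ := exists_nrm h0 hle
  have e2 : U * U' = D := by
    refine sp_pl_inj (C := C) (h.mon.mul hU') hD ?_
    rw [map_mul, sp_mul, ← h.nrm, ← hn', ← nrmI_mul, e, nrmI_sp, hn, map_mul, pl_C, sp_smul hc]
  have h3 : w - C.pl 1 ∈ C.sp C.y := by
    obtain ⟨o, ho, e3⟩ := mem_sp.mp h2
    refine mem_sp.mpr ⟨o, ho, mul_left_cancel₀ (pow_ne_zero (C.l - 1) y_ne) ?_⟩
    rw [← y_pow, ← pow_sub_one_mul C.hl.ne_zero C.y] at e3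
    rw [map_one]
    linear_combination e3
  have h4 : ∀ a, C.f.IsRoot a → c * U.eval a * U'.eval a = 1 := by
    intro a ha
    have h5 := nrm_cong h3
    rw [hn, ← map_sub, pl_mem_spy, f_dvd, ← e2] at h5
    have h6 := h5 a ha
    simp only [eval_sub, eval_mul, eval_C, one_pow, eval_one] at h6
    linear_combination h6
  refine ⟨U', _, ⟨hle, hU', hn', cop_iff.mpr fun a ha h5 => ?_⟩, by rw [e2, hdeg], by rw [e2, hn],
    e, ?_, h4⟩
  · simpa [h5] using h4 a ha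
  · rw [eq_neg_iff_add_eq_zero, add_comm, ← cl_mul h.ne h0, e, cl_sp hb]

end Vale.Agent.P319.A.Crv
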