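import Vale.Agent.P319.A.SemI
import Vale.Agent.P319.A.Neg

/-! Correctness of negI, redI, idJ, idB. -/

namespace Vale.Agent.P319.A

open Polynomial Finset

variable {C E F : Type} [Ops C E] [Field F] [IsAlgClosed F] {x : Cx C E} {π : E → F} {V : Crv F}

private theorem cneg_sol (h : Ok x π V) {I : Idl E} {J : V.FI} (hI : Rep V π I J) (cc : E) {t : ℕ}
    (ht1 : (mon π I.1).natDegree + V.l * (2 * (V.l * V.m)) < V.l * t) (ht2 : V.m * (V.l - 1) ≤ t)
    {g : Oe E} (hg : g = (solO x [x.l * t, 0] x.f ((mem x I (t + 1)).map fun g =>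
      ([g], [g, Ops.mul x.o (py (x.l - 1) [one x.c]) g]))
        [lead x cc t, py (x.l - 1) [one x.c]]).getD 0 []) :
    toL V π g ∈ J ∧ toL V π g - V.lead (π cc) t ∈ V.Le (t - 1) ∧
      V.y ^ (V.l - 1) * toL V π g - V.y ^ (V.l - 1) ∈ V.sp (V.pl V.f) := by
  obtain ⟨w, w1, w2, w3⟩ := Crv.neg_exists hI.nice (π cc) ht1
  have hy : toL V π (py (x.l - 1) [one x.c]) = V.y ^ (V.l - 1) := by
    rw [toL_py, toP_single, h.hom.one, map_one, map_one, one_mul, h.hl]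
  let Λ0 : V.L[X] →ₗ[F] V.L := (lcoeff V.L 0).restrictScalars F
  let Λ : ℕ → V.L[X] →ₗ[F] V.L := fun k =>
    if k = 0 then Λ0 else LinearMap.mulLeft F (V.y ^ (V.l - 1)) ∘ₗ Λ0
  have hC : ∀ g : Oe E, toLL V π [g] = Polynomial.C (toL V π g) := fun g => toP_single g
  have hW0 : Wt V π x.f (x.l * t) = V.Le (t - 1) := by
    rw [Wt, if_neg (by rw [h.hl]; omega), Crv.Le, h.hl, sub_add_cancel, Nat.cast_mul]
  have hW1 : Wt V π x.f 0 = V.und (V.sp (V.pl V.f)) := by rw [Wt, if_pos rfl, h.hf]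
  have h01 : ∀ p : ℕ → Prop, (∀ k ≤ 1, p k) ↔ p 0 ∧ p 1 := fun p =>
    ⟨fun h => ⟨h 0 (by omega), h 1 le_rfl⟩, fun h k hk => by interval_cases k; exacts [h.1, h.2]⟩
  have key : ∀ P : V.L[X], (∀ k < [x.l * t, 0].length,
      Λ k P - toL V π ([lead x cc t, py (x.l - 1) [one x.c]].getD k []) ∈
        Wt V π x.f ([x.l * t, 0].getD k 0)) ↔ P.coeff 0 - V.lead (π cc) t ∈ V.Le (t - 1) ∧
      V.y ^ (V.l - 1) * P.coeff 0 - V.y ^ (V.l - 1) ∈ V.sp (V.pl V.f) := by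
    intro P
    simp [h01, hW0, hW1, hy, h.lead, Crv.mem_und, Λ, Λ0]
  have hw : w ∈ spn F (toL V π) (mem x I (t + 1)) := by
    refine (mem_spec h hI.spn (t + 1)).2 w w1 ?_
    rw [Nat.cast_succ, add_sub_cancel_right, ← sub_add_cancel w (V.lead (π cc) t)]
    exact Submodule.add_mem _ (Crv.Le_mono (by omega) w2) (Crv.lead_mem ht2).2
  have hP : w ∈ (spn F (toLL V π) (((mem x I (t + 1)).map fun g =>
      ([g], [g, Ops.mul x.o (py (x.l - 1) [one x.c]) g])).map Prod.fst)).comap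
        ((monomial (R := V.L) 0).restrictScalars F) := by
    refine spn_le.mpr (fun a ha => ?_) hw
    have := spn_mem (F := F) (toLL V π) (List.mem_map_of_mem (f := Prod.fst)
      (List.mem_map_of_mem (f := fun g => ([g], [g, Ops.mul x.o (py (x.l - 1) [one x.c]) g])) ha))
    rw [hC] at this
    exact Submodule.mem_comap.mpr this
  obtain ⟨s1, s2⟩ := solO_spec h (Λ := Λ) x.f (by simp [Lin, h01, hC, h.o.mul, hy, Λ, Λ0])
    [lead x cc t, py (x.l - 1) [one x.c]] (P := monomial 0 w) (Submodule.mem_comap.mp hP)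
    ((key _).mpr (by rw [coeff_monomial_same]; exact ⟨w2, w3⟩))
  rw [key, coeff_toLL, ← hg] at s2
  refine ⟨?_, s2⟩
  rw [hg, ← coeff_toLL, ← Crv.mem_und]
  refine (spn_le (W := (V.und J).comap Λ0)).mpr (fun a ha => ?_) s1
  simp only [List.map_map, List.mem_map, Function.comp_apply] at ha
  obtain ⟨b, hb, rfl⟩ := ha
  simpa [hC, Λ0] using (mem_spec h hI.spn (t + 1)).1 (spn_mem _ hb)

private theorem cneg_col (h : Ok x π V) {I : Idl E} {J J' : V.FI} (hI : Rep V π I J) (h1 : J' ≤ 1)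
    (c : V.L) : c ∈ J' ↔ c ∈ (1 : V.FI) ∧ ∀ g ∈ gen x I, c * toL V π g ∈ J * J' := by
  have e := gen_spec h hI.spn
  refine ⟨fun hc => ⟨h1 hc, fun g hg => ?_⟩, fun hc => ?_⟩
  · obtain ⟨j, hj, rfl⟩ := List.getElem_of_mem hg
    rw [mul_comm c, ← List.getD_eq_getElem _ [] hj, ← coeff_toLL]
    exact FractionalIdeal.mul_mem_mul (e.le (Crv.coeff_mem_gn _ j)) hc
  · have h2 : V.sp c * J ≤ J * J' := by
      nth_rewrite 1 [← e]
      rw [← Crv.gn_C, ← Crv.gn_mul, Crv.gn_le]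
      intro j
      rw [coeff_C_mul, coeff_toLL]
      rcases lt_or_ge j (gen x I).length with hj | hj
      · rw [List.getD_eq_getElem _ _ hj]
        exact hc.2 _ (List.getElem_mem hj)
      · rw [List.getD_eq_default _ _ hj, toL_nil, mul_zero]
        exact FractionalIdeal.zero_mem _
    have h3 := mul_le_mul_right h2 J⁻¹
    rwa [inv_mul_cancel_left₀ hI.nice.ne, mul_comm (V.sp c), inv_mul_cancel_left₀ hI.nice.ne,
      Crv.sp_le] at h3

theorem negI_spec (h : Ok x π V) {z cc : E} (hz : IsPrimitiveRoot (π z) V.l) (hc : π cc ≠ 0)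
    {I : Idl E} {J : V.FI} (hI : Rep V π I J) : ∃ J', Rep V π (negI x z cc I) J' ∧
      V.cl J' = -V.cl J ∧
      ∀ a, V.f.IsRoot a → π cc * (mon π I.1).eval a * (mon π (negI x z cc I).1).eval a = 1 := by
  have hl := V.hl.pos
  have hlen : (mon π I.1).natDegree = I.1.length := natDegree_mon _
  obtain ⟨t, ht⟩ : ∃ t, t = (x.ds + I.1.length) / x.l := ⟨_, rfl⟩
  have ht1 : (mon π I.1).natDegree + V.l * (2 * (V.l * V.m)) < V.l * t := by
    have h1 := Nat.lt_mul_div_succ (x.ds + I.1.length) hl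
    rw [← h.hl, ← ht, Cx.ds, Cx.e, h.n, h.hl] at h1
    rw [hlen]
    linarith
  have ht2 : V.m * (V.l - 1) ≤ t := by
    have h1 : 2 * (V.l * V.m) < t := lt_of_mul_lt_mul_left (by omega) (Nat.zero_le V.l)
    have h2 : V.m * (V.l - 1) ≤ V.m * V.l := Nat.mul_le_mul_left _ (by omega)
    rw [mul_comm V.m V.l] at h2
    omega
  obtain ⟨g, hg⟩ : ∃ g, g = (solO x [x.l * t, 0] x.f ((mem x I (t + 1)).map fun g =>
    ([g], [g, Ops.mul x.o (py (x.l - 1) [one x.c]) g]))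
      [lead x cc t, py (x.l - 1) [one x.c]]).getD 0 [] := ⟨_, rfl⟩
  obtain ⟨D, hD⟩ : ∃ D, D = fit x.c (x.l * t) (psmul x.c (pinv x.c x.Q cc) (nrmO x z g)) := ⟨_, rfl⟩
  obtain ⟨u, hu⟩ : ∃ u, u = fit x.c (x.l * t - I.1.length) (pquo x.c I.1 (mono x.c D)) := ⟨_, rfl⟩
  have e : negI x z cc I = (u, colon x u.length D ((gen x I).map (Ops.mul x.o (star x z g)))) := by
    rw [hu, length_fit, hD, hg, ht]
    rfl
  obtain ⟨g1, g2, g3⟩ := cneg_sol h hI cc ht1 ht2 hg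
  obtain ⟨U', J', hN, hd, hn, hJ, hcl, hev⟩ := Crv.neg_sound hI.nice hc ht2 g1 g2 g3
  have e1 : toP π (psmul x.c (pinv x.c x.Q cc) (nrmO x z g)) = mon π I.1 * U' := by
    rw [h.hom.psmul, h.pt.pinv hc, Crv.pl_inj ((h.nrmO hz g).trans hn), ← mul_assoc, ← map_mul,
      inv_mul_cancel₀ hc, map_one, one_mul]
  have e2 : mon π D = mon π I.1 * U' := by
    rw [hD, h.hom.mon_fit (e1 ▸ (mon_monic _).mul hN.mon) (by rw [e1, hd, h.hl]), e1]
  have e3 : toP π (pquo x.c I.1 (mono x.c D)) = U' := h.hom.pquo_mul (by rw [h.hom.mono, e2])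
  have e4 : mon π u = U' := by
    rw [(mon_monic _).natDegree_mul hN.mon, hlen] at hd
    rw [hu, h.hom.mon_fit (e3 ▸ hN.mon) (by rw [e3, h.hl]; omega), e3]
  rw [e]
  refine ⟨J', ⟨(colon_spec h D _ (fun c => ?_) (e4 ▸ hN.mem)).1, e4 ▸ hN⟩, hcl, e4 ▸ hev⟩
  have e5 : V.sp (V.pl (mon π D)) = V.sp (toL V π (star x z g)) * (J * J') := by
    rw [hJ, ← Crv.sp_mul, mul_comm, h.star hz, hn, map_mul V.pl (Polynomial.C _), Crv.pl_C,
      Crv.sp_smul hc, e2]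
  have h0 : toL V π (star x z g) ≠ 0 := by
    intro h1
    refine Crv.sp_ne (Crv.bal_pl (C := V) (mon_monic (π := π) D).ne_zero).1 ?_
    rw [e5, h1, Crv.sp, FractionalIdeal.spanSingleton_zero, zero_mul]
  rw [cneg_col h hI hN.le c, e5]
  refine and_congr_right fun _ => ?_
  simp only [List.forall_mem_map, h.o.mul, mul_left_comm c, Crv.mem_sp_mul,
    mul_right_inj' h0, exists_eq_right']
theorem length_negI (x : Cx C E) (z cc : E) (I : Idl E) :
    (negI x z cc I).1.length = x.l * ((x.ds + I.1.length) / x.l) - I.1.length := by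
  exact length_fit _ _ _
theorem length_redI (x : Cx C E) (z ai : E) {I : Idl E} (hd : x.l ∣ I.1.length) :
    (redI x z ai I).1.length = x.ds := by
  have key : ∀ (cc : E) (I : Idl E), x.l ∣ I.1.length → (negI x z cc I).1.length = x.ds := by
    rintro cc I ⟨k, hk⟩
    rw [length_negI, hk, Cx.ds, ← mul_add]
    rcases Nat.eq_zero_or_pos x.l with h | h
    · simp [h]
    · rw [Nat.mul_div_cancel_left _ h, mul_add, Nat.add_sub_cancel]
  exact key _ _ (by rw [key _ _ hd]; exact dvd_mul_right _ _)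
theorem redI_spec (h : Ok x π V) {z ai : E} (hz : IsPrimitiveRoot (π z) V.l)
    (ha : V.f.IsRoot (π ai)) {I : Idl E} {J : V.FI} (hI : Rep V π I J) :
    ∃ J', Rep V π (redI x z ai I) J' ∧ V.cl J' = V.cl J ∧
      (mon π (redI x z ai I).1).eval (π ai) = 1 := by
  obtain ⟨J1, h1, h2, h3⟩ := negI_spec h hz (cc := one x.c) (by rw [h.hom.one]; exact one_ne_zero) hI
  have h4 : (mon π (negI x z (one x.c) I).1).eval (π ai) ≠ 0 :=
    right_ne_zero_of_mul_eq_one (h3 _ ha)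
  have h5 : π (pinv x.c x.Q (pev x.c (mono x.c (negI x z (one x.c) I).1) ai)) =
      ((mon π (negI x z (one x.c) I).1).eval (π ai))⁻¹ := by
    rw [h.pt.pinv (by rwa [h.hom.pev, h.hom.mono]), h.hom.pev, h.hom.mono]
  obtain ⟨J2, h6, h7, h8⟩ := negI_spec h hz (h5 ▸ inv_ne_zero h4) h1
  refine ⟨J2, h6, by rw [h7, h2, neg_neg], ?_⟩
  have h9 := h8 _ ha
  rwa [h5, inv_mul_cancel₀ h4, one_mul] at h9
private theorem cneg_g (h : Ok x π V) (a : List E) :
    toL V π [a, [one x.c]] = V.pl (toP π a) + V.y := by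
  rw [toL, evq_cons, evq_single, toP_single, h.hom.one, map_one, map_one, mul_one]

private theorem cneg_lin (h : Ok x π V) (a : E) :
    toP π [Ops.neg x.c a, one x.c] = X - Polynomial.C (π a) := by
  rw [toP_cons, toP_single, h.hom.one, h.hom.neg, map_one, map_neg, mul_one, neg_add_eq_sub]

theorem idJ_spec (h : Ok x π V) {z ai : E} (hz : IsPrimitiveRoot (π z) V.l)
    (ha : V.f.IsRoot (π ai)) : ∃ J, Rep V π (idJ x z ai) J ∧ V.cl J = -V.cl (V.P (π ai)) ∧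
      (idJ x z ai).1.length + 1 = V.l * (V.m + 1) := by
  obtain ⟨J, U, hN, hd, hn, hb, hJ, hJ'⟩ := Crv.exists_J ha
  have e1 : toL V π [pwU x.p [Ops.neg x.c ai, one x.c] (x.m + 1), [one x.c]] =
      V.pl ((X - Polynomial.C (π ai)) ^ (V.m + 1)) + V.y := by
    rw [cneg_g h, h.p.pwU, cneg_lin h, h.m]
  have e2 := h.hom.pquo_mul (md := [Ops.neg x.c ai]) (q := U)
    ((Crv.pl_inj ((h.nrmO hz _).trans (e1 ▸ hn))).trans (by
      simp [mon, toP_single, h.hom.neg, sub_eq_add_neg]))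
  have e3 : mon π (idJ x z ai).1 = U :=
    (h.hom.mon_fit (e2 ▸ hN.mon) (by rw [e2, hd, h.hl, h.m])).trans e2
  refine ⟨J, ⟨?_, e3 ▸ hN⟩, ?_, ?_⟩
  · have h1 := mkI_spec h (idJ x z ai).1 [[pwU x.p [Ops.neg x.c ai, one x.c] (x.m + 1), [one x.c]]]
    rwa [e3, toLL, toP_single, Crv.gn_C, e1, ← hJ'] at h1
  · rw [eq_neg_iff_add_eq_zero, ← Crv.cl_mul hN.ne (Crv.P_ne _), hJ, Crv.cl_sp hb]
  · rw [← natDegree_mon (π := π), e3, hd]
    exact Nat.sub_add_cancel (Nat.mul_pos V.hl.pos V.m.succ_pos)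
theorem idB_spec (h : Ok x π V) {z b : E} (hz : IsPrimitiveRoot (π z) V.l)
    (h0 : V.f.eval (π b) ≠ 0)
    (h1 : ((V.l * V.m : ℕ) : F) * π b + V.f.coeff (V.l * V.m - 1) ≠ 0) :
    Rep V π (idB x z b) (V.B (π b)) ∧ (idB x z b).1.length + 1 = V.l * V.m := by
  obtain ⟨U, c, hN, hd, hc, hn⟩ := Crv.exists_B h0 h1
  have e1 : toL V π [pneg x.c (pwU x.p [Ops.neg x.c b, one x.c] x.m), [one x.c]] =
      V.pl (-(X - Polynomial.C (π b)) ^ V.m) + V.y := by
    rw [cneg_g h, h.hom.pneg, h.p.pwU, cneg_lin h, h.m]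
  have e2 := Crv.pl_inj ((h.nrmO hz _).trans (e1 ▸ hn))
  have e3 := h.hom.coeff
    (nrmO x z [pneg x.c (pwU x.p [Ops.neg x.c b, one x.c] x.m), [one x.c]]) (x.n - 1)
  rw [e2, coeff_C_mul, h.n, ← hd, hN.mon.coeff_natDegree, mul_one, hd, ← h.n] at e3
  have e4 := h.hom.psmul (pinv x.c x.Q (cf x.c
    (nrmO x z [pneg x.c (pwU x.p [Ops.neg x.c b, one x.c] x.m), [one x.c]]) (x.n - 1)))
    (nrmO x z [pneg x.c (pwU x.p [Ops.neg x.c b, one x.c] x.m), [one x.c]])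
  rw [h.pt.pinv (e3 ▸ hc), ← e3, e2, ← mul_assoc, ← map_mul, inv_mul_cancel₀ hc, map_one,
    one_mul] at e4
  have e5 : mon π (idB x z b).1 = U :=
    (h.hom.mon_fit (e4 ▸ hN.mon) (by rw [e4, hd, h.n])).trans e4
  refine ⟨⟨?_, e5 ▸ hN⟩, ?_⟩
  · have h2 := mkI_spec h (idB x z b).1
      [[pneg x.c (pwU x.p [Ops.neg x.c b, one x.c] x.m), [one x.c]]]
    rwa [e5, toLL, toP_single, Crv.gn_C, e1, ← Crv.B, ← FractionalIdeal.sup_eq_add,
      sup_eq_right.mpr ((Crv.sp_le (C := V)).mpr hN.mem)] at h2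
  · rw [← natDegree_mon (π := π), e5, hd]
    exact Nat.sub_add_cancel (Nat.mul_pos V.hl.pos V.hm)

end Vale.Agent.P319.A
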