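import Vale.Agent.P319.A.Tower
import Vale.Agent.P319.A.CFin

/-! Correctness of split. -/

namespace Vale.Agent.P319.A

open Polynomial Finset

variable {p : ℕ} [Fact p.Prime]

private theorem cs_toP_congr {E E' R : Type} [CommRing R] {π : E → R} {π' : E' → R} (φ : E → E') :
    ∀ l : List E, (∀ a ∈ l, π' (φ a) = π a) → toP π' (l.map φ) = toP π l
  | [], _ => rfl
  | a :: l, h => by
    rw [List.map_cons, toP_cons, toP_cons, h a List.mem_cons_self,
      cs_toP_congr φ l fun b hb => h b (List.mem_cons_of_mem _ hb)]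

private theorem cs_pow_fix {F : Type} [Field F] {a : F} {q : ℕ} (h : a ^ q = a) :
    ∀ k, a ^ q ^ k = a
  | 0 => by simp
  | k + 1 => by rw [pow_succ, pow_mul, cs_pow_fix h k, h]

private theorem cs_nat {a : Fb p} (h : a ^ p = a) : ∃ k : ℕ, a = k := by
  obtain ⟨n, rfl⟩ := (mem_bot_iff_intCast p (Fb p)).1
    ((Subfield.mem_bot_iff_pow_eq_self (Fb p) p).2 h)
  refine ⟨(n : ZMod p).val, ?_⟩
  rw [← map_natCast (algebraMap (ZMod p) (Fb p)), ZMod.natCast_zmod_val, map_intCast]

private theorem cs_ne {k : ℕ} (h0 : 0 < k) (h : k < p) : (k : Fb p) ≠ 0 := fun e =>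
  absurd (Nat.le_of_dvd h0 ((CharP.cast_eq_zero_iff (Fb p) p k).1 e)) (not_le.2 h)

private theorem cs_bnd (n : ℕ) : n + 2 ≤ bnd n := Nat.le_self_pow (by norm_num) _

/-- a good evaluation point -/
private theorem cs_point {g : List ℕ} (h2 : 2 ≤ g.length) (hp : bnd g.length < p) {b : ℕ}
    (hb : b = ((List.range (g.length + 2)).filter fun b => !Ops.isZ p (pev p (mono p g) b) &&
      !Ops.isZ p (g.length * b + cf p g (g.length - 1))).headD 0) :
    (mon (pb p) g).eval (b : Fb p) ≠ 0 ∧
      (g.length : Fb p) * b + (mon (pb p) g).coeff (g.length - 1) ≠ 0 := by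
  classical
  have hp0 : 0 < p := (Fact.out : p.Prime).pos
  have hH := hom_nat (Fb p) hp0
  have hF := faith_nat (Fb p) hp0
  have hn := cs_bnd g.length
  have key : ∀ b : ℕ, (!Ops.isZ p (pev p (mono p g) b) &&
      !Ops.isZ p (g.length * b + cf p g (g.length - 1))) = true ↔
      (mon (pb p) g).eval (b : Fb p) ≠ 0 ∧
        (g.length : Fb p) * b + (mon (pb p) g).coeff (g.length - 1) ≠ 0 := fun b => by
    rw [Bool.and_eq_true, Bool.not_eq_true', Bool.not_eq_true', ← Bool.not_eq_true,
      ← Bool.not_eq_true, hF, hF, hH.pev, hH.mono, mon, coeff_add, coeff_X_pow,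
      if_neg (by omega), zero_add, hH.coeff, Nat.cast_add, Nat.cast_mul]
  obtain ⟨c, hc⟩ : ∃ c, c = (mon (pb p) g).coeff (g.length - 1) := ⟨_, rfl⟩
  rw [← hc] at key ⊢
  have hn0 : (g.length : Fb p) ≠ 0 := cs_ne (by omega) (by omega)
  have hex : ∃ b ∈ List.range (g.length + 2), (mon (pb p) g).eval (b : Fb p) ≠ 0 ∧
      (g.length : Fb p) * b + c ≠ 0 := by
    by_contra hne
    have hP : mon (pb p) g * (Polynomial.C (g.length : Fb p) * X + Polynomial.C c) = 0 := by
      refine eq_zero_of_degree_lt_of_eval_index_eq_zero (range (g.length + 2))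
        (v := fun i : ℕ => (i : Fb p)) (fun i hi j hj e => ?_) ?_ fun i hi => ?_
      · have hi' := mem_range.1 hi
        have hj' := mem_range.1 hj
        exact Nat.ModEq.eq_of_lt_of_lt ((CharP.natCast_eq_natCast (Fb p) p).1 e) (by omega)
          (by omega)
      · rw [card_range, degree_mul, degree_linear hn0, degree_eq_natDegree (mon_monic g).ne_zero,
          natDegree_mon]
        exact_mod_cast Nat.lt_succ_self _
      · by_contra h
        rw [eval_mul, mul_eq_zero, not_or] at h
        exact hne ⟨i, List.mem_range.2 (mem_range.1 hi), h.1, by simpa using h.2⟩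
    rcases mul_eq_zero.1 hP with h | h
    · exact (mon_monic g).ne_zero h
    · have := degree_linear (b := c) hn0
      rw [h] at this
      simp at this
  obtain ⟨b', h1, h3⟩ := hex
  generalize hq : (fun b => !Ops.isZ p (pev p (mono p g) b) &&
      !Ops.isZ p (g.length * b + cf p g (g.length - 1))) = q at hb
  have key' : ∀ b : ℕ, q b = true ↔ (mon (pb p) g).eval (b : Fb p) ≠ 0 ∧
      (g.length : Fb p) * b + c ≠ 0 := fun b => by
    rw [← hq]
    exact key b
  obtain ⟨a, l, e⟩ := List.exists_cons_of_ne_nil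
    (List.ne_nil_of_mem (List.mem_filter.2 ⟨h1, (key' b').2 h3⟩))
  rw [e, List.headD_cons] at hb
  have hm : b ∈ (List.range (g.length + 2)).filter q := by
    rw [e, hb]
    exact List.mem_cons_self
  exact (key' b).1 (List.mem_filter.1 hm).2

/-- a polynomial with values `0`, `1` at the rational roots has rational coefficients -/
private theorem cs_rat {f P : (Fb p)[X]} (hf : f.Separable) (hd : P.degree < f.natDegree)
    (hr : ∀ a, f.IsRoot a → a ^ p = a ∧ (P.eval a = 0 ∨ P.eval a = 1)) (j : ℕ) :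
    ∃ k : ℕ, P.coeff j = k := by
  classical
  have hc : f.roots.toFinset.card = f.natDegree := by
    rw [Multiset.toFinset_card_of_nodup (nodup_roots hf), IsAlgClosed.card_roots_eq_natDegree]
  have h1 : P.map (frobenius (Fb p) p) = P := by
    refine eq_of_degrees_lt_of_eval_finset_eq f.roots.toFinset ?_ (hc ▸ hd) fun a ha => ?_
    · rw [degree_map, hc]
      exact hd
    · obtain ⟨a1, a2⟩ := hr a (isRoot_of_mem_roots (Multiset.mem_toFinset.1 ha))
      have a3 : frobenius (Fb p) p a = a := a1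
      conv_lhs => rw [← a3, eval_map, eval₂_at_apply]
      rcases a2 with e | e <;> simp [e]
  refine cs_nat ?_
  conv_rhs => rw [← h1, coeff_map]
  rfl

theorem split_spec {g : List ℕ} (h2 : 2 ≤ g.length) (hp : bnd g.length < p)
    (hs : (mon (pz p) g).Separable) (hr : (mon (pz p) g).Splits) {t : List ℕ × List ℕ}
    (ht : FieldOK p g.length.minFac t) : Cut p g (split p t g) := by
  classical
  have hpp : p.Prime := Fact.out
  have hl : g.length.minFac.Prime := Nat.minFac_prime (by omega)
  have hln := Nat.minFac_dvd g.length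
  have hb2 := cs_bnd g.length
  unfold split
  simp only [minF_eq h2]
  generalize g.length.minFac = l at ht hl hln ⊢
  obtain ⟨n1, hn1, hn1'⟩ := valu_spec hl (by omega : 0 < g.length)
  generalize valu l g.length = v at hn1 ⊢
  have hlv : 0 < l ^ v := pow_pos hl.pos v
  have hv : 2 ≤ l ^ v := by
    rcases v with _ | v
    · rw [pow_zero, one_mul] at hn1
      exact absurd (hn1 ▸ hln) hn1'
    · exact hl.two_le.trans (Nat.le_self_pow (Nat.succ_ne_zero v) l)
  have hmin : min (l ^ v) g.length = l ^ v :=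
    min_eq_left (Nat.le_of_dvd (by omega) ⟨n1, hn1⟩)
  have hdiv : g.length / l ^ v = n1 := by rw [hn1, Nat.mul_div_cancel_left _ hlv]
  rw [hmin, hdiv]
  obtain ⟨hirr, hd, h4, u, hu, hG0, hG1⟩ := ht
  obtain ⟨hi0, huq, hd0⟩ := ind_of_irr hirr hu
  have hH := hom_nat (Fb p) hpp.pos
  have P0 : Pt (Quo.mk p t.1) (p ^ t.1.length) (evq (pb p) u) := (pt_nat (Fb p) hd0).quo hu huq
  have P0' : Pt (Quo.mk p t.1) ((p ^ t.1.length) ^ l ^ v) (evq (pb p) u) := by
    refine Pt.quo ?_ hu (cs_pow_fix huq _)
    rw [← pow_mul]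
    exact pt_nat (Fb p) (Nat.mul_pos hd0 hlv)
  obtain ⟨w, hw⟩ := IsAlgClosed.exists_pow_nat_eq (evq (pb p) u t.2) hlv
  obtain ⟨t1, t2, t3, t4, t5⟩ := tower hl P0.two hd h4 hG0 (P0.fix _) hG1 hw
  generalize hmd : Ops.neg (Quo.mk p t.1) t.2 :: List.replicate (l ^ v - 1) [] = md
  have hlen : md.length = l ^ v := by
    rw [← hmd, List.length_cons, List.length_replicate]
    omega
  have hwm : (mon (evq (pb p) u) md).eval w = 0 := by
    rw [mon, hlen, ← hmd, toP_cons, toP_replicate (evq_nil u), P0.neg]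
    simp [hw]
  have P1 := P0'.quo hwm t1
  have hi1 : Ind (evq (pb p) u) w md.length := by
    refine ind_of_conj (iterateFrobenius (Fb p) p t.1.length) P0.fix fun i j hij hj => ?_
    have e : ∀ k, (iterateFrobenius (Fb p) p t.1.length)^[k] w = w ^ (p ^ t.1.length) ^ k := by
      intro k
      induction k with
      | zero => simp
      | succ k ih => rw [Function.iterate_succ_apply', ih, iterateFrobenius_def, ← pow_mul, ← pow_succ]
    rw [e, e]
    exact t5 i j hij (hlen ▸ hj)
  have hmap : (mon (pz p) g).map (algebraMap (ZMod p) (Fb p)) = mon (pb p) g := by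
    rw [map_mon, tower_pb]
  have hnl : l * (g.length / l) = g.length := Nat.mul_div_cancel' hln
  have hll := Nat.le_of_dvd (by omega) hln
  let V : Crv (Fb p) := ⟨l, g.length / l, mon (pb p) g, hl, Nat.div_pos hll hl.pos, mon_monic g,
    hmap ▸ hs.map, by rw [natDegree_mon, hnl], cs_ne hl.pos (by omega)⟩
  have hroot : ∀ a, (mon (pb p) g).IsRoot a → a ^ p = a := fun a ha => by
    obtain ⟨a0, rfl⟩ := hr.mem_range_of_isRoot (mon_monic g).ne_zero
      (i := algebraMap (ZMod p) (Fb p)) (hmap ▸ ha)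
    rw [← map_pow, ZMod.pow_card]
  have hf : mon (evq (evq (pb p) u) w) (g.map (Ops.ofN (Quo.mk (Quo.mk p t.1) md))) =
      mon (pb p) g := by
    rw [mon, mon, List.length_map, cs_toP_congr (π := pb p) _ _ fun a _ => P1.ofN a]
  generalize hb : List.headD _ 0 = b
  obtain ⟨hb0, hb1⟩ := cs_point h2 hp hb.symm
  have hz : evq (evq (pb p) u) w [pw (Quo.mk p t.1) t.2 ((p ^ t.1.length - 1) / l)] =
      evq (pb p) u t.2 ^ ((p ^ t.1.length - 1) / l) := by rw [evq_single, P0.pw]
  have hw' : evq (evq (pb p) u) w [[], one (Quo.mk p t.1)] = w := by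
    rw [evq_cons, evq_single, evq_nil, P0.one, zero_add, mul_one]
  have hgood : Good (Cx.mk (Quo.mk (Quo.mk p t.1) md) ((p ^ t.1.length) ^ l ^ v)
      (g.map (Ops.ofN (Quo.mk (Quo.mk p t.1) md))) (List.replicate l ()))
      (evq (evq (pb p) u) w) V [pw (Quo.mk p t.1) t.2 ((p ^ t.1.length - 1) / l)]
      [[], one (Quo.mk p t.1)] (Ops.ofN (Quo.mk (Quo.mk p t.1) md) b) v
      (iterateFrobeniusEquiv (Fb p) p t.1.length) :=
    { pt := P1
      hl := List.length_replicate
      hf := hf
      prim := hz ▸ t4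
      w0 := by
        rw [hw']
        exact fun e => hG0 (by rw [← hw, e, zero_pow hlv.ne'])
      w1 := by
        rw [hw']
        exact t2
      dv := t3
      chr := fun k h0 hk => cs_ne h0 (lt_of_le_of_lt hk
        (lt_of_eq_of_lt (congrArg bnd (List.length_map _)) hp))
      fr := fun a => by
        have e : ∀ k, (iterateFrobeniusEquiv (Fb p) p t.1.length ^ k) a =
            a ^ (p ^ t.1.length) ^ k := by
          intro k
          induction k with
          | zero => simp
          | succ k ih =>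
            rw [pow_succ', RingAut.mul_apply, ih, iterateFrobeniusEquiv_def, ← pow_mul, ← pow_succ]
        exact e _
      ff := by
        change (mon (pb p) g).map _ = mon (pb p) g
        rw [map_mon]
        simp only [map_natCast]
      fz := by
        rw [hz, map_pow, iterateFrobeniusEquiv_def, P0.fix]
      fb := by rw [P1.ofN, map_natCast]
      fa := fun a ha => cs_pow_fix (hroot a ha) _
      b0 := by
        rw [P1.ofN]
        exact hb0
      b1 := by
        rw [P1.ofN]
        change ((l * (g.length / l) : ℕ) : Fb p) * b + (mon (pb p) g).coeff (l * (g.length / l) - 1) ≠ 0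
        rw [hnl]
        exact hb1 }
  obtain ⟨c, hc, a, a', ha, ha', hc0, hc1⟩ := split0_spec hgood
    ((List.length_map _).trans hn1) hn1'
  refine ⟨_, List.mem_map_of_mem hc, ?_⟩
  obtain ⟨Ep, hE⟩ : ∃ Ep, eps (Quo.mk (Quo.mk (Quo.mk p t.1) md)
      (g.map (Ops.ofN (Quo.mk (Quo.mk p t.1) md)))) ((p ^ t.1.length) ^ l ^ v) c = Ep := ⟨_, rfl⟩
  dsimp only [Cx.f, Cx.Q, Cx.mk]
  rw [hE]
  have hev : ∀ a, (mon (pb p) g).IsRoot a → evq (evq (evq (pb p) u) w) a Ep =
      if evq (evq (evq (pb p) u) w) a c = 0 then 0 else 1 := fun a ha => by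
    rw [← hE]
    exact (P1.quo (hf ▸ ha) (hgood.root ha)).eps c
  have hrat := cs_rat (P := toP (evq (evq (pb p) u) w) Ep) V.sep (by
      refine (degree_toP_lt _).trans_eq ?_
      rw [← hE, eps, length_quo_pw, natDegree_mon]
      exact congrArg _ (List.length_map _))
    fun a ha => ⟨hroot a ha, by
      have := hev a ha
      split_ifs at this
      exacts [Or.inl this, Or.inr this]⟩
  have hE' : (toP (pz p) (Ep.map fun e => cst (Quo.mk p t.1) (cst (Quo.mk (Quo.mk p t.1) md) e))).map
      (algebraMap (ZMod p) (Fb p)) = toP (evq (evq (pb p) u) w) Ep := by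
    rw [map_toP, tower_pb]
    refine cs_toP_congr _ _ fun e he => ?_
    obtain ⟨j, hj, rfl⟩ := List.mem_iff_getElem.1 he
    obtain ⟨k, hk⟩ := hrat j
    rw [P1.coeff, cf, List.getD_eq_getElem _ _ hj] at hk
    rw [hk]
    exact hH.cst hu hi0 hd0 ((P0.cst hwm hi1 (hlen ▸ hlv) (b := [k])
      (hk.trans (evq_single u k).symm)).trans (evq_single u k))
  constructor
  · intro h
    have h1 := h.map (mapRingHom (algebraMap (ZMod p) (Fb p)))
    rw [coe_mapRingHom, hmap, hE'] at h1
    obtain ⟨A, B, e⟩ := h1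
    have h3 := congrArg (eval a) e
    have h5 : (toP (evq (evq (pb p) u) w) Ep).eval a = 0 := (hev a ha).trans (if_pos hc0)
    rw [eval_add, eval_mul, eval_mul, show (mon (pb p) g).eval a = 0 from ha, h5] at h3
    simp at h3
  · intro h
    have h1 := Polynomial.map_dvd (algebraMap (ZMod p) (Fb p)) h
    rw [hmap, hE'] at h1
    have h5 : (toP (evq (evq (pb p) u) w) Ep).eval a' = 1 := (hev a' ha').trans (if_neg hc1)
    exact one_ne_zero (h5.symm.trans (eval_eq_zero_of_dvd_of_eval_eq_zero h1 ha'))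

end Vale.Agent.P319.A
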