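import Vale.Agent.P319.A.Div1N

/-! Classes of degree zero are divisible by 1 - sigma. -/

namespace Vale.Agent.P319.A.Crv

open Polynomial Finset

variable {F : Type} [Field F] [IsAlgClosed F] {C : Crv F}

omit [IsAlgClosed F] in
theorem d1_le_sum {ι : Type} [DecidableEq ι] {s : Finset ι} (g : ι → C.FI) {i : ι} (hi : i ∈ s) :
    g i ≤ ∑ j ∈ s, g j := by
  rw [← add_sum_erase _ _ hi, ← FractionalIdeal.sup_eq_add]
  exact le_sup_left

omit [IsAlgClosed F] in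
theorem d1_sum_le {ι : Type} {s : Finset ι} {g : ι → C.FI} {J : C.FI} (h : ∀ i ∈ s, g i ≤ J) :
    ∑ j ∈ s, g j ≤ J :=
  sum_induction g (· ≤ J) (fun _ _ ha hb => by
    rw [← FractionalIdeal.sup_eq_add]; exact sup_le ha hb) (FractionalIdeal.zero_le J) h

/-- splitting of the cyclic algebra `(f, x - c)` -/
theorem exists_split {z : F} (hz : IsPrimitiveRoot z C.l) (c k : F) : ∃ (h : C.L) (J : C.FI),
    J ≠ 0 ∧ C.nrm h = C.pl (X - Polynomial.C c) ∧ C.sp h * C.act (C.sg z) J ≤ J ∧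
    h * (C.y - C.pl (X ^ C.m + Polynomial.C k * X ^ (C.m - 1))) ∈ C.Le C.m := by
  obtain ⟨h, h1, h2⟩ := d1_h hz c
  have hm := C.hm
  have hd : (Polynomial.C k * X ^ (C.m - 1) : F[X]).degree < (X ^ C.m : F[X]).degree := by
    rw [degree_X_pow]
    exact (degree_C_mul_X_pow_le _ _).trans_lt (by exact_mod_cast Nat.sub_lt hm one_pos)
  have h0 : (1 : C.FI) ≤ ∑ t ∈ range C.l, C.sp (C.hp z h t) := by
    have := d1_le_sum (fun t => C.sp (C.hp z h t)) (mem_range.2 C.hl.pos)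
    rwa [hp, range_zero, prod_empty, sp_one] at this
  refine ⟨h, ∑ t ∈ range C.l, C.sp (C.hp z h t), fun e => ?_, h1, ?_,
    h2 _ ((monic_X_pow _).add_of_left hd) ?_⟩
  · rw [e] at h0
    exact one_ne_zero (le_antisymm h0 (FractionalIdeal.zero_le _))
  · rw [map_sum, mul_sum]
    refine d1_sum_le fun t ht => ?_
    have e := hp_succ hz.pow_eq_one h 1 t
    rw [map_one, map_one, mul_one, mul_one] at e
    rw [act_sp, ← sp_mul, e]
    rcases (Nat.succ_le_of_lt (mem_range.1 ht)).lt_or_eq with h3 | h3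
    · exact d1_le_sum (fun t => C.sp (C.hp z h t)) (mem_range.2 h3)
    · refine le_trans ?_ h0
      rw [show t + 1 = C.l from h3, hp, ← nrm_eq hz, h1, sp_le]
      exact pl_mem_one _
  · rw [natDegree_add_eq_left_of_degree_lt hd, natDegree_X_pow]

omit [IsAlgClosed F] in
theorem d1_mul_inv_le {I J : C.FI} (hJ : J ≠ 0) (h : I ≤ J) : I * J⁻¹ ≤ 1 := by
  rw [← mul_inv_cancel₀ hJ]
  exact mul_le_mul_left h _

theorem d1_nrm_one {I : C.FI} (h : I ≤ 1) (hn : C.nrmI I = C.sp (C.pl 1)) : I = 1 := by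
  refine le_antisymm h ?_
  have := nrmI_le h
  rwa [hn, map_one, sp_one] at this

theorem d1_prime {Q R : C.FI} {c : F} (hQ : Q ≠ 0)
    (hn : C.nrmI Q = C.sp (C.pl (X - Polynomial.C c))) (h1 : Q ≤ R) (h2 : R ≤ 1) :
    R = 1 ∨ R = Q := by
  have hR : R ≠ 0 := fun e => hQ (le_antisymm (e ▸ h1) (FractionalIdeal.zero_le _))
  have h3 := d1_mul_inv_le hR h1
  obtain ⟨A, hA, eA⟩ := exists_nrm hR h2
  obtain ⟨B, hB, eB⟩ := exists_nrm (mul_ne_zero hQ (inv_ne_zero hR)) h3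
  have e : A * B = X - Polynomial.C c := sp_pl_inj (C := C) (hA.mul hB) (monic_X_sub_C c) (by
    rw [map_mul, sp_mul, ← eA, ← eB, ← nrmI_mul, mul_comm Q, mul_inv_cancel_left₀ hR, hn])
  have hd := hA.natDegree_mul hB
  rw [e, natDegree_X_sub_C] at hd
  by_cases h4 : A.natDegree = 0
  · exact Or.inl (d1_nrm_one h2 (by rw [eA, hA.natDegree_eq_zero.1 h4]))
  · have h5 := d1_nrm_one h3 (by rw [eB, hB.natDegree_eq_zero.1 (by omega)])
    exact Or.inr ((mul_inv_eq_one₀ hR).1 h5).symm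

omit [IsAlgClosed F] in
theorem d1_cop {ι : Type} {s : Finset ι} {g : ι → C.FI} {Q : C.FI} (hQ : Q ≤ 1)
    (h1 : ∀ i ∈ s, g i ≤ 1) (h : ∀ i ∈ s, g i + Q = 1) : ∏ i ∈ s, g i + Q = 1 := by
  refine (prod_induction g (fun A => A ≤ 1 ∧ A + Q = 1) (fun A B hA hB => ⟨?_, ?_⟩)
    ⟨le_rfl, ?_⟩ fun i hi => ⟨h1 i hi, h i hi⟩).2
  · exact (mul_le_mul_right hB.1 A).trans (by rw [mul_one]; exact hA.1)
  · calc A * B + Q = A * B + Q * (A + Q + (B + Q)) := by
          rw [hA.2, hB.2, ← FractionalIdeal.sup_eq_add 1 1, sup_idem, mul_one]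
      _ = (A + Q) * (B + Q) + Q * Q := by ring
      _ = 1 := by
          rw [hA.2, hB.2, mul_one, ← FractionalIdeal.sup_eq_add, sup_eq_left]
          exact (mul_le_mul_right hQ Q).trans (by rw [mul_one]; exact hQ)
  · rw [← FractionalIdeal.sup_eq_add, sup_eq_left]; exact hQ

omit [IsAlgClosed F] in
theorem d1_act_le (t : C.G) {I : C.FI} (h : I ≤ 1) : C.act t I ≤ 1 := by
  rw [← map_one (C.act t), act_le]; exact h

theorem d1_step {z : F} (hz : IsPrimitiveRoot z C.l) {Q I : C.FI} {c : F} {U : F[X]} (hQ : Q ≠ 0)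
    (hQ1 : Q ≤ 1) (hn : C.nrmI Q = C.sp (C.pl (X - Polynomial.C c))) (hI : I ≤ 1)
    (hU : C.nrmI I = C.sp (C.pl ((X - Polynomial.C c) * U))) :
    ∃ t, C.act (C.sg (z ^ t)) I ≤ Q := by
  by_contra hc
  push Not at hc
  have h1 := d1_cop (s := range C.l) (g := fun t => C.act (C.sg (z ^ t)) I) hQ1
    (fun t _ => d1_act_le _ hI) fun t _ => by
      refine (d1_prime hQ hn ?_ ?_).resolve_right fun e => hc t ?_
      · rw [← FractionalIdeal.sup_eq_add]; exact le_sup_right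
      · rw [← FractionalIdeal.sup_eq_add]; exact sup_le (d1_act_le _ hI) hQ1
      · rw [← FractionalIdeal.sup_eq_add, sup_eq_right] at e; exact e
  have h2 : C.nrmI I ≤ Q := by
    refine le_trans ?_ (nrmI_le hQ1)
    rw [hU, hn, sp_le, pl_mem_sp]
    exact dvd_mul_right _ _
  rw [← nrmI_eq hz, ← FractionalIdeal.sup_eq_add, sup_eq_right.2 h2] at h1
  rw [h1, ← sp_one, nrmI_sp, ← map_one C.pl, nrm_pl, one_pow] at hn
  have := congrArg natDegree (sp_pl_inj monic_one (monic_X_sub_C c) hn)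
  simp at this

/-- the image of `1 - sigma` -/
noncomputable def d1Im (C : Crv F) (z : F) : AddSubgroup C.Cl where
  carrier := {W | ∃ Y, W = Y - C.ac (C.sg z) Y}
  add_mem' := by
    rintro _ _ ⟨A, rfl⟩ ⟨B, rfl⟩
    exact ⟨A + B, by rw [map_add]; abel⟩
  zero_mem' := ⟨0, by simp⟩
  neg_mem' := by
    rintro _ ⟨A, rfl⟩
    exact ⟨-A, by rw [map_neg]; abel⟩

omit [IsAlgClosed F] in
theorem d1Im_pow (z : F) (t : ℕ) (Y : C.Cl) : Y - (C.ac (C.sg z) ^ t) Y ∈ C.d1Im z := by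
  induction t with
  | zero => simp
  | succ t ih =>
    have : (C.ac (C.sg z) ^ t) Y - (C.ac (C.sg z) ^ (t + 1)) Y ∈ C.d1Im z :=
      ⟨_, by rw [pow_succ']; rfl⟩
    convert AddSubgroup.add_mem _ ih this using 1
    abel

theorem d1Im_l {z : F} (hz : IsPrimitiveRoot z C.l) (Y : C.Cl) : C.l • Y ∈ C.d1Im z := by
  have h1 := AddSubgroup.sum_mem (C.d1Im z) (t := range C.l) fun t _ => d1Im_pow z t Y
  have h2 : ∑ t ∈ range C.l, (C.ac (C.sg z) ^ t) Y = 0 := by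
    exact (AddMonoidHom.finsetSum_apply (fun t => (C.ac (C.sg z) ^ t : AddMonoid.End C.Cl))
      (range C.l) Y).symm.trans (DFunLike.congr_fun (sum_ac hz) Y)
  rwa [sum_sub_distrib, h2, sub_zero, sum_const, card_range] at h1

theorem d1_point {z : F} (hz : IsPrimitiveRoot z C.l) : ∃ W : C.Cl, ∀ c : F, ∃ Q : C.FI, Q ≠ 0 ∧
    Q ≤ 1 ∧ C.nrmI Q = C.sp (C.pl (X - Polynomial.C c)) ∧ C.cl Q + W ∈ C.d1Im z := by
  set k : F := (C.l : F)⁻¹ * (C.f.nextCoeff + 1) with hk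
  set A : F[X] := X ^ C.m + Polynomial.C k * X ^ (C.m - 1) with hA
  have hm := C.hm
  have hn := Nat.mul_pos C.hl.pos C.hm
  have eA : A = X ^ (C.m - 1) * (X + Polynomial.C k) := by
    rw [hA, mul_add, ← pow_succ, Nat.sub_add_cancel hm, mul_comm]
  have hA1 : A.Monic := by rw [eA]; exact (monic_X_pow _).mul (monic_X_add_C k)
  have hA2 : (A ^ C.l).natDegree = C.l * C.m := by
    rw [natDegree_pow, eA, (monic_X_pow _).natDegree_mul (monic_X_add_C k), natDegree_X_pow,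
      natDegree_X_add_C, Nat.sub_add_cancel hm]
  have hA3 : (A ^ C.l).nextCoeff = C.f.nextCoeff + 1 := by
    rw [hA1.nextCoeff_pow, eA, (monic_X_pow _).nextCoeff_mul (monic_X_add_C k),
      monic_X.nextCoeff_pow, nextCoeff_X_add_C, nsmul_eq_mul, hk]
    have : (X : F[X]).nextCoeff = 0 := by simpa using nextCoeff_X_add_C (0 : F)
    rw [this, smul_zero, zero_add, mul_inv_cancel_left₀ C.hc]
  have hc : (A ^ C.l - C.f).coeff (C.l * C.m - 1) ≠ 0 := by
    rw [nextCoeff_of_natDegree_pos (by omega), nextCoeff_of_natDegree_pos (by rw [C.deg]; omega),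
      hA2, C.deg] at hA3
    rw [coeff_sub, hA3]
    simp
  have hD : (A ^ C.l - C.f).natDegree = C.l * C.m - 1 :=
    natDegree_eq_of_le_of_coeff_ne_zero (d1_sub_deg (hA1.pow _) C.mon hA2 C.deg) hc
  have hD0 : A ^ C.l - C.f ≠ 0 := fun e => hc (by rw [e, coeff_zero])
  have hs : (Polynomial.C ((-1 : F) ^ C.l)) ≠ 0 := C_ne_zero.2 (pow_ne_zero _ (by simp))
  have hb : C.nrm (C.y - C.pl A) = C.pl (Polynomial.C ((-1) ^ C.l) * (A ^ C.l - C.f)) := by
    rw [sub_eq_neg_add, ← map_neg, nrm_lin, neg_pow A, ← mul_sub]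
    simp
  refine ⟨C.cl (C.sp (C.y - C.pl A)), fun c => ?_⟩
  obtain ⟨h, J, hJ, h1, h2, h3⟩ := exists_split hz c k
  have hN0 : (X - Polynomial.C c) * (Polynomial.C ((-1 : F) ^ C.l) * (A ^ C.l - C.f)) ≠ 0 :=
    mul_ne_zero (X_sub_C_ne_zero c) (mul_ne_zero hs hD0)
  have hN : C.nrm (h * (C.y - C.pl A)) = C.kl (algebraMap F[X] _ ((X - Polynomial.C c) *
      (Polynomial.C ((-1) ^ C.l) * (A ^ C.l - C.f)))) := by
    rw [nrm_mul, h1, hb, kl_alg, ← map_mul]
  have h4 := inv_of_nrm h3 hN (RatFunc.algebraMap_ne_zero hN0) (by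
    rw [RatFunc.intDegree_polynomial, natDegree_mul (X_sub_C_ne_zero c) (mul_ne_zero hs hD0),
      natDegree_mul hs hD0, natDegree_C, hD, natDegree_X_sub_C]
    norm_cast; omega)
  have h5 : h * (C.y - C.pl A) ≠ 0 := fun e => by
    rw [e, ← map_zero C.pl, nrm_pl, zero_pow C.hl.ne_zero, kl_alg] at hN
    exact hN0 (pl_inj hN).symm
  have h6 := cl_sp (C := C) ⟨h5, _, h3, h4⟩
  have h7 := sp_ne (left_ne_zero_of_mul h5)
  have h8 : C.act (C.sg z) J ≠ 0 := (map_ne_zero_iff _ (C.act _).injective).2 hJ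
  have h9 := mul_ne_zero (mul_ne_zero h7 h8) (inv_ne_zero hJ)
  rw [sp_mul, cl_mul h7 (sp_ne (right_ne_zero_of_mul h5))] at h6
  have e : C.sp h * C.act (C.sg z) J * J⁻¹ * J = C.sp h * C.act (C.sg z) J :=
    inv_mul_cancel_right₀ hJ _
  refine ⟨_, h9, d1_mul_inv_le hJ h2, mul_right_cancel₀ (nrmI_ne hJ) ?_, -C.cl J, ?_⟩
  · rw [← nrmI_mul, e, nrmI_mul, nrmI_sg, nrmI_sp, h1]
  · have e2 := congrArg C.cl e
    rw [cl_mul h9 hJ, cl_mul h7 h8, ← ac_cl] at e2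
    rw [map_neg, eq_neg_of_add_eq_zero_right h6, eq_sub_of_add_eq e2]
    abel

theorem exists_div {z : F} (hz : IsPrimitiveRoot z C.l) {I : C.FI} {U : F[X]} (h : C.Nice I U)
    (hd : C.l ∣ U.natDegree) : ∃ Y, C.cl I = Y - C.ac (C.sg z) Y := by
  obtain ⟨W, hW⟩ := d1_point hz
  have key : ∀ (d : ℕ) (I : C.FI) (U : F[X]), I ≠ 0 → I ≤ 1 → U.Monic → U.natDegree = d →
      C.nrmI I = C.sp (C.pl U) → C.cl I + d • W ∈ C.d1Im z := by
    intro d
    induction d with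
    | zero =>
      intro I U _ h1 hU h2 h3
      rw [d1_nrm_one h1 (by rw [h3, hU.natDegree_eq_zero.1 h2]), cl_one]
      simp
    | succ d ih =>
      intro I U h0 h1 hU h2 h3
      obtain ⟨c, hc⟩ := IsAlgClosed.exists_root U (by
        rw [degree_eq_natDegree hU.ne_zero, h2]; exact_mod_cast Nat.succ_ne_zero d)
      obtain ⟨U', rfl⟩ := dvd_iff_isRoot.2 hc
      have hU' := (monic_X_sub_C c).of_mul_monic_left hU
      rw [(monic_X_sub_C c).natDegree_mul hU', natDegree_X_sub_C] at h2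
      obtain ⟨Q, hQ, hQ1, hn, hQ2⟩ := hW c
      obtain ⟨t, ht⟩ := d1_step hz hQ hQ1 hn h1 h3
      have h4 : C.act (C.sg (z ^ t)) I ≠ 0 := (map_ne_zero_iff _ (C.act _).injective).2 h0
      have h5 := mul_ne_zero h4 (inv_ne_zero hQ)
      have e : C.act (C.sg (z ^ t)) I * Q⁻¹ * Q = C.act (C.sg (z ^ t)) I :=
        inv_mul_cancel_right₀ hQ _
      have h6 := ih _ U' h5 (d1_mul_inv_le hQ ht) hU' (by omega) (by
        refine mul_right_cancel₀ (nrmI_ne hQ) ?_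
        rw [← nrmI_mul, e, nrmI_sg, h3, hn, map_mul, sp_mul, mul_comm])
      have e2 := congrArg C.cl e
      rw [cl_mul h5 hQ, ← ac_cl, sg_pow hz.pow_eq_one, ac_pow] at e2
      convert AddSubgroup.add_mem _ (AddSubgroup.add_mem _ h6 hQ2) (d1Im_pow z t (C.cl I)) using 1
      rw [← e2, succ_nsmul, sg_pow hz.pow_eq_one]
      abel
  obtain ⟨e, he⟩ := hd
  have h1 := key _ I U h.ne h.le h.mon he h.nrm
  rw [mul_comm, mul_nsmul] at h1
  exact (AddSubgroup.add_mem_cancel_right _ (d1Im_l hz _)).1 h1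

end Vale.Agent.P319.A.Crv
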