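import Mathlib.Data.Nat.Bits
import Mathlib.Data.Nat.Log
import Mathlib.Data.List.Range
import Mathlib.Data.List.GetD

/-! The factoring algorithm: all program definitions (see notes/P319A.md). -/

namespace Vale.Agent.P319.A

open List

/-- ring operations on codes `E`, given a context `c : C`. -/
class Ops (C : Type) (E : outParam Type) where
  add : C → E → E → E
  neg : C → E → E
  mul : C → E → E → E
  isZ : C → E → Bool
  ofN : C → ℕ → E

open Ops

/-! ### generic ring layer -/
section ring
variable {C E : Type} [Ops C E]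

def zero (c : C) : E := ofN c 0
def one (c : C) : E := ofN c 1
def sub (c : C) (a b : E) : E := add c a (neg c b)
def sumL (c : C) (l : List E) : E := l.foldl (add c) (zero c)
def prodL (c : C) (l : List E) : E := l.foldl (mul c) (one c)
/-- power with a unary exponent -/
def pwU (c : C) (a : E) (k : ℕ) : E := prodL c (replicate k a)
/-- power with a binary exponent -/
def pw (c : C) (a : E) (k : ℕ) : E :=
  k.bits.reverse.foldl (fun s b => bif b then mul c (mul c s s) a else mul c s s) (one c)
def eps (c : C) (Q : ℕ) (a : E) : E := pw c a (Q - 1)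
def pinv (c : C) (Q : ℕ) (a : E) : E := pw c a (Q - 2)
/-- 1 where `a` vanishes, 0 elsewhere -/
def ind (c : C) (Q : ℕ) (a : E) : E := sub c (one c) (eps c Q a)

/-! polynomials = lists of coefficients, constant term first -/
def cf (c : C) (l : List E) (j : ℕ) : E := l.getD j (zero c)
def padd (c : C) (a b : List E) : List E :=
  (range (max a.length b.length)).map fun j => add c (cf c a j) (cf c b j)
def pneg (c : C) (a : List E) : List E := a.map (neg c)
def psmul (c : C) (s : E) (a : List E) : List E := a.map (mul c s)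
def pmul (c : C) (a b : List E) : List E :=
  (range (a.length + b.length)).map fun k =>
    sumL c ((range (k + 1)).map fun i => mul c (cf c a i) (cf c b (k - i)))
def fit (c : C) (d : ℕ) (a : List E) : List E := (range d).map (cf c a)
/-- the monic polynomial with lower coefficients `u` -/
def mono (c : C) (u : List E) : List E := u ++ [one c]
def xp (c : C) (k : ℕ) : List E := replicate k (zero c) ++ [one c]
def dmStep (c : C) (md : List E) (s : List E × List E) (a : E) : List E × List E :=
  (cf c (a :: s.2) md.length :: s.1, (range md.length).map fun j =>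
    sub c (cf c (a :: s.2) j) (mul c (cf c (a :: s.2) md.length) (cf c md j)))
/-- quotient and remainder modulo the monic polynomial with lower coefficients `md` -/
def dm (c : C) (md a : List E) : List E × List E :=
  a.reverse.foldl (dmStep c md) ([], replicate md.length (zero c))
def pquo (c : C) (md a : List E) : List E := (dm c md a).1
def prem (c : C) (md a : List E) : List E := (dm c md a).2
def pev (c : C) (a : List E) (t : E) : E := cf c (prem c [neg c t] a) 0
/-- derivative of `mono c u` -/
def pder (c : C) (u : List E) : List E :=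
  (range u.length).map fun j => mul c (ofN c (j + 1)) (cf c (mono c u) (j + 1))
def combP (c : C) (lam : List E) (ps : List (List E)) : List E :=
  ((range ps.length).map fun i => psmul c (cf c lam i) (ps.getD i [])).foldl (padd c) []
end ring

/-! ### the three kinds of contexts -/
def nm (p a : ℕ) : ℕ := a % max p 1

instance opsNat : Ops ℕ ℕ where
  add p a b := nm p (a + b)
  neg p a := nm p (p - nm p a)
  mul p a b := nm p (a * b)
  isZ p a := decide (nm p a = 0)
  ofN p n := nm p n

/-- polynomials, not reduced -/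
def Pol (C : Type) : Type := C
def Pol.mk {C : Type} (c : C) : Pol C := c
def Pol.c {C : Type} (c : Pol C) : C := c

instance opsPol {C E : Type} [Ops C E] : Ops (Pol C) (List E) where
  add c a b := padd c.c a b
  neg c a := pneg c.c a
  mul c a b := pmul c.c a b
  isZ c a := a.all (isZ c.c)
  ofN c n := [ofN c.c n]

/-- polynomials modulo a monic polynomial given by its lower coefficients -/
def Quo (C E : Type) : Type := C × List E
def Quo.mk {C E : Type} (c : C) (md : List E) : Quo C E := (c, md)
def Quo.c {C E : Type} (q : Quo C E) : C := q.1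
def Quo.md {C E : Type} (q : Quo C E) : List E := q.2

instance opsQuo {C E : Type} [Ops C E] : Ops (Quo C E) (List E) where
  add q a b := prem q.c q.md (padd q.c a b)
  neg q a := prem q.c q.md (pneg q.c a)
  mul q a b := prem q.c q.md (pmul q.c a b)
  isZ q a := (prem q.c q.md a).all (isZ q.c)
  ofN q n := prem q.c q.md [ofN q.c n]

/-- constant coefficient of the reduced form -/
def cst {C E : Type} [Ops C E] (q : Quo C E) (a : List E) : E := cf q.c (prem q.c q.md a) 0

/-! ### branch free linear algebra, roots, Newton identities -/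
section lin
variable {C E : Type} [Ops C E]

def piv (c : C) (Q : ℕ) (rows : List (List E)) (j : ℕ) : List E :=
  rows.foldl (fun p r => padd c p (psmul c (ind c Q (cf c p j)) r)) []
def kill (c : C) (Q : ℕ) (rows : List (List E)) (j : ℕ) : List (List E) :=
  let p := piv c Q rows j
  let i := pinv c Q (cf c p j)
  rows.map fun r => padd c r (psmul c (neg c (mul c (cf c r j) i)) p)
def elim (c : C) (Q : ℕ) (rows : List (List E)) (w : ℕ) : List (List E) :=
  (range w).foldl (kill c Q) rows
/-- rank of the first `w` columns -/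
def rk (c : C) (Q : ℕ) (w : ℕ) (rows : List (List E)) : E :=
  sumL c ((range w).map fun j => eps c Q (cf c (piv c Q (elim c Q rows j) j) j))
/-- spanning list of all linear relations between the first `w` columns of the rows -/
def kerC (c : C) (Q : ℕ) (w : ℕ) (rows : List (List E)) : List (List E) :=
  (elim c Q ((range rows.length).map fun i => fit c w (rows.getD i []) ++ xp c i) w).map (drop w)
/-- coefficients of a combination of the rows equal to `tg` in the first `w` columns -/
def solC (c : C) (Q : ℕ) (w : ℕ) (rows : List (List E)) (tg : List E) : List E :=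
  let p := piv c Q (kerC c Q w (pneg c tg :: rows)) 0
  (psmul c (pinv c Q (cf c p 0)) p).drop 1

/-- state `(x, b, wk, e)`; invariant `x^l = a b`, `b^e = 1`, `wk^e` of order `l` -/
def ammStep (c : C) (Q l : ℕ) (s : E × E × E × ℕ) : E × E × E × ℕ :=
  if s.2.2.2 % l = 0 then
    let e := s.2.2.2 / l
    let sel := sumL c ((range l).map fun j =>
      mul c (ind c Q (sub c (pw c (mul c s.2.1 (pw c s.2.2.1 (j * l))) e) (one c))) (pw c s.2.2.1 j))
    (mul c s.1 sel, mul c s.2.1 (pw c sel l), pw c s.2.2.1 l, e)
  else s
/-- an `l`-th root of `a`, using the nonresidue `w` (`l` is unary) -/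
def amm (c : C) (Q l : ℕ) (w a : E) : E :=
  let s := Q.bits.foldl (fun s _ => ammStep c Q l s) (a, pw c a (l - 1), w, (Q - 1) / l)
  let j := ((range (l + 1)).filter fun j => decide (s.2.2.2 * j % l = 1)).headD 0
  mul c s.1 (pw c s.2.1 ((s.2.2.2 * j - 1) / l))

/-- elementary symmetric functions `e_0 .. e_n` from the power sums `ps = [p_1, ..]`;
`invs` holds the inverses of `1, 2, ..` -/
def newton (c : C) (invs ps : List E) (n : ℕ) : List E :=
  (range n).foldl (fun es k => es ++ [mul c (cf c invs k) (sumL c ((range (k + 1)).map fun i =>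
    if i % 2 = 0 then mul c (cf c es (k - i)) (cf c ps i)
    else neg c (mul c (cf c es (k - i)) (cf c ps i))))]) [one c]
end lin

/-! ### the ring `O = F[x,y]/(y^l - f)` and its ideals -/

/-- base context, exponent `Q`, lower coefficients of `f`, the prime `l` in unary -/
def Cx (C E : Type) : Type := C × ℕ × List E × List Unit
abbrev Oe (E : Type) : Type := List (List E)
/-- an ideal: lower coefficients of its norm `U`, elements spanning it modulo `U` -/
abbrev Idl (E : Type) : Type := List E × List (Oe E)

section curve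
variable {C E : Type} [Ops C E]

def Cx.mk (c : C) (Q : ℕ) (f : List E) (lu : List Unit) : Cx C E := (c, Q, f, lu)
def Cx.c (x : Cx C E) : C := x.1
def Cx.Q (x : Cx C E) : ℕ := x.2.1
def Cx.f (x : Cx C E) : List E := x.2.2.1
def Cx.l (x : Cx C E) : ℕ := x.2.2.2.length
def Cx.n (x : Cx C E) : ℕ := x.f.length
def Cx.m (x : Cx C E) : ℕ := x.n / x.l
def Cx.e (x : Cx C E) : ℕ := 2 * x.n + 1
def Cx.ds (x : Cx C E) : ℕ := x.l * x.e
def Cx.nu (x : Cx C E) : ℕ := x.n + x.ds
def Cx.p (x : Cx C E) : Pol C := Pol.mk x.c
def Cx.o (x : Cx C E) : Quo (Pol C) (List E) :=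
  Quo.mk x.p (pneg x.c (mono x.c x.f) :: replicate (x.l - 1) [])
def Cx.oo (x : Cx C E) : Pol (Quo (Pol C) (List E)) := Pol.mk x.o

/-- `a(x) y^b` -/
def py (b : ℕ) (a : List E) : Oe E := replicate b [] ++ [a]
def smO (x : Cx C E) (s : E) (g : Oe E) : Oe E := g.map (psmul x.c s)
def nrmz (x : Cx C E) (g : Oe E) : Oe E := prem x.p x.o.md g
def c0 (x : Cx C E) (g : Oe E) : List E := cst x.o g
def redO (x : Cx C E) (D : List E) (g : Oe E) : Oe E := (nrmz x g).map (prem x.c D)
def mons (x : Cx C E) (L : ℕ) : List (Oe E) :=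
  (range x.l).flatMap fun b => (range L).map fun a => py b (xp x.c a)
def sgO (x : Cx C E) (z : E) (g : Oe E) : Oe E :=
  (range g.length).map fun b => psmul x.c (pw x.c z b) (g.getD b [])
def star (x : Cx C E) (z : E) (g : Oe E) : Oe E :=
  prodL x.o ((range (x.l - 1)).map fun t => sgO x (pw x.c z (t + 1)) g)
def nrmO (x : Cx C E) (z : E) (g : Oe E) : List E := c0 x (mul x.o g (star x z g))
def combO (x : Cx C E) (lam : List E) (ps : List (List (Oe E))) : List (Oe E) :=
  ((range ps.length).map fun i => (ps.getD i []).map (smO x (cf x.c lam i))).foldl (padd x.o) []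

/-- condition with threshold `t`: lie in `V t` if `t > 0`, be divisible by `mono D` if `t = 0` -/
def cnd (x : Cx C E) (D : List E) (t : ℕ) (g : Oe E) : Oe E :=
  if t = 0 then redO x D g else nrmz x g
def flat (x : Cx C E) (L t : ℕ) (g : Oe E) : List E :=
  (range x.l).flatMap fun b => (range L).map fun a =>
    if x.l * (a + x.m * b) + b < t then zero x.c else cf x.c (g.getD b []) a
def cnds (x : Cx C E) (ths : List ℕ) (D : List E) (gs : List (Oe E)) : List (Oe E) :=
  (range ths.length).map fun k => cnd x D (ths.getD k 0) (gs.getD k [])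
def wid (rs : List (List (Oe E))) : ℕ := (rs.flatten.flatten.map length).foldl max 0
def row (x : Cx C E) (L : ℕ) (ths : List ℕ) (gs : List (Oe E)) : List E :=
  (range ths.length).flatMap fun k => flat x L (ths.getD k 0) (gs.getD k [])
/-- rows of the system; a source is a pair (payload, list of conditions) -/
def rows (x : Cx C E) (ths : List ℕ) (D : List E) (cs : List (List (Oe E))) : List (List E) :=
  let rs := cs.map (cnds x ths D)
  rs.map (row x (wid rs) ths)
def kerO (x : Cx C E) (ths : List ℕ) (D : List E) (src : List (List (Oe E) × List (Oe E))) :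
    List (List (Oe E)) :=
  let r := rows x ths D (src.map Prod.snd)
  (kerC x.c x.Q (r.headD []).length r).map fun lam => combO x lam (src.map Prod.fst)
def rkO (x : Cx C E) (ths : List ℕ) (D : List E) (cs : List (List (Oe E))) : E :=
  let r := rows x ths D cs
  rk x.c x.Q (r.headD []).length r
def solO (x : Cx C E) (ths : List ℕ) (D : List E) (src : List (List (Oe E) × List (Oe E)))
    (tg : List (Oe E)) : List (Oe E) :=
  let r := rows x ths D (tg :: src.map Prod.snd)
  combO x (solC x.c x.Q (r.headD []).length r.tail (r.headD [])) (src.map Prod.fst)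

def gen (x : Cx C E) (I : Idl E) : List (Oe E) := [mono x.c I.1] :: I.2
def mem (x : Cx C E) (I : Idl E) (L : ℕ) : List (Oe E) :=
  I.2.map (redO x I.1) ++ (mons x L).map (mul x.o [mono x.c I.1])
def mkI (x : Cx C E) (u : List E) (gs : List (Oe E)) : Idl E :=
  (u, gs.flatMap fun g => (mons x u.length).map (mul x.o g))
def prodI (x : Cx C E) (Is : List (Idl E)) : Idl E :=
  mkI x (fit x.c (Is.map fun I => I.1.length).sum (prodL x.p (Is.map fun I => mono x.c I.1)))
    (prodL x.oo (Is.map (gen x)))
def sgI (x : Cx C E) (z : E) (I : Idl E) : Idl E := (I.1, I.2.map (sgO x z))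
def colS (x : Cx C E) (L : ℕ) (rs : List (Oe E)) : List (List (Oe E) × List (Oe E)) :=
  (mons x L).map fun b => ([b], rs.map (mul x.o b))
/-- spans, modulo a polynomial of degree `L`, the `b` with `mono D ∣ b r` for all `r ∈ rs` -/
def colon (x : Cx C E) (L : ℕ) (D : List E) (rs : List (Oe E)) : List (Oe E) :=
  (kerO x (replicate rs.length 0) D (colS x L rs)).map fun g => g.getD 0 []
def colonRk (x : Cx C E) (L : ℕ) (D : List E) (rs : List (Oe E)) : E :=
  rkO x (replicate rs.length 0) D ((colS x L rs).map Prod.snd)

def lead (x : Cx C E) (cc : E) (t : ℕ) : Oe E :=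
  add x.o [xp x.c t] (smO x (mul x.c (sub x.c cc (one x.c)) (pinv x.c x.Q (ofN x.c x.l)))
    ((range x.l).map fun b => xp x.c (t - x.m * b)))
/-- the opposite class -/
def negI (x : Cx C E) (z cc : E) (I : Idl E) : Idl E :=
  let t := (x.ds + I.1.length) / x.l
  let d := x.l * t - I.1.length
  let yl := py (x.l - 1) [one x.c]
  let h := (solO x [x.l * t, 0] x.f ((mem x I (t + 1)).map fun g => ([g], [g, mul x.o yl g]))
    [lead x cc t, yl]).getD 0 []
  let D := fit x.c (x.l * t) (psmul x.c (pinv x.c x.Q cc) (nrmO x z h))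
  (fit x.c d (pquo x.c I.1 (mono x.c D)), colon x d D ((gen x I).map (mul x.o (star x z h))))
/-- the same class, reduced and with `U(ai) = 1` -/
def redI (x : Cx C E) (z ai : E) (I : Idl E) : Idl E :=
  let J := negI x z (one x.c) I
  negI x z (pinv x.c x.Q (pev x.c (mono x.c J.1) ai)) J

/-- product in the twisted algebra `Z^l = U`, `Z g = sigma(g) Z` -/
def tw (x : Cx C E) (z : E) (U : List E) (A B : List (Oe E)) : List (Oe E) :=
  (range x.l).map fun k => sumL x.o ((range x.l).map fun a =>
    mul x.o (mul x.o (A.getD a []) (sgO x (pw x.c z a) (B.getD ((k + x.l - a) % x.l) [])))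
      (if a ≤ k then one x.o else [U]))
def phi (x : Cx C E) (S : List (Oe E)) : Oe E :=
  sumL x.o ((range x.l).map fun b => mul x.o (S.getD b []) [xp x.c (x.e * b)])
def Ip (x : Cx C E) (z : E) (I : Idl E) (t : ℕ) : Idl E :=
  prodI x ((range (x.l - t)).map fun b => sgI x (pw x.c z (t + b)) I)
def divTh (x : Cx C E) : List ℕ :=
  ((range x.l).map fun t => x.l * (x.nu - x.e * t + 1)) ++
    (((range x.l).map fun a => x.l * (x.nu + x.m * a) + a) ++ replicate x.l 0)
def divSrc (x : Cx C E) (z : E) (I : Idl E) (s : List E) : List (List (Oe E) × List (Oe E)) :=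
  (range x.l).flatMap fun t => (mem x (Ip x z I t) (x.nu + 1)).map fun g =>
    (replicate t [] ++ [g], ((range x.l).map fun k => if k = t then g else []) ++
      (((range x.l).map fun a => smO x (pw x.c z (t * a)) (mul x.o (py a (xp x.c (x.e * t))) g)) ++
       ((range x.l).map fun a => smO x (pw x.c z (t * a)) (mul x.o (py a (pwU x.p s t)) g))))
def divR (x : Cx C E) (z : E) (I : Idl E) (s : List E) : List (Oe E) :=
  solO x (divTh x) x.f (divSrc x z I s)
    (replicate x.l [] ++ [[pmul x.c (mono x.c x.f) (mono x.c I.1)]])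
def divE (x : Cx C E) (z : E) (U : List E) (R : List (Oe E)) : List (Oe E) :=
  let S := (range (x.l - 1)).foldl (fun S _ => tw x z U R S) [one x.o]
  (range x.l).map fun t => phi x (tw x z U (replicate t [] ++ [one x.o]) S)
def dD (x : Cx C E) : ℕ := x.ds + x.l * (x.nu * (x.l - 1))
/-- division by `1 - sigma`: modulus, spanning list, codimension -/
def divI (x : Cx C E) (z : E) (I : Idl E) (s : List E) : Idl E × E :=
  let Es := divE x z (mono x.c I.1) (divR x z I s)
  let D := fit x.c (dD x) (pmul x.c (mono x.c I.1) (nrmO x z (Es.getD 0 [])))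
  let rs := (range x.l).flatMap fun t => (gen x (Ip x z I t)).map fun g =>
    mul x.o (mul x.o g (Es.getD t [])) (star x z (Es.getD 0 []))
  ((D, colon x (dD x) D rs), colonRk x (dD x) D rs)
/-- polynomials spanning the multiples of the norm of `K` of degree at most `l * |K.1|` -/
def nrmS (x : Cx C E) (z : E) (K : Idl E) : List (List E) :=
  let N := x.l * K.1.length
  let Dl := fit x.c N (pwU x.p (mono x.c K.1) x.l)
  mono x.c Dl :: ((prodL x.oo ((range x.l).map fun t => gen x (sgI x (pw x.c z t) K))).flatMap
    fun g => (range N).map fun j => prem x.c Dl (pmul x.c (xp x.c j) (c0 x g)))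
/-- the ideal `K` with its norm, if that has degree `k` -/
def nrmI (x : Cx C E) (K : Idl E) (S : List (List E)) (k : ℕ) : Idl E :=
  (fit x.c k (combP x.c (solC x.c x.Q (x.l * K.1.length + 1 - k) (S.map (drop k)) [one x.c]) S),
    K.2 ++ (mons x k).map (mul x.o [mono x.c K.1]))
def step (x : Cx C E) (z0 w ai : E) (J : Idl E) (I : Idl E) (a : ℕ) : Idl E :=
  let z := pw x.c z0 a
  let K := divI x z I (amm (Quo.mk x.c x.f) x.Q x.l [w] (mono x.c I.1))
  let S := nrmS x z K.1
  let N := x.l * dD x + 1
  let lam := (range N).map fun k => ind x.c x.Q (sub x.c K.2 (ofN x.c k))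
  let Is := (range N).map fun k => redI x z ai (prodI x (nrmI x K.1 S k :: replicate (k % x.l) J))
  (fit x.c x.ds (combP x.c lam (Is.map Prod.fst)), combO x lam (Is.map Prod.snd))
/-- the ideal `(g) / P`, `g = y + (x - ai)^(m+1)` -/
def idJ (x : Cx C E) (z ai : E) : Idl E :=
  let g : Oe E := [pwU x.p [neg x.c ai, one x.c] (x.m + 1), [one x.c]]
  mkI x (fit x.c (x.l * (x.m + 1) - 1) (pquo x.c [neg x.c ai] (nrmO x z g))) [g]
/-- the ideal `(y - (x - b)^m)` -/
def idB (x : Cx C E) (z b : E) : Idl E :=
  let g : Oe E := [pneg x.c (pwU x.p [neg x.c b, one x.c] x.m), [one x.c]]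
  let N := nrmO x z g
  mkI x (fit x.c (x.n - 1) (psmul x.c (pinv x.c x.Q (cf x.c N (x.n - 1))) N)) [g]
def cyc (l v : ℕ) : List ℕ := (range v).flatMap fun _ => (range (l - 1)).map (· + 1)
def climb (x : Cx C E) (z w ai b : E) (v : ℕ) : Idl E :=
  (cyc x.l v).foldl (step x z w ai (idJ x z ai))
    (redI x z ai (prodI x (idJ x z ai :: replicate (x.l - 1) (idB x z b))))

/-- trace from `A = k[a]/f` -/
def trA (x : Cx C E) (b : List E) : E :=
  cf x.c (mul (Quo.mk x.c x.f) b (pder x.c x.f)) (x.n - 1)
/-- the context over `A = k[a]/f` -/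
def up (x : Cx C E) : Cx (Quo C E) (List E) :=
  Cx.mk (Quo.mk x.c x.f) x.Q (x.f.map fun a => [a]) x.2.2.2
/-- product over the roots of `f` -/
def nrmA (x : Cx C E) (b : List (Oe (List E))) : List (Oe E) :=
  (newton x.oo ((range x.n).map fun k => [[[pinv x.c x.Q (ofN x.c (k + 1))]]])
    ((range x.n).map fun k => (pwU (up x).oo b (k + 1)).map (map (map (trA x)))) x.n).getD x.n []
def nrmAI (x : Cx C E) (I : Idl (List E)) : Idl E :=
  mkI x (fit x.c (x.n * I.1.length) (c0 x ((nrmA x [[mono (up x).c I.1]]).getD 0 [])))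
    (nrmA x (gen (up x) I))
def cands (x : Cx C E) (z w : E) (I : Idl E) (a : ℕ) : List (List E) :=
  let A := Quo.mk x.c x.f
  let T := prodI x (I :: ((range x.l).filter fun b => decide (b ≠ a)).map fun b =>
    sgI x (pw x.c z b) I)
  (kerO x [x.l * (I.1.length + 1)] [] ((mem x T (I.1.length + 1)).map fun g => ([g], [g]))).flatMap
    fun W =>
      let om := mul A (c0 x (W.getD 0 [])) (pinv A x.Q (mono x.c I.1))
      let ga := amm x.c x.Q x.l w (cf x.c (pw A om x.l) 0)
      (range x.l).map fun j => sub A om [mul x.c ga (pw x.c z j)]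
def fstep (x : Cx C E) (z w : E) (s : Idl E × List (List E)) (a : ℕ) : Idl E × List (List E) :=
  (negI x z (one x.c) (prodI x [s.1, sgI x (pw x.c z a) (negI x z (one x.c) s.1)]),
    s.2 ++ cands x z w s.1 a)
/-- elements of `k[x]/f`, one of which is a nonzero zero divisor; `n = l^v * n1` -/
def split0 (x : Cx C E) (z w b : E) (v n1 : ℕ) : List (List E) :=
  let R := nrmAI x (climb (up x) [z] [w] [zero x.c, one x.c] [b] v)
  ((cyc x.l v).foldl (fstep x z w) (negI x z (one x.c)
    (prodI x (negI x z (one x.c) R :: replicate (n1 * (x.l - 1)) (idB x z b))), [])).2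
end curve

/-! ### the top level over `F_p` -/

def bnd (n : ℕ) : ℕ := (n + 2) ^ 8
def minF (n : ℕ) : ℕ := (((range (n + 1)).filter fun d => decide (2 ≤ d ∧ n % d = 0)).headD 1)
def valu (l n : ℕ) : ℕ := ((range n).filter fun j => decide (n % l ^ (j + 1) = 0)).length
/-- split a squarefree split `mono g`, given a field `md` containing the `l`-th roots of unity
and an `l`-th nonresidue `nr` of it, `l = minF |g|` -/
def split (p : ℕ) (t : List ℕ × List ℕ) (g : List ℕ) : List (List ℕ) :=
  let n := g.length
  let l := minF n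
  let v := valu l n
  let lv := min (l ^ v) n
  let k0 := Quo.mk p t.1
  let q := p ^ t.1.length
  let k1 := Quo.mk k0 (neg k0 t.2 :: replicate (lv - 1) [])
  let x := Cx.mk k1 (q ^ lv) (g.map (ofN k1)) (replicate l ())
  let b := ((range (n + 2)).filter fun b =>
    !isZ p (pev p (mono p g) b) && !isZ p (n * b + cf p g (n - 1))).headD 0
  (split0 x [pw k0 t.2 ((q - 1) / l)] [[], one k0] (ofN k1 b) v (n / lv)).map fun c =>
    (eps (Quo.mk k1 x.f) x.Q c).map fun e => cst k0 (cst k1 e)

/-- lower coefficients of the monic multiple of a nonzero polynomial -/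
def mnc (p : ℕ) (a : List ℕ) : List ℕ :=
  let d := ((range a.length).filter fun j => !isZ p (cf p a j)).foldl max 0
  fit p d (psmul p (pinv p p (cf p a d)) a)
def gcdStep (p : ℕ) (s : List ℕ × List ℕ) : List ℕ × List ℕ :=
  bif s.2.all (isZ p) then s else (mnc p s.2, prem p (mnc p s.2) (mono p s.1))
/-- lower coefficients of the monic gcd of `mono u` and `b` -/
def pgcd (p : ℕ) (u b : List ℕ) : List ℕ :=
  ((range (u.length + 1)).foldl (fun s _ => gcdStep p s) (u, prem p u b)).1
def trySplit (p : ℕ) (u : List ℕ) (cs : List (List ℕ)) : List (List ℕ) :=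
  match (cs.map (pgcd p u)).filter fun d => decide (0 < d.length ∧ d.length < u.length) with
  | [] => [u]
  | d :: _ => [d, fit p (u.length - d.length) (pquo p d (mono p u))]
def refine (p : ℕ) (cand : List ℕ → List (List ℕ)) (u : List ℕ) : List (List ℕ) :=
  (range u.length).foldl (fun L _ => L.flatMap fun g => trySplit p g (cand g)) [u]
abbrev Tab : Type := List (List ℕ × List ℕ)
def rootC (p : ℕ) (tab : Tab) (g : List ℕ) : List (List ℕ) :=
  if p ≤ bnd g.length then (range (min p (bnd g.length))).map fun a => [neg p a, 1]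
  else split p (tab.getD (minF g.length) ([], [])) g
def roots (p : ℕ) (tab : Tab) (u : List ℕ) : List ℕ :=
  (refine p (rootC p tab) u).map fun g => neg p (cf p g 0)
def berl (p : ℕ) (tab : Tab) (g : List ℕ) : List (List ℕ) :=
  let n := g.length
  let A := Quo.mk p g
  pder p g :: ((range (n + 1)).map fun j => cf p (mono p g) (p * j)) ::
    (kerC p p n ((range n).map fun i => sub A (pw A (xp p i) p) (xp p i))).flatMap fun b =>
      let nu := fit p n (solC p p n ((range n).map fun i => pw A b i) (neg A (pw A b n)))
      let B := Quo.mk p nu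
      (roots p tab (pgcd p nu (sub B (pw B [0, 1] p) [0, 1]))).map fun r => sub A b [r]
def fact (p : ℕ) (tab : Tab) (u : List ℕ) : List (List ℕ) := refine p (berl p tab) u

def gauss (p l : ℕ) (md : List ℕ) (r ro : ℕ) : List ℕ :=
  let k0 := Quo.mk p md
  let G := Quo.mk k0 (neg k0 (one k0) :: replicate (r - 1) [])
  let T := pw G (sumL G ((range (r - 1)).map fun j =>
    psmul k0 (pw k0 [0, 1] j) (xp k0 (pw r ro j)))) l
  sub k0 (cf k0 T 0) (cf k0 T 1)
def entry (C p : ℕ) (tab : Tab) (l : ℕ) : List ℕ × List ℕ :=
  let md := if l = 2 then (if p % 4 = 1 then [0] else [1, 0])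
    else (fact p tab (replicate (l - 1) 1)).headD []
  let k0 := Quo.mk p md
  let R := (l * (Nat.log 2 p + 1)) ^ C + 1
  (md, (((range R).flatMap fun a => (range R).flatMap fun b => [[a, b], gauss p l md a b]).filter
    fun g => !isZ k0 g && !isZ k0 (sub k0 (pw k0 g ((p ^ md.length - 1) / l)) (one k0))).headD [])
def table (C p N : ℕ) : Tab := (range (N + 1)).foldl (fun tab l => tab ++ [entry C p tab l]) []
/-- leading coefficient and monic irreducible factors (full coefficient lists) -/
def factor (C : ℕ) (x : ℕ × List ℕ) : ℕ × List (List ℕ) :=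
  let u := mnc x.1 x.2
  (nm x.1 (cf x.1 x.2 u.length), ((fact x.1 (table C x.1 u.length) u).filter fun g =>
    !g.isEmpty).map (mono x.1))

end Vale.Agent.P319.A
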