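import Vale.Agent.P319.A.Crv
import Vale.Agent.P319.A.Code

/-! Modules over the cyclotomic ring with a commuting unipotent operator. -/

namespace Vale.Agent.P319.A

open Finset

variable {A : Type} [AddCommGroup A]

theorem lam_nil (s : AddMonoid.End A) : Lam s [] = 1 := by
  rfl

theorem lev_append (s : AddMonoid.End A) (as bs : List ℕ) :
    Lam s (as ++ bs) = Lam s as * Lam s bs := by
  simp [Lam]

theorem lev_commute {s t : AddMonoid.End A} (h : Commute t s) (as : List ℕ) :
    Commute t (Lam s as) := by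
  refine Commute.list_prod_right _ _ fun x hx => ?_
  obtain ⟨a, -, rfl⟩ := List.mem_map.1 hx
  exact (Commute.one_right t).sub_right (h.pow_right a)

theorem lam_snoc (s : AddMonoid.End A) (as : List ℕ) (a : ℕ) (y : A) :
    Lam s (as ++ [a]) y = Lam s as (y - (s ^ a) y) := by
  rw [lev_append, show Lam s [a] = 1 - s ^ a by simp [Lam]]
  rfl

theorem lam_snoc' (s : AddMonoid.End A) (as : List ℕ) (a : ℕ) (y : A) :
    Lam s (as ++ [a]) y = Lam s as y - (s ^ a) (Lam s as y) := by
  rw [lam_snoc, map_sub]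
  exact congrArg _ (DFunLike.congr_fun (lev_commute ((Commute.refl s).pow_left a) as).eq y).symm

theorem mem_cyc {l v a : ℕ} (h : a ∈ cyc l v) : 0 < a ∧ a < l := by
  simp only [cyc, List.mem_flatMap, List.mem_map, List.mem_range] at h
  obtain ⟨-, -, b, hb, rfl⟩ := h
  omega

theorem length_cyc (l v : ℕ) : (cyc l v).length = v * (l - 1) := by
  simp [cyc, List.length_flatMap]

open Polynomial in
theorem lev_prod {R : Type} [Ring R] {s : R} {l : ℕ} (hl : l.Prime)
    (hs : ∑ k ∈ range l, s ^ k = 0) :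
    ((List.range (l - 1)).map fun a => 1 - s ^ (a + 1)).prod = (l : R) := by
  have : Fact l.Prime := ⟨hl⟩
  obtain ⟨ζ, hζ⟩ : ∃ ζ : ℂ, IsPrimitiveRoot ζ l := ⟨_, Complex.isPrimitiveRoot_exp l hl.ne_zero⟩
  have h1 : cyclotomic l ℤ ∣ ∏ a ∈ range (l - 1), (1 - X ^ (a + 1)) - (l : ℤ[X]) := by
    rw [cyclotomic_eq_minpoly hζ hl.pos]
    refine minpoly.isIntegrallyClosed_dvd (hζ.isIntegral hl.pos) ?_
    obtain ⟨n, rfl⟩ : ∃ n, l = n + 1 := ⟨l - 1, by have := hl.pos; omega⟩
    simp [hζ.prod_one_sub_pow_eq_order]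
  obtain ⟨q, hq⟩ := h1
  have h2 := congrArg (aeval s) hq
  rw [cyclotomic_prime, map_mul, map_sum, map_sub, map_natCast, prod_eq_multiset_prod, range_val,
    ← Multiset.coe_range, Multiset.map_coe, Multiset.prod_coe, map_list_prod, List.map_map] at h2
  simp only [map_pow, aeval_X, hs, zero_mul, sub_eq_zero] at h2
  rw [← h2]
  congr 1
  refine List.map_congr_left fun a _ => ?_
  simp

theorem lam_cyc {s : AddMonoid.End A} {l : ℕ} (hl : l.Prime) (hs : ∑ k ∈ range l, s ^ k = 0)
    (v : ℕ) (y : A) : Lam s (cyc l v) y = l ^ v • y := by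
  have h : Lam s (cyc l v) = (l : AddMonoid.End A) ^ v := by
    induction v with
    | zero => rfl
    | succ v ih =>
      unfold cyc at ih ⊢
      rw [List.range_succ, List.flatMap_append, lev_append, ih, pow_succ, List.flatMap_singleton,
        Lam, List.map_map]
      exact congrArg _ (lev_prod hl hs)
  rw [h, ← Nat.cast_pow]
  rfl

theorem smul_mem_range {s : AddMonoid.End A} {l : ℕ} (hs : ∑ k ∈ range l, s ^ k = 0) (y : A) :
    ∃ w, l • y = w - s w := by
  have h : (l : AddMonoid.End A) = (1 - s) * ∑ k ∈ range l, ∑ j ∈ range k, s ^ j := by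
    rw [mul_sum]
    simp only [mul_neg_geom_sum, sum_sub_distrib, hs]
    simp
  exact ⟨_, DFunLike.congr_fun h y⟩

theorem lev_dvd {R : Type} [CommRing R] {s : R} {l : ℕ} (hl : l.Prime)
    (hs : ∑ k ∈ range l, s ^ k = 0) {as : List ℕ} (has : ∀ a ∈ as, ¬ l ∣ a) :
    (as.map fun a => 1 - s ^ a).prod ∣ (1 - s) ^ as.length := by
  have h1 : s ^ l = 1 := by
    have := mul_neg_geom_sum s l
    rw [hs, mul_zero] at this
    exact (sub_eq_zero.1 this.symm).symm
  induction as with
  | nil => simp
  | cons a as ih =>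
    rw [List.map_cons, List.prod_cons, List.length_cons, pow_succ']
    refine mul_dvd_mul ?_ (ih fun b hb => has b (List.mem_cons_of_mem _ hb))
    obtain ⟨b, -, hb⟩ := Nat.exists_mul_mod_eq_one_of_coprime
      ((Nat.Prime.coprime_iff_not_dvd hl).2 (has a List.mem_cons_self)).symm hl.one_lt
    have := sub_dvd_pow_sub_pow 1 (s ^ a) b
    rwa [one_pow, ← pow_mul, pow_eq_pow_mod (a * b) h1, hb, pow_one] at this

theorem lev_comm {R M : Type} [CommRing R] [AddCommGroup M] [Module R M] {s : R} {l : ℕ}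
    (hl : l.Prime) (hs : ∑ k ∈ range l, s ^ k = 0) (v : ℕ) (t : R)
    (hk : ∀ x : M, s • x = x → t • x = x) {y : M}
    (hy : (1 - s) ^ (v * (l - 1)) • (t - 1) • y = 0) : (t ^ l ^ v) • y = y := by
  obtain ⟨u, hu⟩ : (1 - s) ^ (l - 1) ∣ (l : R) := by
    rw [← lev_prod hl hs]
    induction l - 1 with
    | zero => simp
    | succ n ih =>
      rw [List.range_succ, List.map_append, List.prod_append, pow_succ]
      refine mul_dvd_mul ih ?_
      simpa using sub_dvd_pow_sub_pow 1 s (n + 1)
  induction v generalizing t with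
  | zero =>
    rw [zero_mul, pow_zero, one_smul, sub_smul, one_smul, sub_eq_zero] at hy
    simpa using hy
  | succ v ih =>
    have h1 : ∀ (i j : ℕ) (x : M), (1 - s) ^ (j + i) • x = 0 →
        (1 - s) ^ j • (t - 1) ^ i • x = 0 := by
      intro i
      induction i with
      | zero => simp
      | succ i ihi =>
        intro j x hx
        have h2 := ihi (j + 1) x (by rwa [add_assoc, add_comm 1])
        rw [pow_succ', mul_smul, sub_smul, one_smul, sub_eq_zero] at h2
        rw [pow_succ', mul_smul, smul_comm, sub_smul, one_smul, hk _ h2.symm, sub_self]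
    rw [pow_succ', pow_mul]
    refine ih _ (fun x hx => ?_) ?_
    · exact MulAction.mem_stabilizerSubmonoid_iff.1
        (pow_mem (MulAction.mem_stabilizerSubmonoid_iff.2 (hk x hx)) l)
    · obtain ⟨r, hr⟩ := exists_add_pow_prime_eq hl (t - 1) 1
      have e : t ^ l - 1 = (t - 1) ^ (l - 1) * (t - 1) + u * r * ((1 - s) ^ (l - 1) * (t - 1)) := by
        rw [pow_sub_one_mul hl.ne_zero]
        rw [sub_add_cancel, one_pow, hu] at hr
        linear_combination hr
      rw [add_mul, one_mul] at hy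
      rw [e, add_smul, smul_add, mul_smul, h1 _ _ _ hy, mul_smul, smul_comm,
        mul_smul ((1 - s) ^ (l - 1)), smul_smul ((1 - s) ^ (v * (l - 1))), ← pow_add, hy,
        smul_zero, add_zero]

open scoped IsMulCommutative in
theorem lev {s t : AddMonoid.End A} {l v : ℕ} (hl : l.Prime) (hst : Commute t s)
    (hs : ∑ k ∈ range l, s ^ k = 0) (hk : ∀ x, s x = x → t x = x) {as : List ℕ}
    (has : ∀ a ∈ as, ¬ l ∣ a) (hlen : as.length ≤ v * (l - 1)) {y : A}
    (hy : t (Lam s as y) = Lam s as y) : (t ^ l ^ v) y = y := by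
  have hc := Subring.isMulCommutative_closure (s := {s, t}) (by
    rintro x (rfl | rfl) z (rfl | rfl)
    exacts [rfl, hst.eq.symm, hst.eq, rfl])
  let s' : Subring.closure {s, t} := ⟨s, Subring.subset_closure (by simp)⟩
  let t' : Subring.closure {s, t} := ⟨t, Subring.subset_closure (by simp)⟩
  have hs' : ∑ k ∈ range l, s' ^ k = 0 := Subtype.ext (by simpa using hs)
  have e : ((as.map fun a => 1 - s' ^ a).prod : Subring.closure {s, t}).1 = Lam s as := by
    rw [Lam, ← Subring.coe_subtype, map_list_prod, List.map_map]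
    rfl
  refine lev_comm (M := A) hl hs' v t' hk ?_
  obtain ⟨q, hq⟩ := (lev_dvd hl hs' has).trans (pow_dvd_pow _ hlen)
  rw [hq, mul_comm, mul_smul, smul_comm _ (t' - 1)]
  have : (t' - 1) • (as.map fun a => 1 - s' ^ a).prod • y = 0 := by
    rw [sub_smul, one_smul, sub_eq_zero]
    change t (_ • y) = _
    rw [Subring.smul_def, e]
    exact hy
  rw [this, smul_zero]


end Vale.Agent.P319.A
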