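import Vale.Agent.P319.A.Sem

/-! Roots, Newton identities, traces. -/

namespace Vale.Agent.P319.A

open Polynomial Finset

variable {C E F R : Type} [Ops C E] [Field F] [CommRing R] {c : C} {Q : ℕ}

/-- the invariant of the root extraction -/
def AmmInv (π : E → F) (l : ℕ) (A : F) (s : E × E × E × ℕ) : Prop :=
  π s.1 ^ l = A * π s.2.1 ∧ π s.2.1 ^ s.2.2.2 = 1 ∧ π s.2.2.1 ^ s.2.2.2 ≠ 1 ∧
    (π s.2.2.1 ^ s.2.2.2) ^ l = 1

theorem ammStep_inv {π : E → F} (h : Pt c Q π) {l : ℕ} (hl : l.Prime) {A : F}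
    {s : E × E × E × ℕ} (hs : AmmInv π l A s) : AmmInv π l A (ammStep c Q l s) := by
  classical
  obtain ⟨x, b, w, e⟩ := s
  unfold ammStep
  split_ifs with he
  swap
  · exact hs
  obtain ⟨h₁, h₂, h₃, h₄⟩ := hs
  dsimp only at he h₁ h₂ h₃ h₄ ⊢
  obtain ⟨e, rfl⟩ := Nat.dvd_of_mod_eq_zero he
  rw [Nat.mul_div_cancel_left _ hl.pos]
  have : Fact l.Prime := ⟨hl⟩
  have : NeZero l := ⟨hl.ne_zero⟩
  have hζ : IsPrimitiveRoot (π w ^ (l * e)) l := by
    have := IsPrimitiveRoot.orderOf (π w ^ (l * e))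
    rwa [orderOf_eq_prime h₄ h₃] at this
  have hβ : (π b ^ e) ^ l = 1 := by rw [← pow_mul, mul_comm, h₂]
  obtain ⟨j, hj, hj'⟩ := hζ.eq_pow_of_pow_eq_one (ξ := (π b ^ e) ^ (l - 1))
    (by rw [← pow_mul, mul_comm, pow_mul, hβ, one_pow])
  have h5 : π b ^ e * (π w ^ (l * e)) ^ j = 1 := by
    rw [hj', ← pow_succ', Nat.sub_add_cancel hl.pos, hβ]
  have h6 : ∀ i, (π b * π w ^ (i * l)) ^ e = π b ^ e * (π w ^ (l * e)) ^ i := fun i => by
    rw [mul_pow, ← pow_mul, ← pow_mul]
    congr 2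
    ring
  have hsel : π (sumL c ((List.range l).map fun j =>
      Ops.mul c (ind c Q (sub c (pw c (Ops.mul c b (pw c w (j * l))) e) (one c))) (pw c w j))) =
      π w ^ j := by
    rw [h.sumL_range, Finset.sum_eq_single j]
    · rw [h.mul, h.ind, h.sub, h.pw, h.mul, h.pw, h.one, h6, h5, sub_self, if_pos rfl, one_mul,
        h.pw]
    · intro i hi hij
      rw [h.mul, h.ind, h.sub, h.pw, h.mul, h.pw, h.one, h6, if_neg, zero_mul]
      intro h7
      exact hij (hζ.pow_inj (mem_range.1 hi) hj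
        (mul_left_cancel₀ (left_ne_zero_of_mul_eq_one h5) ((sub_eq_zero.1 h7).trans h5.symm)))
    · intro hj''
      exact absurd (mem_range.2 hj) hj''
  refine ⟨?_, ?_, ?_, ?_⟩ <;> dsimp only
  · rw [h.mul, h.mul, h.pw, mul_pow, h₁, mul_assoc]
  · rw [h.mul, h.pw, hsel, ← pow_mul, h6, h5]
  · rwa [h.pw, ← pow_mul]
  · rwa [h.pw, ← pow_mul _ l]

theorem ammStep_zero {π : E → R} (h : Hom c π) {l : ℕ} {s : E × E × E × ℕ} (hs : π s.1 = 0) :
    π (ammStep c Q l s).1 = 0 := by
  unfold ammStep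
  split_ifs
  · rw [h.mul, hs, zero_mul]
  · exact hs

theorem ammStep_exp {l : ℕ} (hl : 2 ≤ l) (s : E × E × E × ℕ) (k : ℕ) :
    ((ammStep c Q l)^[k] s).2.2.2 % l ≠ 0 ∨ ((ammStep c Q l)^[k] s).2.2.2 * 2 ^ k ≤ s.2.2.2 := by
  induction k with
  | zero => simp
  | succ k ih =>
    rw [Function.iterate_succ_apply']
    generalize (ammStep c Q l)^[k] s = t at ih ⊢
    unfold ammStep
    split_ifs with ht
    · right
      refine le_trans ?_ (ih.resolve_left (not_not.2 ht))
      dsimp only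
      rw [pow_succ', ← mul_assoc]
      exact Nat.mul_le_mul_right _
        ((Nat.mul_le_mul_left _ hl).trans (Nat.div_mul_le_self _ _))
    · exact Or.inl ht

theorem amm_spec {π : E → F} (h : Pt c Q π) {l : ℕ} (hl : l.Prime) (hd : l ∣ Q - 1) {w a : E}
    (h0 : π w ≠ 0) (h1 : π w ^ ((Q - 1) / l) ≠ 1) {u : F} (hu : u ^ Q = u) (ha : u ^ l = π a) :
    π (amm c Q l w a) ^ l = π a := by
  have hQ := h.two
  unfold amm
  dsimp only
  rw [List.foldl_const, h.mul, h.pw]
  by_cases hA : π a = 0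
  · have : ∀ k, π ((ammStep c Q l)^[k] (a, pw c a (l - 1), w, (Q - 1) / l)).1 = 0 := fun k =>
      Function.Iterate.rec (fun s : E × E × E × ℕ => π s.1 = 0) hA
        (fun _ hs => ammStep_zero h.toHom hs) k
    rw [this, zero_mul, zero_pow hl.ne_zero, hA]
  have hp : ∀ t : F, t ≠ 0 → t ^ Q = t → t ^ (Q - 1) = 1 := fun t h₁ h₂ =>
    mul_left_cancel₀ h₁ (by rw [← pow_succ', Nat.sub_add_cancel (by omega), h₂, mul_one])
  have hu0 : u ≠ 0 := by
    rintro rfl
    exact hA (by rw [← ha, zero_pow hl.ne_zero])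
  have hI : AmmInv π l (π a) (a, pw c a (l - 1), w, (Q - 1) / l) := by
    refine ⟨?_, ?_, h1, ?_⟩ <;> dsimp only
    · rw [h.pw, ← pow_succ', Nat.sub_add_cancel hl.pos]
    · rw [h.pw, ← pow_mul, mul_comm, pow_mul, ← ha, ← pow_mul u l, Nat.mul_div_cancel' hd,
        hp u hu0 hu, one_pow]
    · rw [← pow_mul, Nat.div_mul_cancel hd, hp _ h0 (h.fix w)]
  have hI' := Function.Iterate.rec (AmmInv π l (π a)) hI (fun _ hs => ammStep_inv h hl hs)
    Q.bits.length
  have he := ammStep_exp (c := c) (Q := Q) hl.two_le (a, pw c a (l - 1), w, (Q - 1) / l)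
    Q.bits.length
  generalize (ammStep c Q l)^[Q.bits.length] (a, pw c a (l - 1), w, (Q - 1) / l) = t at hI' he ⊢
  obtain ⟨x, b, w', e⟩ := t
  obtain ⟨h₁, h₂, h₃, -⟩ := hI'
  dsimp only at h₁ h₂ h₃ he ⊢
  have he' : e % l ≠ 0 := by
    refine he.resolve_right fun h4 => ?_
    have h5 : 0 < e := Nat.pos_of_ne_zero (by rintro rfl; exact h₃ (pow_zero _))
    have h6 := Nat.lt_size_self Q
    have h7 := Nat.div_le_self (Q - 1) l
    have h8 := Nat.le_mul_of_pos_left (2 ^ Q.size) h5
    rw [Nat.size_eq_bits_len] at h4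
    omega
  obtain ⟨m, hm, hm'⟩ := Nat.exists_mul_mod_eq_one_of_coprime
    ((hl.coprime_iff_not_dvd.2 fun h4 => he' (Nat.mod_eq_zero_of_dvd h4)).symm) hl.one_lt
  have hj : e * ((List.range (l + 1)).filter fun j => decide (e * j % l = 1)).headD 0 % l = 1 := by
    have h4 : m ∈ (List.range (l + 1)).filter fun j => decide (e * j % l = 1) :=
      List.mem_filter.2 ⟨List.mem_range.2 (by omega), decide_eq_true hm'⟩
    have h5 := fun y => (List.mem_filter (x := y) (as := List.range (l + 1))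
      (p := fun j => decide (e * j % l = 1))).1
    generalize (List.range (l + 1)).filter (fun j => decide (e * j % l = 1)) = L at h4 h5 ⊢
    cases L with
    | nil => simp at h4
    | cons y L => exact of_decide_eq_true (h5 y List.mem_cons_self).2
  generalize ((List.range (l + 1)).filter fun j => decide (e * j % l = 1)).headD 0 = j at hj ⊢
  have h4 : (e * j - 1) / l * l + 1 = e * j := by
    have h5 := Nat.div_add_mod (e * j) l
    rw [hj] at h5
    rw [← h5, Nat.add_sub_cancel, Nat.mul_div_cancel_left _ hl.pos, mul_comm]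
  rw [mul_pow, h₁, mul_assoc, ← pow_mul, ← pow_succ', h4, pow_mul, h₂, one_pow, mul_one]

theorem newton_id {ι : Type} (s : Finset ι) (b : ι → R) : ∃ ee : ℕ → R, ee 0 = 1 ∧
    ee s.card = ∏ i ∈ s, b i ∧ ∀ k : ℕ, ((k + 1 : ℕ) : R) * ee (k + 1) =
      ∑ i ∈ range (k + 1), (-1) ^ i * (ee (k - i) * ∑ j ∈ s, b j ^ (i + 1)) := by
  refine ⟨fun k => MvPolynomial.aeval (fun i : s => b i) (MvPolynomial.esymm s R k), by simp, ?_,
    fun k => ?_⟩
  · dsimp only
    rw [MvPolynomial.esymm, ← Fintype.card_coe, ← card_univ, powersetCard_self, sum_singleton,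
      map_prod, ← prod_coe_sort s]
    simp
  · have h := congrArg (MvPolynomial.aeval (fun i : s => b i))
      (MvPolynomial.mul_esymm_eq_sum s R (k + 1))
    rw [map_mul, map_natCast] at h
    rw [h, sum_filter, Nat.sum_antidiagonal_succ', if_neg (lt_irrefl _), zero_add,
      ← Nat.sum_antidiagonal_swap, Nat.sum_antidiagonal_eq_sum_range_succ_mk, mul_sum, map_sum]
    refine sum_congr rfl fun i hi => ?_
    obtain ⟨t, rfl⟩ := Nat.exists_eq_add_of_le (Nat.lt_succ_iff.1 (mem_range.1 hi))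
    simp only [Prod.swap, Nat.add_sub_cancel_left]
    rw [if_pos (by omega), ← sum_coe_sort s]
    simp only [MvPolynomial.psum, map_mul, map_pow, map_neg, map_one, map_sum, MvPolynomial.aeval_X]
    have : ((-1 : R) ^ t) * (-1) ^ t = 1 := by rw [← mul_pow]; simp
    linear_combination ((-1) ^ i * (MvPolynomial.aeval (fun i : s => b i)
      (MvPolynomial.esymm s R t) * ∑ j : s, b j ^ (i + 1))) * this

theorem newton_spec {π : E → R} (h : Hom c π) {ι : Type} (s : Finset ι) (b : ι → R)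
    {invs ps : List E} (hi : ∀ k < s.card, π (cf c invs k) * (k + 1 : ℕ) = 1)
    (hp : ∀ k < s.card, π (cf c ps k) = ∑ i ∈ s, b i ^ (k + 1)) (d : E) :
    π ((newton c invs ps s.card).getD s.card d) = ∏ i ∈ s, b i := by
  obtain ⟨ee, h0, h1, h2⟩ := newton_id s b
  have key : ∀ n ≤ s.card, (newton c invs ps n).length = n + 1 ∧
      ∀ i ≤ n, ∀ d, π ((newton c invs ps n).getD i d) = ee i := by
    intro n
    induction n with
    | zero =>
      refine fun _ => ⟨rfl, fun i hi d => ?_⟩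
      obtain rfl := Nat.le_zero.1 hi
      exact h.one.trans h0.symm
    | succ n ih =>
      intro hn
      obtain ⟨h3, h4⟩ := ih (by omega)
      unfold newton at h3 h4 ⊢
      rw [List.range_succ, List.foldl_append, List.foldl_cons, List.foldl_nil]
      refine ⟨by rw [List.length_append, h3]; rfl, fun i hi' d => ?_⟩
      rcases hi'.lt_or_eq with hi' | rfl
      · rw [List.getD_append _ _ _ _ (by omega), h4 i (by omega)]
      · rw [List.getD_append_right _ _ _ _ h3.le, h3, Nat.sub_self, List.getD_cons_zero, h.mul,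
          h.sumL_range, ← one_mul (ee _), ← hi n hn, mul_assoc, h2]
        refine congrArg _ (sum_congr rfl fun i hi' => ?_)
        have h5 : i < s.card := by
          have := mem_range.1 hi'
          omega
        split_ifs with h6
        · rw [h.mul, hp i h5, cf, h4 _ (by omega), (Nat.even_iff.2 h6).neg_one_pow, one_mul]
        · rw [h.neg, h.mul, hp i h5, cf, h4 _ (by omega),
            (Nat.odd_iff.2 (by omega)).neg_one_pow, neg_one_mul]
  rw [(key _ le_rfl).2 _ le_rfl, h1]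

theorem trA_spec {x : Cx C E} {π : E → F} (h : Hom x.c π) {s : Finset F}
    (hs : mon π x.f = ∏ a ∈ s, (X - Polynomial.C a)) (_h0 : 0 < x.n) (b : List E) :
    π (trA x b) = ∑ a ∈ s, evq π a b := by
  classical
  have hs' : mon π x.f = Lagrange.nodal s id := hs
  have hn : x.n = s.card := by
    rw [← Lagrange.natDegree_nodal (s := s) (v := (id : F → F)), ← hs', natDegree_mon, Cx.n]
  rw [trA, ← h.coeff, h.quo_mul, h.pder, hs', hn, Lagrange.coeff_eq_sum (s := s) (v := id)
    (Set.injOn_id _) ((degree_modByMonic_lt _ Lagrange.nodal_monic).trans_eq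
      Lagrange.degree_nodal)]
  refine sum_congr rfl fun a ha => ?_
  have h1 : (Lagrange.nodal s id).eval (id a) = 0 := Lagrange.eval_nodal_at_node ha
  have h2 := eval₂_modByMonic_eq_self_of_root (f := RingHom.id F)
    (p := toP π b * derivative (Lagrange.nodal s id)) h1
  rw [eval₂_id, eval₂_id] at h2
  rw [h2, eval_mul, Lagrange.eval_nodal_derivative_eval_node_eq ha, Lagrange.eval_nodal,
    mul_div_cancel_right₀ _ (prod_ne_zero_iff.2 fun j hj => sub_ne_zero.2 (mem_erase.1 hj).1.symm)]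
  rfl

end Vale.Agent.P319.A
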