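import Vale.Agent.P319.A.CNeg
import Vale.Agent.P319.A.CDiv
import Vale.Agent.P319.A.SemAmm
import Vale.Agent.P319.A.Div1
import Vale.Agent.P319.A.Lev

/-! Correctness of the main loop. -/

namespace Vale.Agent.P319.A

open Polynomial Finset

variable {C E F : Type} [Ops C E] [Field F] [IsAlgClosed F] {x : Cx C E} {π : E → F} {V : Crv F}
  {z w b : E} {v : ℕ} {r : F ≃+* F}

omit [IsAlgClosed F] in
private theorem cstep_cast (h : Good x π V z w b v r) {i k : ℕ} (hi : i ≤ bnd x.n)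
    (hk : k ≤ bnd x.n) (e : (k : F) - i = 0) : i = k := by
  rcases lt_trichotomy i k with h1 | h1 | h1
  · refine absurd ?_ (h.chr (k - i) (by omega) (by omega))
    rw [Nat.cast_sub h1.le, e]
  · exact h1
  · refine absurd ?_ (h.chr (i - k) (by omega) (by omega))
    rw [Nat.cast_sub h1.le, ← neg_sub, e, neg_zero]

private theorem cstep_sel (h : Ok x π V) {lam : List E} {N k : ℕ} (hk : k < N)
    (hlam : ∀ i < N, (toP π lam).coeff i = if i = k then 1 else 0) (G : ℕ → Idl E)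
    (hG : (G k).1.length = x.ds) :
    mon π (fit x.c x.ds (combP x.c lam (((List.range N).map G).map Prod.fst))) = mon π (G k).1 ∧
      toLL V π (combO x lam (((List.range N).map G).map Prod.snd)) = toLL V π (G k).2 := by
  constructor
  · have e : toP π (combP x.c lam (((List.range N).map G).map Prod.fst)) = toP π (G k).1 := by
      rw [h.hom.combP, List.length_map, List.length_map, List.length_range,
        Finset.sum_eq_single k (fun i hi hik => by
          rw [hlam i (mem_range.1 hi), if_neg hik, map_zero, zero_mul])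
          (fun hh => absurd (mem_range.2 hk) hh), hlam k hk, if_pos rfl, map_one, one_mul]
      congr 1
      simp [List.getD_eq_getElem?_getD, hk]
    rw [mon, mon, length_fit, hG, h.hom.fit, e]
    rw [e, ← hG]
    exact degree_toP_lt _
  · rw [h.combO, List.length_map, List.length_map, List.length_range,
      Finset.sum_eq_single k (fun i hi hik => by
        rw [hlam i (mem_range.1 hi), if_neg hik, zero_smul])
        (fun hh => absurd (mem_range.2 hk) hh), hlam k hk, if_pos rfl, one_smul]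
    congr 1
    simp [List.getD_eq_getElem?_getD, hk]

/-- the root computed by `amm` -/
private theorem cstep_root (h : Good x π V z w b v r) {ai : E} (ha : V.f.IsRoot (π ai))
    {I : Idl E} {J : V.FI} (hI : Rep V π I J) (h1 : (mon π I.1).eval (π ai) = 1) {u : F}
    (hu : IsPrimitiveRoot u V.l) (hru : (r ^ V.l ^ v) u = u) {Y : V.Cl}
    (hY : V.cl J = Y - V.ac (V.sg u) Y) (hrY : V.ac (V.fr (r ^ V.l ^ v)) Y = Y) :
    V.f ∣ toP π (amm (Quo.mk x.c x.f) x.Q x.l [w] (mono x.c I.1)) ^ V.l - mon π I.1 := by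
  have hπ : ∀ a, (r ^ V.l ^ v) (π a) = π a := fun a => (h.fr _).trans (h.pt.fix a)
  have hm : ∀ u : List E, (mon π u).map (r ^ V.l ^ v : F ≃+* F) = mon π u := fun u => by
    rw [map_mon]
    exact congrArg (fun g => mon g u) (funext hπ)
  have hf : V.f.map (r ^ V.l ^ v : F ≃+* F) = V.f := h.hf ▸ hm x.f
  refine Crv.f_dvd.2 fun a' ha' => ?_
  obtain ⟨t, ht, ht'⟩ := Crv.ratio hu hI.nice hY hf (fun a ha => (h.fr a).trans (h.root ha)) hru
    (hI.spn.fr hf hπ) (hm _) hrY ha h1 ha'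
  have e := amm_spec (h.pt.quo (md := x.f) (t := a') (h.hf ▸ ha') (h.root ha')) V.hl h.dv
    (w := [w]) (a := mono x.c I.1) (by rw [evq_single]; exact h.w0)
    (by rw [evq_single]; exact h.w1) ((h.fr t).symm.trans ht)
    (by rw [ht', evq, h.toOk.hom.mono])
  rw [eval_sub, eval_pow, h.hl, sub_eq_zero]
  rw [evq, evq, h.toOk.hom.mono] at e
  exact e

theorem step_spec (h : Good x π V z w b v r) {ai : E} (ha : V.f.IsRoot (π ai)) {Jd : Idl E}
    {JJ : V.FI} (hJ : Rep V π Jd JJ) (hJ1 : V.l ∣ Jd.1.length + 1)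
    (hJ2 : ∀ u, V.ac (V.sg u) (V.cl JJ) = V.cl JJ) {I : Idl E} {J : V.FI} (hI : Rep V π I J)
    (hd : I.1.length = x.ds) (h1 : (mon π I.1).eval (π ai) = 1) {a : ℕ} (h0 : 0 < a)
    (hl : a < V.l)
    (hlev : ∀ Y, V.cl J = Y - V.ac (V.sg (π z ^ a)) Y → V.ac (V.fr (r ^ V.l ^ v)) Y = Y) :
    ∃ J', Rep V π (step x z w ai Jd I a) J' ∧ (step x z w ai Jd I a).1.length = x.ds ∧
      (mon π (step x z w ai Jd I a).1).eval (π ai) = 1 ∧
      V.cl J = V.cl J' - V.ac (V.sg (π z ^ a)) (V.cl J') := by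
  classical
  have H := h.toOk.hom
  have hz' : π (pw x.c z a) = π z ^ a := H.pw z a
  have hp : IsPrimitiveRoot (π (pw x.c z a)) V.l :=
    hz' ▸ h.prim.pow_of_coprime a (Nat.coprime_of_lt_prime h0.ne' hl V.hl).symm
  obtain ⟨Y, hY⟩ := Crv.exists_div hp hI.nice
    (by rw [natDegree_mon, hd, Cx.ds, h.hl]; exact dvd_mul_right _ _)
  have hs := cstep_root h ha hI h1 hp ((h.fr _).trans (h.pt.fix _)) hY (hlev Y (hz' ▸ hY))
  obtain ⟨K, U, hK, hU, hk, hc⟩ := divI_spec h.toOk hp hI hd hY hs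
  obtain ⟨hle, hN⟩ := nrmI_spec h.toOk hp hK hU
  rw [length_divI, ← h.hl] at hle
  obtain ⟨hP, hlen⟩ := prodI_rep h.toOk hN hJ (U.natDegree % x.l)
  obtain ⟨J', hJ', hc', he⟩ := redI_spec h.toOk hp ha hP
  have hlen' := length_redI x (pw x.c z a) ai (I := prodI x (nrmI x _ _ U.natDegree ::
      List.replicate (U.natDegree % x.l) Jd)) (by
    rw [hlen, nrmI, length_fit, h.hl]
    obtain ⟨c, hc⟩ := hJ1
    refine ⟨U.natDegree / V.l + U.natDegree % V.l * c, ?_⟩
    have e := Nat.div_add_mod U.natDegree V.l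
    calc U.natDegree + U.natDegree % V.l * Jd.1.length
        = V.l * (U.natDegree / V.l) + U.natDegree % V.l * (Jd.1.length + 1) := by
          rw [mul_add, mul_one]
          omega
      _ = _ := by rw [hc]; ring)
  obtain ⟨e1, e2⟩ := cstep_sel h.toOk (N := x.l * dD x + 1) (k := U.natDegree)
    (lam := (List.range (x.l * dD x + 1)).map fun k => ind x.c x.Q (sub x.c (divI x (pw x.c z a) I
      (amm (Quo.mk x.c x.f) x.Q x.l [w] (mono x.c I.1))).2 (Ops.ofN x.c k)))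
    (by omega) (fun i hi => by
      rw [coeff_toP_range, if_pos hi, h.pt.ind, H.sub, hk, H.ofN]
      have h2 := h.toOk.dD_le
      refine if_congr ⟨cstep_cast h (by omega) (by omega), ?_⟩ rfl rfl
      rintro rfl
      exact sub_self _)
    (fun k => redI x (pw x.c z a) ai (prodI x (nrmI x _ _ k :: List.replicate (k % x.l) Jd))) hlen'
  rw [step]
  refine ⟨J', ⟨hJ'.spn.congr e1 e2, ?_⟩, length_fit _ _ _, ?_, ?_⟩
  · exact (congrArg (V.Nice J') e1).mpr hJ'.nice
  · exact (congrArg (eval (π ai)) e1).trans he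
  · rw [hc', Crv.cl_mul hU.ne (pow_ne_zero _ hJ.nice.ne), Crv.cl_pow hJ.nice.ne, map_add, map_nsmul,
      hJ2, hc, hz']
    abel

private theorem cstep_fold (h : Good x π V z w b v r) {ai : E} (ha : V.f.IsRoot (π ai))
    {Jd : Idl E} {JJ : V.FI} (hJ : Rep V π Jd JJ) (hJ1 : V.l ∣ Jd.1.length + 1)
    (hJ2 : ∀ u, V.ac (V.sg u) (V.cl JJ) = V.cl JJ) {I : Idl E} {J : V.FI} (hI : Rep V π I J)
    (hd : I.1.length = x.ds) (h1 : (mon π I.1).eval (π ai) = 1)
    (hr : V.ac (V.fr r) (V.cl J) = V.cl J) (as : List ℕ) (has : ∀ a ∈ as, 0 < a ∧ a < V.l)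
    (hlen : as.length ≤ v * (V.l - 1)) :
    ∃ J', Rep V π (as.foldl (step x z w ai Jd) I) J' ∧
      (as.foldl (step x z w ai Jd) I).1.length = x.ds ∧
      (mon π (as.foldl (step x z w ai Jd) I).1).eval (π ai) = 1 ∧
      Lam (V.ac (V.sg (π z))) as (V.cl J') = V.cl J := by
  induction as using List.reverseRecOn with
  | nil => exact ⟨J, hI, hd, h1, by rw [lam_nil]; rfl⟩
  | append_singleton as a ih =>
    obtain ⟨J1, g1, g2, g3, g4⟩ := ih (fun c hc => has c (List.mem_append_left _ hc))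
      (by rw [List.length_append] at hlen; omega)
    obtain ⟨a0, al⟩ := has a (by simp)
    have hz := h.prim.pow_eq_one
    have hpow : V.ac (V.sg (π z ^ a)) = V.ac (V.sg (π z)) ^ a := by
      rw [Crv.sg_pow hz, Crv.ac_pow]
    have key : ∀ Y, V.cl J1 = Y - V.ac (V.sg (π z ^ a)) Y →
        Lam (V.ac (V.sg (π z))) (as ++ [a]) Y = V.cl J := fun Y hY => by
      rw [lam_snoc, ← hpow, ← hY, g4]
    obtain ⟨J2, k1, k2, k3, k4⟩ := step_spec h ha hJ hJ1 hJ2 g1 g2 g3 a0 al fun Y hY => by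
      rw [Crv.fr_pow h.ff, Crv.ac_pow]
      refine lev (s := V.ac (V.sg (π z))) (as := as ++ [a]) V.hl ?_ (Crv.sum_ac h.prim)
        (fun y hy => Crv.ker_fr h.prim h.ff h.fa hy)
        (fun c hc hd => absurd (Nat.le_of_dvd (has c hc).1 hd) (not_le.2 (has c hc).2)) hlen ?_
      · rw [Commute, SemiconjBy, ← Crv.ac_mul, ← Crv.ac_mul, (Crv.fr_sg h.ff hz h.fz).eq]
      · rw [key Y hY, hr]
    rw [List.foldl_append]
    exact ⟨J2, k1, k2, k3, key _ k4⟩

theorem climb_spec (h : Good x π V z w b v r) {ai : E} (ha : V.f.IsRoot (π ai)) :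
    ∃ J, Rep V π (climb x z w ai b v) J ∧
      V.l ^ v • V.cl J = -V.cl (V.P (π ai)) + (V.l - 1) • V.cl (V.B (π b)) := by
  obtain ⟨JJ, hJ, hc, hl⟩ := idJ_spec h.toOk h.prim ha
  obtain ⟨hB, hl'⟩ := idB_spec h.toOk h.prim h.b0 h.b1
  obtain ⟨hP, hlen⟩ := prodI_rep h.toOk hJ hB (x.l - 1)
  obtain ⟨J, hI, hc', he⟩ := redI_spec h.toOk h.prim ha hP
  have hd := length_redI x z ai (I := prodI x (idJ x z ai ::
      List.replicate (x.l - 1) (idB x z b))) (by
    rw [hlen, h.hl]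
    obtain ⟨k, hk⟩ : ∃ k, V.l = k + 1 := ⟨V.l - 1, by have := V.hl.pos; omega⟩
    refine (Nat.dvd_add_left (dvd_refl V.l)).1 ⟨V.m + 1 + (V.l - 1) * V.m, ?_⟩
    calc (idJ x z ai).1.length + (V.l - 1) * (idB x z b).1.length + V.l
        = ((idJ x z ai).1.length + 1) + (V.l - 1) * ((idB x z b).1.length + 1) := by
          rw [hk, Nat.add_sub_cancel]
          ring
      _ = _ := by rw [hl, hl']; ring)
  have hX : V.cl J = -V.cl (V.P (π ai)) + (V.l - 1) • V.cl (V.B (π b)) := by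
    rw [hc', Crv.cl_mul hJ.nice.ne (pow_ne_zero _ hB.nice.ne), Crv.cl_pow hB.nice.ne, hc, h.hl]
  obtain ⟨J', k1, -, -, k4⟩ := cstep_fold h ha hJ ⟨_, hl⟩
    (fun u => by rw [hc, map_neg, Crv.ac_cl, Crv.act_sg_P]) hI hd he
    (by rw [hX, map_add, map_neg, map_nsmul, Crv.ac_cl, Crv.ac_cl,
      Crv.act_fr_P h.ff (h.fa _ ha), Crv.act_fr_B h.ff h.fb])
    (cyc x.l v) (fun a ha => h.hl ▸ mem_cyc ha) (by rw [length_cyc, h.hl])
  refine ⟨J', k1, ?_⟩
  rw [← hX, ← k4, h.hl, lam_cyc V.hl (Crv.sum_ac h.prim)]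

end Vale.Agent.P319.A
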