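import Vale.Agent.P319.A.IdlB

/-! The class group. -/

namespace Vale.Agent.P319.A.Crv

open Polynomial Finset

variable {F : Type} [Field F] [IsAlgClosed F] {C : Crv F}

/-- the class of an invertible ideal -/
noncomputable def clsMk (C : Crv F) (u : (C.FI)ˣ) : C.Cl :=
  Additive.ofMul (QuotientGroup.mk u : (C.FI)ˣ ⧸ C.balSub)

omit [IsAlgClosed F] in
theorem cls_mul (u v : (C.FI)ˣ) : C.clsMk (u * v) = C.clsMk u + C.clsMk v := rfl

omit [IsAlgClosed F] in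
theorem cls_one : C.clsMk 1 = 0 := rfl

omit [IsAlgClosed F] in
theorem cls_iff {u v : (C.FI)ˣ} : C.clsMk u = C.clsMk v ↔ u⁻¹ * v ∈ C.balSub :=
  Additive.ofMul.injective.eq_iff.trans QuotientGroup.eq

omit [IsAlgClosed F] in
theorem cls_eq {I : C.FI} (hI : I ≠ 0) : C.cl I = C.clsMk (Units.mk0 I hI) :=
  dif_neg hI

omit [IsAlgClosed F] in
theorem cls_ne (t : C.G) {I : C.FI} (hI : I ≠ 0) : C.act t I ≠ 0 :=
  (_root_.map_ne_zero (C.act t)).2 hI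

omit [IsAlgClosed F] in
theorem cls_zero : C.cl 0 = 0 := dif_pos rfl

theorem cls_mem {u : (C.FI)ˣ} : u ∈ C.balSub ↔ ∃ h, C.Bal h ∧ (u : C.FI) = C.sp h := by
  refine ⟨fun hu => ?_, fun h => Subgroup.subset_closure h⟩
  induction hu using Subgroup.closure_induction with
  | mem u hu => exact hu
  | one => exact ⟨1, by simpa using bal_pl (C := C) (g := 1) one_ne_zero, sp_one.symm⟩
  | mul a b _ _ ha hb =>
    obtain ⟨h, h1, h2⟩ := ha
    obtain ⟨k, k1, k2⟩ := hb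
    exact ⟨h * k, h1.mul k1, by rw [Units.val_mul, h2, k2, sp_mul]⟩
  | inv a _ ha =>
    obtain ⟨h, h1, h2⟩ := ha
    refine ⟨h⁻¹, h1.inv, ?_⟩
    rw [Units.val_inv_eq_inv_val, h2]
    exact inv_eq_of_mul_eq_one_right (by rw [← sp_mul, mul_inv_cancel₀ h1.1, sp_one])

theorem cl_mul {I J : C.FI} (hI : I ≠ 0) (hJ : J ≠ 0) : C.cl (I * J) = C.cl I + C.cl J := by
  rw [cls_eq hI, cls_eq hJ, cls_eq (mul_ne_zero hI hJ), ← cls_mul]
  exact congrArg C.clsMk (Units.ext rfl)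

theorem cl_one : C.cl 1 = 0 := by
  have h : (1 : C.FI) ≠ 0 := sp_one (C := C) ▸ sp_ne one_ne_zero
  rw [cls_eq h, ← cls_one]
  exact congrArg C.clsMk (Units.ext rfl)

theorem cl_pow {I : C.FI} (hI : I ≠ 0) (k : ℕ) : C.cl (I ^ k) = k • C.cl I := by
  induction k with
  | zero => rw [pow_zero, cl_one, zero_smul]
  | succ k ih => rw [pow_succ, cl_mul (pow_ne_zero (M₀ := C.FI) k hI) hI, ih, succ_nsmul]

theorem cl_finprod {ι : Type} {s : Finset ι} {g : ι → C.FI} (h : ∀ i ∈ s, g i ≠ 0) :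
    C.cl (∏ i ∈ s, g i) = ∑ i ∈ s, C.cl (g i) := by
  induction s using Finset.cons_induction with
  | empty => exact cl_one
  | cons a s ha ih =>
    have h1 : ∀ i ∈ s, g i ≠ 0 := fun i hi => h i (mem_cons_of_mem hi)
    rw [prod_cons, sum_cons, cl_mul (h a (mem_cons_self a s)) (prod_ne_zero_iff.2 h1), ih h1]

theorem cl_eq_iff {I J : C.FI} (hI : I ≠ 0) (hJ : J ≠ 0) :
    C.cl I = C.cl J ↔ ∃ h, C.Bal h ∧ I = C.sp h * J := by
  rw [cls_eq hI, cls_eq hJ, eq_comm, cls_iff, cls_mem]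
  refine exists_congr fun h => and_congr_right fun _ => ?_
  rw [Units.val_mul, Units.val_inv_eq_inv_val, Units.val_mk0, Units.val_mk0,
    inv_mul_eq_iff_eq_mul₀ hJ, mul_comm]

theorem cl_sp {h : C.L} (hb : C.Bal h) : C.cl (C.sp h) = 0 := by
  rw [← cl_one, cl_eq_iff (sp_ne hb.1) one_ne_zero]
  exact ⟨h, hb, (mul_one _).symm⟩

theorem cl_surj (Y : C.Cl) : ∃ I, I ≠ 0 ∧ C.cl I = Y := by
  obtain ⟨u, hu⟩ := QuotientGroup.mk_surjective (s := C.balSub) (Additive.toMul Y)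
  refine ⟨u, u.ne_zero, ?_⟩
  rw [cls_eq u.ne_zero, Units.mk0_val, clsMk, hu]
  rfl

theorem ac_cl (t : C.G) (I : C.FI) : C.ac t (C.cl I) = C.cl (C.act t I) := by
  have h : ∃ e : AddMonoid.End C.Cl, ∀ I, e (C.cl I) = C.cl (C.act t I) := by
    refine ⟨MonoidHom.toAdditive (QuotientGroup.map C.balSub C.balSub
      (Units.map (C.act t).toMonoidHom) fun u hu => ?_), fun I => ?_⟩
    · obtain ⟨h, h1, h2⟩ := cls_mem.1 hu
      refine cls_mem.2 ⟨_, h1.G t, ?_⟩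
      rw [← act_sp, ← h2]
      rfl
    · by_cases hI : I = 0
      · rw [hI, map_zero, cls_zero]
        exact map_zero (F := AddMonoid.End C.Cl) _
      · rw [cls_eq hI, cls_eq (cls_ne t hI)]
        exact congrArg C.clsMk (Units.ext rfl :
          Units.map (C.act t).toMonoidHom (Units.mk0 I hI) = Units.mk0 _ (cls_ne t hI))
  rw [ac, dif_pos h]
  exact h.choose_spec I

theorem ac_mul (s t : C.G) : C.ac (s * t) = C.ac s * C.ac t := by
  refine AddMonoidHom.ext fun Y => ?_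
  obtain ⟨I, -, rfl⟩ := cl_surj Y
  change C.ac (s * t) (C.cl I) = C.ac s (C.ac t (C.cl I))
  rw [ac_cl, ac_cl, ac_cl, act_mul]

theorem ac_one : C.ac 1 = 1 := by
  refine AddMonoidHom.ext fun Y => ?_
  obtain ⟨I, -, rfl⟩ := cl_surj Y
  change C.ac 1 (C.cl I) = C.cl I
  rw [ac_cl, act_one]

theorem ac_pow (s : C.G) (k : ℕ) : C.ac (s ^ k) = C.ac s ^ k := by
  induction k with
  | zero => rw [pow_zero, pow_zero, ac_one]
  | succ k ih => rw [pow_succ, pow_succ, ac_mul, ih]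

theorem sum_ac {z : F} (hz : IsPrimitiveRoot z C.l) :
    ∑ k ∈ range C.l, C.ac (C.sg z) ^ k = 0 := by
  refine AddMonoidHom.ext fun Y => ?_
  obtain ⟨I, hI, rfl⟩ := cl_surj Y
  obtain ⟨k, hk, h⟩ := exists_nrmK hI
  have h1 := cl_sp (bal_kl (C := C) hk)
  rw [← h, nrmI_eq hz, cl_finprod fun _ _ => cls_ne _ hI] at h1
  refine (AddMonoidHom.finsetSum_apply _ _ _).trans (Eq.trans ?_ h1)
  refine sum_congr rfl fun t _ => ?_
  rw [← ac_cl, sg_pow hz.pow_eq_one, ac_pow]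
  rfl

theorem cls_nrm {w : C.L} {U : F[X]} (h : C.sp (C.nrm w) = C.sp (C.pl U)) :
    ∃ c : F, c ≠ 0 ∧ C.nrm w = C.pl (Polynomial.C c * U) := by
  obtain ⟨k, hk⟩ := exists_nrm_kl w
  have h1 : C.kl k ∈ (1 : C.FI) := by
    rw [← hk, ← sp_le, h, sp_le]
    exact pl_mem_one U
  obtain ⟨g, rfl⟩ := kl_mem_one.1 h1
  rw [kl_alg] at hk
  rw [hk] at h ⊢
  obtain ⟨u, rfl⟩ := associated_of_dvd_dvd (pl_mem_sp.1 (sp_le.1 h.le)) (pl_mem_sp.1 (sp_le.1 h.ge))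
  obtain ⟨c, hc, e⟩ := Polynomial.isUnit_iff.1 u.isUnit
  exact ⟨c, hc.ne_zero, by rw [e, mul_comm]⟩

theorem cl_deg {I : C.FI} {U : F[X]} (h : C.Nice I U) (h0 : C.cl I = 0) : C.l ∣ U.natDegree := by
  rw [← cl_one, cl_eq_iff h.ne one_ne_zero] at h0
  obtain ⟨w, hw, e⟩ := h0
  have h1 := h.nrm
  rw [e, mul_one, nrmI_sp] at h1
  obtain ⟨c, hc, h2⟩ := cls_nrm h1
  rw [← kl_alg] at h2
  obtain ⟨k, -, -, hk⟩ := hw.deg h2
  rw [RatFunc.intDegree_polynomial, natDegree_C_mul hc] at hk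
  exact Int.natCast_dvd_natCast.1 ⟨k, hk⟩

theorem sum_P : ∑ a ∈ C.rts, C.cl (C.P a) = 0 := by
  rw [← cl_finprod fun a _ => P_ne a, prod_P, cl_sp bal_y]

/-- a class in the image of `1 - sigma`, written out -/
theorem exists_hJ {z : F} (hz : IsPrimitiveRoot z C.l) {I : C.FI} {U : F[X]} (h : C.Nice I U)
    {J : C.FI} (hJ : J ≠ 0) (e : C.cl I + C.cl J = C.ac (C.sg z) (C.cl J)) :
    ∃ h, C.Bal h ∧ C.nrm h = C.pl U ∧ I * J = C.sp h * C.act (C.sg z) J := by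
  rw [← cl_mul h.ne hJ, ac_cl,
    cl_eq_iff (mul_ne_zero h.ne hJ) (cls_ne _ hJ)] at e
  obtain ⟨w, hw, e⟩ := e
  have h1 := congrArg C.nrmI e
  rw [nrmI_mul, nrmI_mul, nrmI_sg, nrmI_sp, h.nrm] at h1
  obtain ⟨c, hc, h2⟩ := cls_nrm (mul_right_cancel₀ (nrmI_ne hJ) h1).symm
  obtain ⟨d, hd⟩ := IsAlgClosed.exists_pow_nat_eq c⁻¹ C.hl.pos
  have hd0 : d ≠ 0 := by
    rintro rfl
    rw [zero_pow C.hl.ne_zero] at hd
    exact inv_ne_zero hc hd.symm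
  refine ⟨d • w, hw.smul hd0, ?_, by rw [sp_smul hd0, e]⟩
  rw [nrm_smul, h2, map_mul, pl_C, hd, inv_smul_smul₀ hc]


end Vale.Agent.P319.A.Crv
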