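import Mathlib

/-! The curve `y^l = f(x)`: function field, ideals, filtration at infinity, classes (definitions). -/

namespace Vale.Agent.P319.A

open Polynomial nonZeroDivisors

structure Crv (F : Type) [Field F] where
  l : ℕ
  m : ℕ
  f : F[X]
  hl : l.Prime
  hm : 0 < m
  mon : f.Monic
  sep : f.Separable
  deg : f.natDegree = l * m
  hc : (l : F) ≠ 0

namespace Crv

variable {F : Type} [Field F] (C : Crv F)

noncomputable def T : (RatFunc F)[X] := X ^ C.l - Polynomial.C (algebraMap F[X] (RatFunc F) C.f)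

theorem T_monic : C.T.Monic := monic_X_pow_sub_C _ C.hl.ne_zero

theorem T_irr : Irreducible C.T := by
  refine X_pow_sub_C_irreducible_of_prime C.hl fun b hb => ?_
  have hi : IsIntegral F[X] b := by
    refine ⟨X ^ C.l - Polynomial.C C.f, monic_X_pow_sub_C _ C.hl.ne_zero, ?_⟩
    simp [hb]
  obtain ⟨g, rfl⟩ := IsIntegrallyClosed.isIntegral_iff.1 hi
  rw [← map_pow] at hb
  have h1 := IsFractionRing.injective F[X] (RatFunc F) hb
  have h2 : IsUnit g := C.sep.squarefree g (by
    rw [← h1, ← pow_two]; exact pow_dvd_pow _ C.hl.two_le)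
  have h3 := C.deg
  rw [← h1, natDegree_pow, natDegree_eq_zero_of_isUnit h2] at h3
  have := C.hm
  have := C.hl.pos
  nlinarith

instance : Fact (Irreducible C.T) := ⟨C.T_irr⟩

/-- the function field -/
abbrev L : Type := AdjoinRoot C.T

instance : FiniteDimensional (RatFunc F) C.L := (AdjoinRoot.powerBasis' C.T_monic).finite

instance : Algebra.IsSeparable (RatFunc F) C.L := by
  have h0 : algebraMap F[X] (RatFunc F) C.f ≠ 0 := by simpa using C.mon.ne_zero
  have hc : (C.l : RatFunc F) ≠ 0 := by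
    rw [← map_natCast (algebraMap F (RatFunc F))]
    exact (_root_.map_ne_zero _).2 C.hc
  have hs : C.T.Separable := separable_X_pow_sub_C _ hc h0
  have ht : IsSeparable (RatFunc F) (AdjoinRoot.root C.T) := by
    rw [IsSeparable, AdjoinRoot.minpoly_root C.T_monic.ne_zero, C.T_monic.leadingCoeff]
    simpa using hs
  have h := (IntermediateField.isSeparable_adjoin_simple_iff_isSeparable _ _).2 ht
  have e : IntermediateField.adjoin (RatFunc F) {AdjoinRoot.root C.T} = ⊤ := by
    apply IntermediateField.toSubalgebra_injective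
    rw [IntermediateField.adjoin_simple_toSubalgebra_of_isAlgebraic
      (Algebra.IsAlgebraic.isAlgebraic _), AdjoinRoot.adjoinRoot_eq_top]
    rfl
  rw [e] at h
  exact Algebra.IsSeparable.of_algHom _ _ IntermediateField.topEquiv.symm.toAlgHom

/-- the affine coordinate ring -/
noncomputable abbrev O : Subalgebra F[X] C.L := integralClosure F[X] C.L

instance : IsDedekindDomain C.O := integralClosure.isDedekindDomain F[X] (RatFunc F) C.L
instance : IsFractionRing C.O C.L :=
  integralClosure.isFractionRing_of_finite_extension (RatFunc F) C.L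

abbrev FI : Type := FractionalIdeal (C.O)⁰ C.L

noncomputable def y : C.L := AdjoinRoot.root C.T
noncomputable def pl : F[X] →+* C.L := algebraMap F[X] C.L
noncomputable def kl : RatFunc F →+* C.L := algebraMap (RatFunc F) C.L
/-- coefficient of `y^b` -/
noncomputable def co (b : ℕ) : C.L →ₗ[RatFunc F] RatFunc F :=
  (lcoeff (RatFunc F) b).comp (AdjoinRoot.modByMonicHom C.T_monic)
noncomputable def rts : Finset F := by classical exact C.f.roots.toFinset
/-- `x^a y^b` has weight `l (a + m b) + b`; `V t` = weights below `t` -/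
noncomputable def V (t : ℤ) : Submodule F C.L := Submodule.span F {z | ∀ b < C.l,
  C.co b z = 0 ∨ C.l * ((C.co b z).intDegree + C.m * b) + b < t}
/-- pole order at most `k` at every place at infinity -/
noncomputable def Le (k : ℤ) : Submodule F C.L := C.V (C.l * (k + 1))
/-- the same order at all places at infinity -/
def Bal (h : C.L) : Prop := h ≠ 0 ∧ ∃ k : ℤ, h ∈ C.Le k ∧ h⁻¹ ∈ C.Le (-k)
noncomputable def sp (z : C.L) : C.FI := FractionalIdeal.spanSingleton _ z
/-- a fractional ideal as an `F`-subspace -/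
noncomputable def und (I : C.FI) : Submodule F C.L :=
  Submodule.span F {z | z ∈ I}
/-- the fractional ideal generated by the coefficients -/
noncomputable def gn (P : C.L[X]) : C.FI := FractionalIdeal.spanFinset C.O P.support P.coeff
/-- the ramified prime over the root `a` of `f` -/
noncomputable def P (a : F) : C.FI := C.sp (C.pl (X - Polynomial.C a)) + C.sp C.y

/-- automorphisms of `L` that keep `O` and the filtration -/
def G : Subgroup (RingAut C.L) where
  carrier := {t | (∀ z, t z ∈ C.O ↔ z ∈ C.O) ∧ ∀ k z, t z ∈ C.V k ↔ z ∈ C.V k}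
  mul_mem' := fun {a b} ha hb => ⟨fun z => (ha.1 (b z)).trans (hb.1 z),
    fun k z => (ha.2 k (b z)).trans (hb.2 k z)⟩
  one_mem' := ⟨fun _ => Iff.rfl, fun _ _ => Iff.rfl⟩
  inv_mem' := fun {a} ha => ⟨fun z => (ha.1 (a.symm z)).symm.trans (by simp),
    fun k z => (ha.2 k (a.symm z)).symm.trans (by simp)⟩

open Classical in
/-- `y ↦ z y` over `F(x)`, for `z^l = 1` -/
noncomputable def sg (z : F) : C.G :=
  if h : ∃ t : C.G, t.1 C.y = z • C.y ∧ ∀ k, t.1 (C.kl k) = C.kl k then h.choose else 1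
open Classical in
/-- acts by `s` on the constants and fixes `x`, `y`, if `s` fixes `f` -/
noncomputable def fr (s : F ≃+* F) : C.G :=
  if h : ∃ t : C.G, t.1 C.y = C.y ∧ ∀ g, t.1 (C.pl g) = C.pl (g.map s) then h.choose else 1
open Classical in
noncomputable def act (t : C.G) : C.FI ≃+* C.FI :=
  if h : ∃ e : C.FI ≃+* C.FI, ∀ I z, t.1 z ∈ e I ↔ z ∈ I then h.choose else RingEquiv.refl _
noncomputable def nrm (z : C.L) : C.L := ∏ u ∈ nthRootsFinset C.l (1 : F), (C.sg u).1 z
noncomputable def nrmI (I : C.FI) : C.FI := ∏ u ∈ nthRootsFinset C.l (1 : F), C.act (C.sg u) I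

noncomputable def balSub : Subgroup (C.FI)ˣ := Subgroup.closure {u | ∃ h, C.Bal h ∧ (u : C.FI) = C.sp h}
/-- fractional ideals modulo principal ideals with a balanced generator -/
def Cl : Type := Additive ((C.FI)ˣ ⧸ C.balSub)
noncomputable instance : AddCommGroup C.Cl :=
  inferInstanceAs (AddCommGroup (Additive ((C.FI)ˣ ⧸ C.balSub)))
open Classical in
noncomputable def cl (I : C.FI) : C.Cl :=
  if h : I = 0 then 0 else Additive.ofMul (QuotientGroup.mk (Units.mk0 I h))
open Classical in
noncomputable def ac (t : C.G) : AddMonoid.End C.Cl :=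
  if h : ∃ e : AddMonoid.End C.Cl, ∀ I, e (C.cl I) = C.cl (C.act t I) then h.choose else 1

/-- `h sigma` acts on `J / y J` as multiplication by `s` -/
def Act (z : F) (h : C.L) (J : C.FI) (s : F[X]) : Prop :=
  ∀ w ∈ J, h * (C.sg z).1 w - C.pl s * w ∈ C.sp C.y * J
/-- normalised solution of `I J = h sigma(J)` -/
structure Nrm (z : F) (I : C.FI) (U s : F[X]) (e : ℕ) (h : C.L) (J : C.FI) : Prop where
  ne : J ≠ 0
  eq : I * J = C.sp h * C.act (C.sg z) J
  nr : C.nrm h = C.pl U
  ld : h - C.pl (X ^ e) ∈ C.Le (e - 1)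
  ac : C.Act z h J s
/-- integral ideal with monic norm `U` coprime to `f` -/
structure Nice (I : C.FI) (U : F[X]) : Prop where
  le : I ≤ 1
  mon : U.Monic
  nrm : C.nrmI I = C.sp (C.pl U)
  cop : IsCoprime U C.f
/-- balanced leading term of degree `t` whose norm has leading coefficient `c` -/
noncomputable def lead (c : F) (t : ℕ) : C.L :=
  C.pl (X ^ t) + ((c - 1) * (C.l : F)⁻¹) • ∑ b ∈ Finset.range C.l, C.pl (X ^ (t - C.m * b)) * C.y ^ b
noncomputable def hp (z : F) (h : C.L) (t : ℕ) : C.L := ∏ b ∈ Finset.range t, (C.sg (z ^ b)).1 h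
noncomputable def Ip (z : F) (I : C.FI) (t : ℕ) : C.FI :=
  ∏ b ∈ Finset.range (C.l - t), C.act (C.sg (z ^ (t + b))) I
/-- twisted product -/
noncomputable def tw (z : F) (U : F[X]) (A B : ℕ → C.L) : ℕ → C.L := fun k =>
  ∑ a ∈ Finset.range C.l, A a * (C.sg (z ^ a)).1 (B ((k + C.l - a) % C.l)) *
    (if a ≤ k then 1 else C.pl U)
/-- the operator `∑ A t (h sigma)^t` -/
noncomputable def op (z : F) (h : C.L) (A : ℕ → C.L) (w : C.L) : C.L :=
  ∑ t ∈ Finset.range C.l, A t * C.hp z h t * (C.sg (z ^ t)).1 w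
noncomputable def Ev (z : F) (U : F[X]) (e : ℕ) (R : ℕ → C.L) (t : ℕ) : C.L :=
  ∑ b ∈ Finset.range C.l, C.tw z U (Pi.single t 1) ((C.tw z U R)^[C.l - 1] (Pi.single 0 1)) b *
    C.pl (X ^ (e * b))
/-- the linear system of the division step, `nu = l m + l e` -/
structure Sys (z : F) (I : C.FI) (U s : F[X]) (e : ℕ) (R : ℕ → C.L) : Prop where
  mem : ∀ t < C.l, R t ∈ C.Ip z I t
  e0 : ∀ t < C.l, R t ∈ C.Le ((C.l * C.m + C.l * e - e * t : ℕ))
  e3 : ∀ a < C.l, ∑ t ∈ Finset.range C.l, z ^ (t * a) • (C.pl (X ^ (e * t)) * C.y ^ a * R t) -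
    (if a = 0 then C.pl (C.f * U) else 0) ∈
      C.V ((C.l * (C.l * C.m + C.l * e + C.m * a) + a : ℕ))
  e2 : ∀ a < C.l, ∑ t ∈ Finset.range C.l, z ^ (t * a) • (C.pl (s ^ t) * C.y ^ a * R t) ∈
    C.sp (C.pl C.f)

end Crv

/-- `∏ (1 - s^a)` -/
def Lam {A : Type} [AddCommGroup A] (s : AddMonoid.End A) (as : List ℕ) : AddMonoid.End A :=
  (as.map fun a => 1 - s ^ a).prod

end Vale.Agent.P319.A
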