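import Vale.Agent.P319.A.Cls

/-! The algebra `M = K[Z]/(Z^l - (x - c))`, its filtration, and the action of `L` on it. -/

namespace Vale.Agent.P319.A.Crv

open Polynomial Finset

variable {F : Type} [Field F] (C : Crv F) (c : F)

noncomputable def d1x (c : F) : RatFunc F := algebraMap F[X] (RatFunc F) (X - Polynomial.C c)
noncomputable def d1T : (RatFunc F)[X] := X ^ C.l - Polynomial.C (d1x c)
abbrev d1M : Type := AdjoinRoot (C.d1T c)
noncomputable def d1Z : C.d1M c := AdjoinRoot.root _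
theorem d1T_monic : (C.d1T c).Monic := monic_X_pow_sub_C _ C.hl.ne_zero
noncomputable def d1co (b : ℕ) : C.d1M c →ₗ[RatFunc F] RatFunc F :=
  (lcoeff (RatFunc F) b).comp (AdjoinRoot.modByMonicHom (C.d1T_monic c))
noncomputable def d1D (t : ℤ) : Submodule F (C.d1M c) := Submodule.span F
  {v | ∃ (k : RatFunc F) (j : ℕ), (k = 0 ∨ C.l * k.intDegree + j < t) ∧ v = k • C.d1Z c ^ j}

theorem d1x_ne : d1x c ≠ 0 := RatFunc.algebraMap_ne_zero (X_sub_C_ne_zero c)
theorem d1x_deg : (d1x c).intDegree = 1 := by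
  rw [d1x, RatFunc.intDegree_polynomial, natDegree_X_sub_C]; rfl
theorem d1x_pow_deg (n : ℕ) : (d1x c ^ n).intDegree = n := by
  rw [d1x, ← map_pow, RatFunc.intDegree_polynomial, natDegree_pow, natDegree_X_sub_C, mul_one]

theorem d1Z_pow : C.d1Z c ^ C.l = algebraMap (RatFunc F) _ (d1x c) := by
  have h := AdjoinRoot.eval₂_root (C.d1T c)
  rw [d1T, eval₂_sub, eval₂_X_pow, eval₂_C, sub_eq_zero] at h
  exact h

theorem d1_finrank : Module.finrank (RatFunc F) (C.d1M c) = C.l := by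
  rw [(AdjoinRoot.powerBasis' (C.d1T_monic c)).finrank, AdjoinRoot.powerBasis'_dim, d1T,
    natDegree_X_pow_sub_C]

theorem d1co_mono {b : ℕ} (hb : b < C.l) (i : ℕ) :
    C.d1co c i (C.d1Z c ^ b) = if i = b then 1 else 0 := by
  have e : C.d1Z c ^ b = AdjoinRoot.mk (C.d1T c) (X ^ b) := by
    rw [← AdjoinRoot.aeval_eq, map_pow, aeval_X]; rfl
  have h : X ^ b %ₘ C.d1T c = X ^ b := (modByMonic_eq_self_iff (C.d1T_monic c)).2 (by
    rw [d1T, degree_X_pow_sub_C C.hl.pos, degree_X_pow]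
    exact_mod_cast hb)
  rw [e, d1co, LinearMap.comp_apply, AdjoinRoot.modByMonicHom_mk, h, lcoeff_apply, coeff_X_pow]

variable {C c}

theorem d1D_mono {s t : ℤ} (h : s ≤ t) : C.d1D c s ≤ C.d1D c t :=
  Submodule.span_mono fun _ ⟨k, j, h1, h2⟩ => ⟨k, j, h1.imp_right fun h3 => h3.trans_le h, h2⟩

theorem d1D_gen {k : RatFunc F} {j : ℕ} {t : ℤ} (h : k = 0 ∨ C.l * k.intDegree + j < t) :
    k • C.d1Z c ^ j ∈ C.d1D c t := Submodule.subset_span ⟨k, j, h, rfl⟩

theorem d1Z_mem (j : ℕ) : C.d1Z c ^ j ∈ C.d1D c (j + 1) := by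
  have := d1D_gen (C := C) (c := c) (k := 1) (j := j) (t := j + 1) (Or.inr (by simp))
  rwa [one_smul] at this

theorem d1D_map {s t : ℤ} (e : C.d1M c →ₗ[F] C.d1M c)
    (h : ∀ (k : RatFunc F) (j : ℕ), k ≠ 0 → C.l * k.intDegree + j < s →
      e (k • C.d1Z c ^ j) ∈ C.d1D c t) {v : C.d1M c} (hv : v ∈ C.d1D c s) : e v ∈ C.d1D c t := by
  refine (Submodule.span_le (p := (C.d1D c t).comap e)).2 ?_ hv
  rintro _ ⟨k, j, h1, rfl⟩
  by_cases hk : k = 0
  · subst hk
    rw [zero_smul]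
    exact Submodule.zero_mem _
  · exact h k j hk (h1.resolve_left hk)

theorem d1D_smul {k : RatFunc F} {d t : ℤ} (hk : k = 0 ∨ k.intDegree ≤ d) {v : C.d1M c}
    (hv : v ∈ C.d1D c t) : k • v ∈ C.d1D c (t + C.l * d) := by
  by_cases h0 : k = 0
  · rw [h0, zero_smul]; exact Submodule.zero_mem _
  have h1 := hk.resolve_left h0
  refine d1D_map ((LinearMap.lsmul (RatFunc F) _ k).restrictScalars F) (fun k' j h2 h3 => ?_) hv
  show k • k' • C.d1Z c ^ j ∈ _
  rw [smul_smul]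
  refine d1D_gen (Or.inr ?_)
  rw [RatFunc.intDegree_mul h0 h2]
  have : (C.l : ℤ) * k.intDegree ≤ C.l * d := mul_le_mul_of_nonneg_left h1 (by positivity)
  linarith [mul_add (C.l : ℤ) k.intDegree k'.intDegree]

theorem d1D_Z (i : ℕ) {t : ℤ} {v : C.d1M c} (hv : v ∈ C.d1D c t) :
    C.d1Z c ^ i * v ∈ C.d1D c (t + i) := by
  refine d1D_map (LinearMap.mulLeft F (C.d1Z c ^ i)) (fun k j h2 h3 => ?_) hv
  rw [LinearMap.mulLeft_apply, mul_smul_comm, ← pow_add]
  refine d1D_gen (Or.inr ?_)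
  push_cast
  linarith

theorem d1D_poly {p : F[X]} {d : ℕ} (hp : p.natDegree ≤ d) {t : ℤ} {v : C.d1M c}
    (hv : v ∈ C.d1D c t) : aeval (C.d1Z c) p * v ∈ C.d1D c (t + d) := by
  rw [aeval_eq_sum_range' (Nat.lt_succ_of_le hp), sum_mul]
  refine Submodule.sum_mem _ fun i hi => ?_
  rw [smul_mul_assoc]
  refine Submodule.smul_mem _ _ (d1D_mono ?_ (d1D_Z i hv))
  have := mem_range.1 hi
  omega

theorem d1D_co {t : ℤ} {v : C.d1M c} (hv : v ∈ C.d1D c t) (b : ℕ) :
    C.d1co c b v = 0 ∨ C.l * (C.d1co c b v).intDegree + b < t := by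
  induction hv using Submodule.span_induction with
  | mem x hx =>
    obtain ⟨k, j, h1, rfl⟩ := hx
    by_cases hk : k = 0
    · left; rw [hk, zero_smul, map_zero]
    have h2 := h1.resolve_left hk
    have e : C.d1Z c ^ j = d1x c ^ (j / C.l) • C.d1Z c ^ (j % C.l) := by
      conv_lhs => rw [← Nat.div_add_mod j C.l, pow_add, pow_mul, d1Z_pow, ← map_pow]
      rw [Algebra.smul_def]
    rw [e, map_smul, map_smul, d1co_mono C c (Nat.mod_lt _ C.hl.pos)]
    split_ifs with h3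
    · right
      rw [smul_eq_mul, smul_eq_mul, mul_one, RatFunc.intDegree_mul hk (pow_ne_zero _ (d1x_ne c)),
        d1x_pow_deg, h3]
      have h4 : (j : ℤ) = C.l * (j / C.l : ℕ) + (j % C.l : ℕ) := by
        exact_mod_cast (Nat.div_add_mod j C.l).symm
      linarith [mul_add (C.l : ℤ) k.intDegree (j / C.l : ℕ)]
    · left; simp
  | zero => exact Or.inl (map_zero _)
  | add x w _ _ hx hw =>
    rw [map_add]
    rcases hx with h1 | h1
    · rw [h1, zero_add]; exact hw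
    by_cases h2 : C.d1co c b w = 0
    · rw [h2, add_zero]; exact Or.inr h1
    have h3 := hw.resolve_left h2
    by_cases h4 : C.d1co c b x + C.d1co c b w = 0
    · exact Or.inl h4
    right
    have h5 := RatFunc.intDegree_add_le h2 h4
    have h6 : (0 : ℤ) ≤ C.l := by positivity
    rcases le_max_iff.1 h5 with h7 | h7 <;> nlinarith [mul_le_mul_of_nonneg_left h7 h6]
  | smul a x _ hx =>
    rw [LinearMap.map_smul_of_tower]
    by_cases ha : a = 0
    · left; rw [ha, zero_smul]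
    rw [bas_intDegree ha]
    exact hx.imp_left fun h => by rw [h, smul_zero]

theorem d1Z_not_mem {j : ℕ} (hj : j < C.l) : C.d1Z c ^ j ∉ C.d1D c j := fun h => by
  have h1 := d1D_co h j
  rw [d1co_mono C c hj, if_pos rfl] at h1
  simp at h1

/-- `Z ↦ u Z` -/
theorem d1_rho {u : F} (hu : u ^ C.l = 1) :
    ∃ r : C.d1M c →ₐ[RatFunc F] C.d1M c, r (C.d1Z c) = u • C.d1Z c := by
  refine ⟨AdjoinRoot.liftAlgHom _ (Algebra.ofId _ _) (u • C.d1Z c) ?_,
    AdjoinRoot.liftAlgHom_root _ _ _ _⟩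
  show eval₂ _ _ (X ^ C.l - Polynomial.C (d1x c)) = 0
  rw [eval₂_sub, eval₂_X_pow, eval₂_C, _root_.smul_pow, hu, one_smul, d1Z_pow, sub_eq_zero]
  rfl

section rho
variable {u : F} {r : C.d1M c →ₐ[RatFunc F] C.d1M c}

theorem d1r_mem (hr : r (C.d1Z c) = u • C.d1Z c) {t : ℤ} {v : C.d1M c} (hv : v ∈ C.d1D c t) :
    r v ∈ C.d1D c t := by
  refine d1D_map (r.toLinearMap.restrictScalars F) (fun k j h2 h3 => ?_) hv
  show r _ ∈ _
  rw [map_smul, map_pow, hr, _root_.smul_pow, smul_comm]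
  exact Submodule.smul_mem _ _ (d1D_gen (Or.inr h3))

theorem d1r_sub (hu : u ^ C.l = 1) (hr : r (C.d1Z c) = u • C.d1Z c) {j : ℕ} {v : C.d1M c}
    (hv : v ∈ C.d1D c (j + 1)) : r v - u ^ j • v ∈ C.d1D c j := by
  refine d1D_map (r.toLinearMap.restrictScalars F - u ^ j • LinearMap.id) (fun k i h2 h3 => ?_) hv
  show r _ - u ^ j • (k • C.d1Z c ^ i) ∈ _
  rw [map_smul, map_pow, hr, _root_.smul_pow, smul_comm, ← sub_smul]
  rcases (Int.lt_add_one_iff.1 h3).eq_or_lt with h4 | h4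
  · have h0 : u ≠ 0 := fun h => by
      rw [h, zero_pow C.hl.ne_zero] at hu; exact zero_ne_one hu
    have : u ^ i = u ^ j := by
      rw [← zpow_natCast u j, ← h4, zpow_add₀ h0, zpow_mul, zpow_natCast, hu, one_zpow, one_mul,
        zpow_natCast]
    rw [this, sub_self, zero_smul]
    exact Submodule.zero_mem _
  · exact Submodule.smul_mem _ _ (d1D_gen (Or.inr h4))

theorem d1r_pow (hr : r (C.d1Z c) = u • C.d1Z c) (s : ℕ) : (r ^ s) (C.d1Z c) = u ^ s • C.d1Z c := by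
  induction s with
  | zero => simp
  | succ s ih =>
    rw [pow_succ', AlgHom.mul_apply, ih, pow_succ, mul_smul, ← hr]
    exact (r.toLinearMap.restrictScalars F).map_smul _ _

theorem d1r_l (hu : u ^ C.l = 1) (hr : r (C.d1Z c) = u • C.d1Z c) : r ^ C.l = 1 :=
  AdjoinRoot.algHom_ext (by
    have := d1r_pow hr C.l
    rw [hu, one_smul] at this
    exact this)

theorem d1Y_pow (g : C.d1M c) (t : ℕ) (v : C.d1M c) :
    ((LinearMap.mulLeft (RatFunc F) g * r.toLinearMap : Module.End (RatFunc F) _) ^ t) v =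
      (∏ s ∈ range t, (r ^ s) g) * (r ^ t) v := by
  induction t generalizing v with
  | zero => simp
  | succ t ih =>
    rw [pow_succ, Module.End.mul_apply, ih, prod_range_succ, pow_succ, AlgHom.mul_apply, mul_assoc,
      ← map_mul]
    rfl

end rho

theorem d1_prod {z : F} (hz : IsPrimitiveRoot z C.l) :
    ∃ U : F, U ^ C.l = 1 ∧ ∀ b : F, ∏ s ∈ range C.l, (Polynomial.C (z⁻¹ ^ s) * X - Polynomial.C b) =
      Polynomial.C U * (X ^ C.l - Polynomial.C (b ^ C.l)) := by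
  refine ⟨∏ s ∈ range C.l, z⁻¹ ^ s, ?_, fun b => ?_⟩
  · rw [← prod_pow]
    exact prod_eq_one fun s _ => by rw [← pow_mul, mul_comm, pow_mul, hz.inv.pow_eq_one, one_pow]
  · rw [X_pow_sub_C_eq_prod hz C.hl.pos rfl, map_prod, ← prod_mul_distrib]
    refine prod_congr rfl fun s _ => ?_
    rw [mul_sub, ← C_mul, ← mul_assoc, ← mul_pow, inv_mul_cancel₀ (hz.ne_zero C.hl.ne_zero),
      one_pow, one_mul]

/-- the operator `Y` with `Y^l = f` -/
theorem d1_Y [IsAlgClosed F] {z : F} (hz : IsPrimitiveRoot z C.l) (c : F) :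
    ∃ (r : C.d1M c →ₐ[RatFunc F] C.d1M c) (G : F[X]), r (C.d1Z c) = z⁻¹ • C.d1Z c ∧ G.Monic ∧
      G.natDegree = C.l * C.m ∧ aeval (LinearMap.mulLeft (RatFunc F) (aeval (C.d1Z c) G) *
        r.toLinearMap : Module.End (RatFunc F) _) C.T = 0 := by
  obtain ⟨r, hr⟩ := d1_rho (c := c) hz.inv.pow_eq_one
  choose be hbe using fun a : F => IsAlgClosed.exists_pow_nat_eq (a - c) C.hl.pos
  refine ⟨r, ∏ a ∈ C.rts, (X - Polynomial.C (be a)), hr, monic_prod_X_sub_C _ _, ?_, ?_⟩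
  · rw [natDegree_finsetProd_X_sub_C_eq_card, card_rts]
  rw [T, map_sub, map_pow, aeval_X, aeval_C, sub_eq_zero]
  refine LinearMap.ext fun v => ?_
  obtain ⟨U, hU, hp⟩ := d1_prod hz
  rw [d1Y_pow, d1r_l hz.inv.pow_eq_one hr, AlgHom.one_apply, Module.algebraMap_end_apply,
    Algebra.smul_def]
  congr 1
  have e1 : ∀ s, (r ^ s) (aeval (C.d1Z c) (∏ a ∈ C.rts, (X - Polynomial.C (be a)))) =
      aeval (C.d1Z c) (∏ a ∈ C.rts, (Polynomial.C (z⁻¹ ^ s) * X - Polynomial.C (be a))) := by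
    intro s
    have := aeval_algHom_apply ((r ^ s).restrictScalars F) (C.d1Z c)
      (∏ a ∈ C.rts, (X - Polynomial.C (be a)))
    rw [AlgHom.restrictScalars_apply, AlgHom.restrictScalars_apply, d1r_pow hr] at this
    rw [← this, map_prod, map_prod]
    refine prod_congr rfl fun a _ => ?_
    simp [Algebra.smul_def]
  rw [prod_congr rfl fun s _ => e1 s, ← map_prod, prod_comm, prod_congr rfl fun a _ => hp (be a),
    prod_mul_distrib, prod_const, card_rts, ← C_pow, pow_mul, hU, one_pow, C_1, one_mul, map_prod]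
  conv_rhs => rw [f_eq (C := C), map_prod, map_prod]
  refine prod_congr rfl fun a _ => ?_
  rw [hbe, map_sub, map_pow, aeval_X, aeval_C, d1Z_pow, d1x,
    IsScalarTower.algebraMap_apply F (RatFunc F), IsScalarTower.algebraMap_apply F F[X] (RatFunc F),
    ← map_sub, ← map_sub]
  congr 2
  simp

/-- the representation of `L` on `M` -/
theorem d1_phi [IsAlgClosed F] {z : F} (hz : IsPrimitiveRoot z C.l) (c : F) :
    ∃ (φ : C.L →ₐ[RatFunc F] Module.End (RatFunc F) (C.d1M c))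
      (r : C.d1M c →ₐ[RatFunc F] C.d1M c) (G : F[X]), r (C.d1Z c) = z⁻¹ • C.d1Z c ∧ G.Monic ∧
      G.natDegree = C.l * C.m ∧ ∀ v, φ C.y v = aeval (C.d1Z c) G * r v := by
  obtain ⟨r, G, h1, h2, h3, h4⟩ := d1_Y hz c
  refine ⟨Ideal.Quotient.liftₐ (Ideal.span {C.T}) (aeval (LinearMap.mulLeft (RatFunc F)
    (aeval (C.d1Z c) G) * r.toLinearMap : Module.End (RatFunc F) _)) ?_, r, G, h1, h2, h3, ?_⟩
  · intro a ha
    obtain ⟨b, rfl⟩ := Ideal.mem_span_singleton.1 ha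
    rw [map_mul, h4, zero_mul]
  · intro v
    show (aeval (LinearMap.mulLeft (RatFunc F) (aeval (C.d1Z c) G) * r.toLinearMap :
      Module.End (RatFunc F) _) (X : (RatFunc F)[X])) v = _
    rw [aeval_X]
    rfl

end Vale.Agent.P319.A.Crv
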