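import Vale.Agent.P319.A.Div1M

/-! The lattice vector `c0` and the element `h` of norm `x - c`. -/

namespace Vale.Agent.P319.A.Crv

open Polynomial Finset

variable {F : Type} [Field F] [IsAlgClosed F] {C : Crv F} {c : F}

/-- `y / (x - c)^m` -/
noncomputable def d1e (C : Crv F) (c : F) : C.L := C.kl ((d1x c ^ C.m)⁻¹) * C.y

omit [IsAlgClosed F] in
theorem d1_Le_neg : C.Le (-1) = C.V 0 := by simp [Le]

theorem d1_kl_Le {k : RatFunc F} {d t : ℤ} (hk : k = 0 ∨ k.intDegree ≤ d) {w : C.L}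
    (hw : w ∈ C.Le t) : C.kl k * w ∈ C.Le (t + d) := by
  have := V_kl hk hw
  rwa [Le, show C.l * (t + d + 1) = C.l * (t + 1) + C.l * d by ring]

omit [IsAlgClosed F] in
theorem d1e_pow (b : ℕ) : C.d1e c ^ b = C.kl ((d1x c ^ (C.m * b))⁻¹) * C.y ^ b := by
  rw [d1e, mul_pow, ← map_pow, inv_pow, ← pow_mul]

omit [IsAlgClosed F] in
theorem d1x_inv_deg (n : ℕ) : ((d1x c ^ n)⁻¹).intDegree = -n := by
  rw [RatFunc.intDegree_inv, d1x_pow_deg]

theorem d1e_mem (b : ℕ) : C.d1e c ^ b ∈ C.Le 0 := by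
  have := d1_kl_Le (Or.inr (d1x_inv_deg (c := c) (C.m * b)).le) (ypow_mem_Le (C := C) b)
  rw [d1e_pow]
  simpa using this

theorem d1_aeval_mem (P : F[X]) : aeval (C.d1e c) P ∈ C.Le 0 := by
  rw [aeval_eq_sum_range]
  exact Submodule.sum_mem _ fun i _ => Submodule.smul_mem _ _ (d1e_mem i)

theorem d1_expand {t : ℕ} (ht : t ≤ C.l) {a : C.L} (ha : a ∈ C.V t) :
    ∃ P : F[X], a - aeval (C.d1e c) P ∈ C.V 0 := by
  induction t generalizing a with
  | zero => exact ⟨0, by simpa using ha⟩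
  | succ t ih =>
    have h0 : (d1x c ^ (C.m * t))⁻¹ ≠ 0 := inv_ne_zero (pow_ne_zero _ (d1x_ne c))
    have h1 : C.d1e c ^ t ∈ C.V (t + 1) := by
      rw [d1e_pow, kl_y_mem_V ht, d1x_inv_deg]
      right; push_cast; linarith
    have h2 : C.d1e c ^ t ∉ C.V t := by
      rw [d1e_pow, kl_y_mem_V ht, d1x_inv_deg]
      push_cast
      rintro (h | h)
      · exact h0 h
      · linarith
    obtain ⟨b, hb⟩ := V_step (by exact_mod_cast ha) h1 h2
    obtain ⟨P, hP⟩ := ih (by omega) hb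
    refine ⟨P + monomial t b, ?_⟩
    rw [map_add, aeval_monomial, ← Algebra.smul_def]
    convert hP using 1
    ring

omit [IsAlgClosed F] in
theorem d1_sub_deg {A B : F[X]} {n : ℕ} (hA : A.Monic) (hB : B.Monic) (h1 : A.natDegree = n)
    (h2 : B.natDegree = n) : (A - B).natDegree ≤ n - 1 := by
  by_cases h : A - B = 0
  · rw [h, natDegree_zero]; omega
  have := degree_sub_lt_left (p := A) (q := B)
    (by rw [degree_eq_natDegree hA.ne_zero, degree_eq_natDegree hB.ne_zero, h1, h2]) hA.ne_zero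
    (by rw [hA.leadingCoeff, hB.leadingCoeff])
  have := natDegree_lt_natDegree h this
  omega

theorem d1e_l : C.d1e c ^ C.l - 1 ∈ C.Le (-1) := by
  have h0 : d1x c ^ (C.m * C.l) ≠ 0 := pow_ne_zero _ (d1x_ne c)
  have e : C.d1e c ^ C.l - 1 =
      C.kl ((d1x c ^ (C.m * C.l))⁻¹) * C.pl (C.f - (X - Polynomial.C c) ^ (C.m * C.l)) := by
    rw [d1e_pow, y_pow, map_sub, mul_sub, ← kl_alg (_ ^ _), map_pow, ← d1x, ← map_mul,
      inv_mul_cancel₀ h0, map_one]
  have h1 := d1_sub_deg (n := C.m * C.l) C.mon ((monic_X_sub_C c).pow (C.m * C.l))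
    (by rw [C.deg, mul_comm]) (by rw [natDegree_pow, natDegree_X_sub_C, mul_one])
  have h2 := d1_kl_Le (Or.inr (d1x_inv_deg (c := c) (C.m * C.l)).le) (pl_mem_Le (C := C) h1)
  have h3 := Nat.mul_pos C.hm C.hl.pos
  rw [e]
  convert h2 using 2
  omega

omit [IsAlgClosed F] in
theorem d1_inj {u : F} (hu : IsPrimitiveRoot u C.l) : Set.InjOn (fun i => u ^ i) (range C.l) :=
  fun _ hi _ hj h => hu.pow_inj (mem_range.1 hi) (mem_range.1 hj) h

theorem d1_van {u : F} (hu : IsPrimitiveRoot u C.l) {P : F[X]}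
    (h : ∀ i < C.l, P.eval (u ^ i) = 0) : aeval (C.d1e c) P ∈ C.Le (-1) := by
  have hm : (X ^ C.l - Polynomial.C 1 : F[X]).Monic := monic_X_pow_sub_C _ C.hl.ne_zero
  have h1 := modByMonic_add_div P (X ^ C.l - Polynomial.C 1 : F[X])
  have h2 : P %ₘ (X ^ C.l - Polynomial.C 1) = 0 := by
    refine eq_zero_of_degree_lt_of_eval_index_eq_zero (range C.l) (d1_inj hu) ?_ fun i hi => ?_
    · have := degree_modByMonic_lt P hm
      rw [degree_X_pow_sub_C C.hl.pos] at this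
      rwa [card_range]
    · have := congrArg (eval (u ^ i)) h1
      rw [eval_add, eval_mul, h i (mem_range.1 hi), eval_sub, eval_pow, eval_X, eval_C, ← pow_mul,
        mul_comm i, pow_mul, hu.pow_eq_one, one_pow, sub_self, zero_mul, add_zero] at this
      exact this
  rw [← h1, h2, zero_add, map_mul, map_sub, map_pow, aeval_X, C_1, map_one]
  simpa using Le_mul d1e_l (d1_aeval_mem _)

section phi
variable {φ : C.L →ₐ[RatFunc F] Module.End (RatFunc F) (C.d1M c)}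
  {r : C.d1M c →ₐ[RatFunc F] C.d1M c} {G : F[X]} {z : F}

omit [IsAlgClosed F] in
theorem d1p_kl (k : RatFunc F) (w : C.L) (v : C.d1M c) : φ (C.kl k * w) v = k • φ w v := by
  rw [← kl_smul, map_smul, LinearMap.smul_apply]

omit [IsAlgClosed F] in
theorem d1p_smul (a : F) (w : C.L) (v : C.d1M c) : φ (a • w) v = a • φ w v := by
  rw [← algebraMap_smul (RatFunc F) a w, map_smul, LinearMap.smul_apply, algebraMap_smul]

omit [IsAlgClosed F] in
theorem d1p_smul' (a : F) (w : C.L) (v : C.d1M c) : φ w (a • v) = a • φ w v :=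
  LinearMap.map_smul_of_tower _ a v

omit [IsAlgClosed F] in
theorem d1p_mul (w w' : C.L) (v : C.d1M c) : φ (w * w') v = φ w (φ w' v) := by
  rw [map_mul, Module.End.mul_apply]

theorem d1p_mem (hr : r (C.d1Z c) = z⁻¹ • C.d1Z c) (hG : G.natDegree = C.l * C.m)
    (hφ : ∀ v, φ C.y v = aeval (C.d1Z c) G * r v) {k t : ℤ} {w : C.L} (hw : w ∈ C.Le k)
    {v : C.d1M c} (hv : v ∈ C.d1D c t) : φ w v ∈ C.d1D c (t + C.l * k) := by
  have h1 : ∀ b : ℕ, φ (C.y ^ b) v ∈ C.d1D c (t + C.l * (C.m * b)) := by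
    intro b
    induction b with
    | zero => simpa using hv
    | succ b ih =>
      rw [pow_succ', d1p_mul, hφ]
      convert d1D_poly hG.le (d1r_mem hr ih) using 2
      push_cast; ring
  rw [co_sum w, map_sum, LinearMap.sum_apply]
  refine Submodule.sum_mem _ fun b hb => ?_
  rw [d1p_kl]
  have h2 : C.co b w = 0 ∨ (C.co b w).intDegree ≤ k - C.m * b :=
    (mem_Le.1 hw b (mem_range.1 hb)).imp_right fun h => by linarith
  convert d1D_smul h2 (h1 b) using 2
  ring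

theorem d1p_e (hz : IsPrimitiveRoot z C.l) (hr : r (C.d1Z c) = z⁻¹ • C.d1Z c) (hm : G.Monic)
    (hG : G.natDegree = C.l * C.m) (hφ : ∀ v, φ C.y v = aeval (C.d1Z c) G * r v) {j : ℕ}
    {v : C.d1M c} (hv : v ∈ C.d1D c (j + 1)) (P : F[X]) :
    φ (aeval (C.d1e c) P) v - P.eval (z⁻¹ ^ j) • v ∈ C.d1D c j := by
  have h0 : d1x c ^ C.m ≠ 0 := pow_ne_zero _ (d1x_ne c)
  have h1 : φ (C.d1e c) v - z⁻¹ ^ j • v ∈ C.d1D c j := by
    have e : φ (C.d1e c) v - z⁻¹ ^ j • v = (r v - z⁻¹ ^ j • v) +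
        (d1x c ^ C.m)⁻¹ • (aeval (C.d1Z c) (G - X ^ (C.l * C.m)) * r v) := by
      rw [d1e, d1p_kl, hφ, map_sub, map_pow, aeval_X, pow_mul, d1Z_pow, ← map_pow, sub_mul,
        smul_sub, ← Algebra.smul_def, smul_smul, inv_mul_cancel₀ h0, one_smul]
      ring
    rw [e]
    refine Submodule.add_mem _ (d1r_sub hz.inv.pow_eq_one hr hv) ?_
    have h2 := d1_sub_deg hm (monic_X_pow (C.l * C.m)) hG (natDegree_X_pow _)
    have h3 := Nat.mul_pos C.hl.pos C.hm
    convert d1D_smul (Or.inr (d1x_inv_deg (c := c) C.m).le) (d1D_poly h2 (d1r_mem hr hv)) using 2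
    rw [Nat.cast_sub h3]
    push_cast; ring
  have h2 : ∀ n : ℕ, φ (C.d1e c ^ n) v - (z⁻¹ ^ j) ^ n • v ∈ C.d1D c j := by
    intro n
    induction n with
    | zero => simp
    | succ n ih =>
      have h3 := d1p_mem hr hG hφ (d1e_mem (c := c) 1) ih
      rw [pow_one, mul_zero, add_zero, map_sub, ← d1p_mul, ← pow_succ', d1p_smul'] at h3
      convert Submodule.add_mem _ h3 (Submodule.smul_mem _ ((z⁻¹ ^ j) ^ n) h1) using 1
      rw [smul_sub, smul_smul, ← pow_succ]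
      ring
  rw [aeval_eq_sum_range, eval_eq_sum_range, map_sum, LinearMap.sum_apply, sum_smul,
    ← sum_sub_distrib]
  refine Submodule.sum_mem _ fun n _ => ?_
  rw [d1p_smul, mul_smul, ← smul_sub]
  exact Submodule.smul_mem _ _ (h2 n)

omit [IsAlgClosed F] in
theorem d1p_Z (hz : IsPrimitiveRoot z C.l) (hr : r (C.d1Z c) = z⁻¹ • C.d1Z c)
    (hφ : ∀ v, φ C.y v = aeval (C.d1Z c) G * r v) (w : C.L) (v : C.d1M c) :
    φ ((C.sg z).1 w) (C.d1Z c * v) = C.d1Z c * φ w v := by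
  have h1 : ∀ b : ℕ, φ ((C.sg z).1 (C.y ^ b)) (C.d1Z c * v) = C.d1Z c * φ (C.y ^ b) v := by
    intro b
    induction b with
    | zero => simp
    | succ b ih =>
      rw [pow_succ', map_mul (C.sg z).1, d1p_mul, ih, d1p_mul, sg_y hz.pow_eq_one, d1p_smul, hφ, hφ, map_mul,
        hr, smul_mul_assoc, mul_smul_comm, smul_smul, mul_inv_cancel₀ (hz.ne_zero C.hl.ne_zero),
        one_smul]
      ring
  rw [co_sum w, map_sum, map_sum, map_sum, LinearMap.sum_apply, LinearMap.sum_apply, mul_sum]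
  refine sum_congr rfl fun b _ => ?_
  rw [map_mul (C.sg z).1, sg_kl, d1p_kl, d1p_kl, h1, mul_smul_comm]

/-- the generator of the lattice `D l` -/
theorem d1_c0 (hz : IsPrimitiveRoot z C.l) (hr : r (C.d1Z c) = z⁻¹ • C.d1Z c) (hm : G.Monic)
    (hG : G.natDegree = C.l * C.m) (hφ : ∀ v, φ C.y v = aeval (C.d1Z c) G * r v) :
    ∃ c0 ∈ C.d1D c C.l, ∀ (k : ℤ) (w : C.L), φ w c0 ∈ C.d1D c (C.l * (k + 1)) → w ∈ C.Le k := by
  classical
  set B : ℕ → F[X] := fun j => Lagrange.basis (range C.l) (fun i => z⁻¹ ^ i) j with hB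
  have hZ : ∀ j < C.l, C.d1Z c ^ j ∈ C.d1D c C.l := fun j hj =>
    d1D_mono (by exact_mod_cast hj) (d1Z_mem j)
  have hn : ∀ {w}, w ∈ C.Le (-1) → ∀ {v}, v ∈ C.d1D c C.l → φ w v ∈ C.d1D c 0 := fun hw _ hv => by
    simpa using d1p_mem hr hG hφ hw hv
  have h0 : ∀ {w}, w ∈ C.Le 0 → ∀ {t v}, v ∈ C.d1D c t → φ w v ∈ C.d1D c t := fun hw _ _ hv => by
    simpa using d1p_mem hr hG hφ hw hv
  set c0 := ∑ j ∈ range C.l, φ (aeval (C.d1e c) (B j)) (C.d1Z c ^ j) with hc0
  have hc : c0 ∈ C.d1D c C.l :=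
    Submodule.sum_mem _ fun j hj => h0 (d1_aeval_mem _) (hZ j (mem_range.1 hj))
  have key : ∀ j < C.l, φ (aeval (C.d1e c) (B j)) c0 ∉ C.d1D c 0 := by
    intro j hj h
    rw [hc0, map_sum, ← add_sum_erase _ _ (mem_range.2 hj), ← d1p_mul, ← map_mul] at h
    have h1 : ∑ i ∈ (range C.l).erase j, φ (aeval (C.d1e c) (B j))
        (φ (aeval (C.d1e c) (B i)) (C.d1Z c ^ i)) ∈ C.d1D c 0 := by
      refine Submodule.sum_mem _ fun i hi => ?_
      rw [← d1p_mul, ← map_mul]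
      refine hn (d1_van hz.inv fun s hs => ?_) (hZ i (mem_range.1 (mem_of_mem_erase hi)))
      rw [eval_mul, mul_eq_zero]
      by_cases e : j = s
      · exact Or.inr (Lagrange.eval_basis_of_ne (e ▸ ne_of_mem_erase hi) (mem_range.2 hs))
      · exact Or.inl (Lagrange.eval_basis_of_ne e (mem_range.2 hs))
    have h2 := d1D_mono (Int.natCast_nonneg j) ((Submodule.add_mem_iff_left _ h1).1 h)
    have h3 := d1p_e hz hr hm hG hφ (d1Z_mem j) (B j * B j)
    rw [eval_mul, Lagrange.eval_basis_self (d1_inj hz.inv) (mem_range.2 hj), mul_one,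
      one_smul] at h3
    exact d1Z_not_mem hj ((Submodule.sub_mem_iff_right _ h2).1 h3)
  have key0 : ∀ w ∈ C.Le 0, φ w c0 ∈ C.d1D c 0 → w ∈ C.Le (-1) := by
    intro w hw h
    obtain ⟨P, hP⟩ := d1_expand (c := c) le_rfl (a := w) (by simpa [Le] using hw)
    rw [← d1_Le_neg] at hP
    refine (Submodule.sub_mem_iff_left _ (d1_van hz.inv fun j hj => ?_)).1 hP
    by_contra hne
    have h1 : φ (aeval (C.d1e c) P) c0 ∈ C.d1D c 0 := by
      have := hn hP hc
      rw [map_sub, LinearMap.sub_apply] at this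
      exact (Submodule.sub_mem_iff_right _ h).1 this
    have h2 := h0 (d1_aeval_mem (c := c) (B j)) h1
    have h3 := hn (d1_van (c := c) hz.inv (P := B j * P - P.eval (z⁻¹ ^ j) • B j) fun s hs => by
      by_cases e : j = s
      · subst e; simp [mul_comm]
      · have : (B j).eval (z⁻¹ ^ s) = 0 := Lagrange.eval_basis_of_ne e (mem_range.2 hs)
        rw [eval_sub, eval_mul, eval_smul, this]; simp) hc
    rw [map_sub, map_sub, LinearMap.sub_apply, map_mul, d1p_mul, map_smul, d1p_smul] at h3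
    exact key j hj ((Submodule.smul_mem_iff _ hne).1 ((Submodule.sub_mem_iff_right _ h2).1 h3))
  refine ⟨c0, hc, fun k w h => ?_⟩
  by_cases hw : w = 0
  · rw [hw]; exact Submodule.zero_mem _
  obtain ⟨d, h1, h2⟩ := exists_minLe hw
  by_contra hk
  have h3 : k + 1 ≤ d := by
    by_contra h4
    exact hk (Le_mono (by omega) h1)
  have h4 : d1x c ^ d ≠ 0 := zpow_ne_zero _ (d1x_ne c)
  have h5 : (d1x c ^ d).intDegree = d := by
    rcases Int.eq_nat_or_neg d with ⟨n, rfl | rfl⟩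
    · rw [zpow_natCast, d1x_pow_deg]
    · rw [zpow_neg, zpow_natCast, d1x_inv_deg]
  have h6 : ((d1x c ^ d)⁻¹).intDegree ≤ -d := by rw [RatFunc.intDegree_inv, h5]
  have h7 := key0 _ (by convert d1_kl_Le (Or.inr h6) h1 using 2; ring) (by
    rw [d1p_kl]
    refine d1D_mono ?_ (d1D_smul (Or.inr h6) h)
    have : (0 : ℤ) ≤ C.l := by positivity
    nlinarith)
  have h8 := d1_kl_Le (Or.inr h5.le) h7
  rw [← mul_assoc, ← map_mul, mul_inv_cancel₀ h4, map_one, one_mul] at h8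
  exact h2 (by convert h8 using 2; ring)

end phi

theorem d1_h {z : F} (hz : IsPrimitiveRoot z C.l) (c : F) : ∃ h : C.L,
    C.nrm h = C.pl (X - Polynomial.C c) ∧ ∀ A : F[X], A.Monic → A.natDegree = C.m →
      h * (C.y - C.pl A) ∈ C.Le C.m := by
  obtain ⟨φ, r, G, hr, hm, hG, hφ⟩ := d1_phi hz c
  obtain ⟨c0, hc, key⟩ := d1_c0 hz hr hm hG hφ
  let Th : C.L →ₗ[RatFunc F] C.d1M c := (LinearMap.applyₗ c0).comp φ.toLinearMap
  have hT : ∀ w, Th w = φ w c0 := fun _ => rfl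
  have inj : Function.Injective Th := by
    rw [injective_iff_map_eq_zero]
    intro w hw
    by_contra h0
    obtain ⟨d, -, h2⟩ := exists_minLe h0
    exact h2 (key _ _ (by rw [← hT, hw]; exact Submodule.zero_mem _))
  have : FiniteDimensional (RatFunc F) (C.d1M c) :=
    (AdjoinRoot.powerBasis' (C.d1T_monic c)).finite
  have hfin : Module.finrank (RatFunc F) C.L = Module.finrank (RatFunc F) (C.d1M c) := by
    rw [d1_finrank, (AdjoinRoot.powerBasis' C.T_monic).finrank, AdjoinRoot.powerBasis'_dim, T,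
      natDegree_X_pow_sub_C]
  obtain ⟨h, hh⟩ := (LinearMap.injective_iff_surjective_of_finrank_eq_finrank hfin).1 inj
    (C.d1Z c * c0)
  rw [hT] at hh
  have h1 : ∀ t, φ (C.hp z h t) c0 = C.d1Z c ^ t * c0 := by
    intro t
    induction t with
    | zero => simp [hp]
    | succ t ih =>
      have := hp_succ hz.pow_eq_one h 1 t
      rw [map_one, map_one, mul_one, mul_one] at this
      rw [← this, mul_comm, d1p_mul, hh, d1p_Z hz hr hφ, ih, pow_succ', mul_assoc]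
  refine ⟨h, inj ?_, fun A hA hd => key _ _ ?_⟩
  · rw [hT, hT, nrm_eq hz, ← hp, h1, d1Z_pow, ← kl_alg, ← mul_one (C.kl _), d1p_kl, map_one,
      Algebra.smul_def]
    rfl
  · have h0 : d1x c ^ C.m ≠ 0 := pow_ne_zero _ (d1x_ne c)
    have e : C.y - C.pl A = C.kl (d1x c ^ C.m) * (aeval (C.d1e c) (X : F[X]) - 1) +
        C.pl ((X - Polynomial.C c) ^ C.m - A) := by
      have e1 : C.pl ((X - Polynomial.C c) ^ C.m) = C.kl (d1x c ^ C.m) := by
        rw [← kl_alg, map_pow]; rfl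
      rw [aeval_X, d1e, mul_sub, ← mul_assoc, ← map_mul, mul_inv_cancel₀ h0, map_one, map_sub, e1]
      ring
    have h2 : C.d1Z c * c0 ∈ C.d1D c (C.l + 1) := by simpa using d1D_Z 1 hc
    rw [mul_comm h, d1p_mul, hh, e, map_add, LinearMap.add_apply, d1p_kl, map_sub, map_one,
      LinearMap.sub_apply, Module.End.one_apply]
    refine Submodule.add_mem _ ?_ ?_
    · have h3 := d1p_e hz hr hm hG hφ h2 X
      rw [eval_X, hz.inv.pow_eq_one, one_smul] at h3
      convert d1D_smul (Or.inr (d1x_pow_deg c C.m).le) h3 using 2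
      ring
    · have h3 := d1_sub_deg ((monic_X_sub_C c).pow C.m) hA
        (by rw [natDegree_pow, natDegree_X_sub_C, mul_one]) hd
      refine d1D_mono ?_ (d1p_mem hr hG hφ (pl_mem_Le h3) h2)
      rw [Nat.cast_sub C.hm]
      have : (1 : ℤ) ≤ C.l := by exact_mod_cast C.hl.pos
      push_cast
      nlinarith

end Vale.Agent.P319.A.Crv
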