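import Vale.Agent.P319.A.Filt

/-! Reduced bases and the rank one lemma. -/

namespace Vale.Agent.P319.A.Crv

open Polynomial Finset

variable {F : Type} [Field F] [IsAlgClosed F] {C : Crv F}

/-- `w` has weight `t` -/
def RedWt (C : Crv F) (w : C.L) (t : ℤ) : Prop := w ∈ C.V (t + 1) ∧ w ∉ C.V t

theorem red_kl {k : RatFunc F} (hk : k ≠ 0) {w : C.L} {t : ℤ} (h : C.RedWt w t) :
    C.RedWt (C.kl k * w) (t + C.l * k.intDegree) := by
  refine ⟨?_, fun h2 => h.2 ?_⟩
  · have := V_kl (k := k) (d := k.intDegree) (Or.inr le_rfl) h.1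
    rwa [add_right_comm] at this
  · have := V_kl (k := k⁻¹) (d := -k.intDegree) (Or.inr (RatFunc.intDegree_inv k).le) h2
    rwa [← mul_assoc, ← map_mul, inv_mul_cancel₀ hk, map_one, one_mul, mul_neg,
      add_neg_cancel_right] at this

theorem red_res {l b c : ℕ} (hb : b < l) (hc : c < l) {A B : ℤ} (h : l * A + b = l * B + c) :
    b = c := by
  have h1 : (l : ℤ) ∣ (b : ℤ) - c := ⟨B - A, by linarith⟩
  have h2 := Int.eq_zero_of_abs_lt_dvd h1 (abs_lt.2 ⟨by omega, by omega⟩)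
  omega

theorem red_sum {v : ℕ → C.L} {d : ℕ → ℤ} (hv : ∀ b < C.l, C.RedWt (v b) (C.l * d b + b))
    (k : ℕ → RatFunc F) (t : ℤ) : ∑ b ∈ range C.l, C.kl (k b) * v b ∈ C.V t ↔
      ∀ b < C.l, k b = 0 ∨ C.l * ((k b).intDegree + d b) + b < t := by
  classical
  have key : ∀ b < C.l, ∀ t : ℤ, (k b = 0 ∨ C.l * ((k b).intDegree + d b) + b < t) →
      C.kl (k b) * v b ∈ C.V t := by
    intro b hb t h
    by_cases h0 : k b = 0
    · rw [h0, map_zero, zero_mul]
      exact Submodule.zero_mem _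
    · exact V_mono (by linarith [h.resolve_left h0]) (red_kl h0 (hv b hb)).1
  refine ⟨fun h => ?_, fun h => Submodule.sum_mem _ fun b hb =>
    key b (mem_range.1 hb) t (h b (mem_range.1 hb))⟩
  intro b0 hb0
  by_contra hc
  rw [not_or, not_lt] at hc
  obtain ⟨b1, hb1, hmax⟩ := exists_max_image ((range C.l).filter fun b => k b ≠ 0)
    (fun b => (C.l : ℤ) * ((k b).intDegree + d b) + b) ⟨b0, mem_filter.2 ⟨mem_range.2 hb0, hc.1⟩⟩
  obtain ⟨hb2, hb3⟩ := mem_filter.1 hb1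
  have h1 := hmax b0 (mem_filter.2 ⟨mem_range.2 hb0, hc.1⟩)
  refine (red_kl hb3 (hv b1 (mem_range.1 hb2))).2 ?_
  rw [← add_sum_erase _ _ hb2] at h
  have h2 : ∑ b ∈ (range C.l).erase b1, C.kl (k b) * v b ∈
      C.V (C.l * d b1 + b1 + C.l * (k b1).intDegree) := by
    refine Submodule.sum_mem _ fun b hb => key b (mem_range.1 (mem_of_mem_erase hb)) _ ?_
    by_cases h0 : k b = 0
    · exact Or.inl h0
    · have h3 := hmax b (mem_filter.2 ⟨mem_of_mem_erase hb, h0⟩)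
      have h4 := h3.lt_of_ne fun e => ne_of_mem_erase hb
        (red_res (mem_range.1 (mem_of_mem_erase hb)) (mem_range.1 hb2) e)
      exact Or.inr (by linarith)
  have h5 := Submodule.sub_mem _ (V_mono (by linarith [hc.2]) h) h2
  rwa [add_sub_cancel_right] at h5

theorem red_nrm {a : C.L} (h0 : a ≠ 0) (h1 : a ∈ (1 : C.FI)) :
    ∃ D : F[X], D ≠ 0 ∧ ∃ o ∈ (1 : C.FI), C.pl D = a * o := by
  obtain ⟨D, hD⟩ := exists_nrm_pl h1
  refine ⟨D, fun h => nrm_ne h0 (by rw [hD, h, map_zero]), mem_sp.1 ?_⟩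
  rw [← hD]
  exact nrmI_le (sp_le.2 h1) (nrm_mem (sp_le.1 le_rfl))

theorem red_den (J : C.FI) : ∃ D : F[X], D ≠ 0 ∧ ∀ w ∈ J, C.pl D * w ∈ (1 : C.FI) := by
  obtain ⟨a, ha, hJ⟩ := J.isFractional
  have h0 : (a : C.L) ≠ 0 := fun h => nonZeroDivisors.ne_zero ha (Subtype.ext h)
  obtain ⟨D, hD, o, ho, e⟩ := red_nrm h0 (mem_one.2 a.2)
  refine ⟨D, hD, fun w hw => ?_⟩
  obtain ⟨b, hb⟩ := hJ w hw
  have h2 : (a : C.L) * w ∈ (1 : C.FI) := by
    have h3 : (a : C.L) * w = b := hb.symm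
    rw [h3]
    exact mem_one.2 b.2
  rw [e, mul_comm (a : C.L) o, mul_assoc]
  exact mul_mem ho h2

theorem red_num {J : C.FI} (hJ : J ≠ 0) : ∃ D : F[X], D ≠ 0 ∧ C.pl D ∈ J := by
  obtain ⟨D, hD, h⟩ := red_den J
  obtain ⟨a, ha, h0⟩ : ∃ a ∈ J, a ≠ 0 := by
    by_contra hc
    push Not at hc
    exact hJ (FractionalIdeal.eq_zero_iff.2 hc)
  have h1 : C.pl D ≠ 0 := fun e => hD (pl_inj (e.trans (map_zero _).symm))
  obtain ⟨E, hE, o, ho, e⟩ := red_nrm (mul_ne_zero h1 h0) (h a ha)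
  refine ⟨E, hE, ?_⟩
  rw [e, mul_comm, ← mul_assoc]
  exact mul_mem (mul_mem ho (pl_mem_one D)) ha

omit [IsAlgClosed F] in
theorem red_ypow (b : ℕ) : C.y ^ b ∈ (1 : C.FI) := by
  induction b with
  | zero => simp
  | succ b ih => rw [pow_succ]; exact mul_mem ih y_mem_one

theorem red_min {J : C.FI} (hJ : J ≠ 0) : ∃ (v : ℕ → C.L) (d : ℕ → ℤ),
    (∀ b < C.l, v b ∈ J ∧ C.RedWt (v b) (C.l * d b + b)) ∧
    ∀ w ∈ J, ∃ g : ℕ → F[X], w = ∑ b ∈ range C.l, C.pl (g b) * v b := by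
  classical
  obtain ⟨D, hD, hD1⟩ := red_den J
  obtain ⟨E, hE, hE1⟩ := red_num hJ
  have hl : (0 : ℤ) < C.l := by exact_mod_cast C.hl.pos
  have low : ∀ w ∈ J, w ∈ C.V (-(C.l * D.natDegree)) → w = 0 := by
    intro w hw h
    have h1 := V_pl (g := D) le_rfl h
    rw [neg_add_cancel] at h1
    have h2 : C.pl D ≠ 0 := fun e => hD (pl_inj (e.trans (map_zero _).symm))
    exact (mul_eq_zero.1 (int_V_zero (hD1 w hw) h1)).resolve_left h2
  have ex : ∀ b, b < C.l → ∃ d : ℤ, (∃ v ∈ J, C.RedWt v (C.l * d + b)) ∧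
      ∀ d' : ℤ, (∃ v ∈ J, C.RedWt v (C.l * d' + b)) → d ≤ d' := by
    intro b hb
    refine Int.exists_least_of_bdd ⟨-D.natDegree - 1, ?_⟩ ⟨E.natDegree + C.m * b, C.pl E * C.y ^ b,
      by rw [mul_comm]; exact mul_mem (red_ypow b) hE1, ?_, ?_⟩
    · rintro d ⟨v, hv, h1, h2⟩
      by_contra hc
      have h3 : (C.l : ℤ) * (d + 2) ≤ C.l * -D.natDegree :=
        mul_le_mul_of_nonneg_left (by omega) hl.le
      have h4 : (b : ℤ) < C.l := by exact_mod_cast hb
      rw [low v hv (V_mono (by linarith) h1)] at h2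
      exact h2 (Submodule.zero_mem _)
    · rw [← kl_alg, kl_y_mem_V hb, RatFunc.intDegree_polynomial]
      exact Or.inr (by linarith)
    · rw [← kl_alg, kl_y_mem_V hb, RatFunc.intDegree_polynomial, not_or]
      exact ⟨by simpa using hE, lt_irrefl _⟩
  choose! d hd1 hd2 using ex
  choose! v hv1 hv2 using hd1
  refine ⟨v, d, fun b hb => ⟨hv1 b hb, hv2 b hb⟩, fun w hw => ?_⟩
  have main : ∀ n : ℕ, ∀ w ∈ J, w ∈ C.V (-(C.l * D.natDegree) + n) →
      ∃ g : ℕ → F[X], w = ∑ b ∈ range C.l, C.pl (g b) * v b := by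
    intro n
    induction n with
    | zero =>
      intro w hw h
      exact ⟨0, by simp [low w hw (by simpa using h)]⟩
    | succ n ih =>
      intro w hw h
      rw [Nat.cast_succ, ← add_assoc] at h
      set t : ℤ := -(C.l * D.natDegree) + n
      by_cases h0 : w ∈ C.V t
      · exact ih w hw h0
      obtain ⟨b, hb⟩ := Int.eq_ofNat_of_zero_le (Int.emod_nonneg t hl.ne')
      have hb1 : b < C.l := by
        have := Int.emod_lt_of_pos t hl
        omega
      have ht : t = C.l * (t / C.l) + b := by rw [← hb, Int.mul_ediv_add_emod]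
      obtain ⟨j, hj⟩ := Int.eq_ofNat_of_zero_le
        (sub_nonneg.2 (hd2 b hb1 (t / C.l) ⟨w, hw, by rw [← ht]; exact ⟨h, h0⟩⟩))
      have h1 := red_kl (k := algebraMap F[X] (RatFunc F) (X ^ j))
        (RatFunc.algebraMap_ne_zero (pow_ne_zero _ X_ne_zero)) (hv2 b hb1)
      rw [RatFunc.intDegree_polynomial, natDegree_X_pow, kl_alg,
        show (C.l : ℤ) * d b + b + C.l * j = t by rw [← hj]; linarith] at h1
      obtain ⟨c, hc⟩ := V_step h h1.1 h1.2
      obtain ⟨g, hg⟩ := ih _ (sub_mem hw (smul_mem c (mul_mem (pl_mem_one _) (hv1 b hb1)))) hc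
      refine ⟨g + Pi.single b (Polynomial.C c * X ^ j), ?_⟩
      simp only [Pi.add_apply, map_add, add_mul, sum_add_distrib]
      rw [← hg, sum_eq_single b, Pi.single_eq_same, map_mul, mul_assoc, pl_C, sub_add_cancel]
      · intro a _ ha
        rw [Pi.single_eq_of_ne ha, map_zero, zero_mul]
      · intro ha
        exact absurd (mem_range.2 hb1) ha
  by_cases h0 : w = 0
  · exact ⟨0, by simp [h0]⟩
  obtain ⟨t, ht, -⟩ := exists_min h0
  exact main (t + 1 + C.l * D.natDegree).toNat w hw (V_mono (by omega) ht)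

theorem exists_redb {J : C.FI} (hJ : J ≠ 0) :
    ∃ (v : ℕ → C.L) (d : ℕ → ℤ) (p : ℕ → C.L →ₗ[RatFunc F] RatFunc F),
      (∀ w, w = ∑ b ∈ range C.l, C.kl (p b w) * v b) ∧
      (∀ b < C.l, ∀ c < C.l, p b (v c) = if b = c then 1 else 0) ∧
      (∀ w, w ∈ J ↔ ∀ b < C.l, ∃ g, p b w = algebraMap F[X] (RatFunc F) g) ∧
      ∀ (t : ℤ) w, w ∈ C.V t ↔
        ∀ b < C.l, p b w = 0 ∨ C.l * ((p b w).intDegree + d b) + b < t := by
  classical
  obtain ⟨v, d, hv, hspan⟩ := red_min hJ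
  obtain ⟨E, hE, hE1⟩ := red_num hJ
  have hsum := red_sum fun b hb => (hv b hb).2
  have li : LinearIndependent (RatFunc F) fun i : Fin C.l => v i := by
    refine Fintype.linearIndependent_iff.2 fun g hg i => ?_
    let k : ℕ → RatFunc F := fun b => if h : b < C.l then g ⟨b, h⟩ else 0
    have hk : ∀ j : Fin C.l, k j = g j := fun j => dif_pos j.2
    have h1 : ∑ b ∈ range C.l, C.kl (k b) * v b = 0 := by
      rw [sum_range, ← hg]
      exact sum_congr rfl fun j _ => by rw [hk, kl_smul]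
    have h2 := (hsum k (C.l * ((k i).intDegree + d i) + i)).1
      (by rw [h1]; exact Submodule.zero_mem _) i i.2
    rw [← hk]
    exact h2.resolve_right (lt_irrefl _)
  have sp : ⊤ ≤ Submodule.span (RatFunc F) (Set.range fun i : Fin C.l => v i) := by
    have h1 : ∀ w ∈ J, w ∈ Submodule.span (RatFunc F) (Set.range fun i : Fin C.l => v i) := by
      intro w hw
      obtain ⟨g, rfl⟩ := hspan w hw
      refine Submodule.sum_mem _ fun b hb => ?_
      rw [← kl_alg, ← kl_smul]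
      exact Submodule.smul_mem _ _ (Submodule.subset_span ⟨⟨b, mem_range.1 hb⟩, rfl⟩)
    intro w _
    rw [co_sum w]
    refine Submodule.sum_mem _ fun b _ => ?_
    have h2 : algebraMap F[X] (RatFunc F) E ≠ 0 := by simpa using hE
    have h3 : C.kl (C.co b w) * C.y ^ b =
        (C.co b w * (algebraMap F[X] (RatFunc F) E)⁻¹) • (C.y ^ b * C.pl E) := by
      rw [kl_smul, ← kl_alg, mul_comm (C.y ^ b), ← mul_assoc, ← map_mul,
        inv_mul_cancel_right₀ h2]
    rw [h3]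
    exact Submodule.smul_mem _ _ (h1 _ (mul_mem (red_ypow b) hE1))
  let B := Module.Basis.mk li sp
  have hB : ∀ i, B i = v i := fun i => Module.Basis.mk_apply li sp i
  let p : ℕ → C.L →ₗ[RatFunc F] RatFunc F := fun b => if h : b < C.l then B.coord ⟨b, h⟩ else 0
  have hp : ∀ b (h : b < C.l), p b = B.coord ⟨b, h⟩ := fun b h => dif_pos h
  have e1 : ∀ w, w = ∑ b ∈ range C.l, C.kl (p b w) * v b := by
    intro w
    rw [sum_range]
    refine (B.sum_repr w).symm.trans (sum_congr rfl fun j _ => ?_)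
    rw [hp j j.2, kl_smul, hB]
    rfl
  have e2 : ∀ b < C.l, ∀ c < C.l, p b (v c) = if b = c then 1 else 0 := by
    intro b hb c hc
    rw [hp b hb, ← hB ⟨c, hc⟩, Module.Basis.coord_apply, B.repr_self, Finsupp.single_apply]
    simp only [Fin.mk.injEq, eq_comm]
  refine ⟨v, d, p, e1, e2, fun w => ⟨fun hw b hb => ?_, fun h => ?_⟩, fun t w => ?_⟩
  · obtain ⟨g, rfl⟩ := hspan w hw
    refine ⟨g b, ?_⟩
    rw [map_sum, sum_eq_single b]
    · rw [← kl_alg, ← kl_smul, map_smul, e2 b hb b hb, if_pos rfl, smul_eq_mul, mul_one]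
    · intro c hc hcb
      rw [← kl_alg, ← kl_smul, map_smul, e2 b hb c (mem_range.1 hc), if_neg hcb.symm, smul_zero]
    · intro hc
      exact absurd (mem_range.2 hb) hc
  · rw [e1 w]
    refine sum_mem fun b hb => ?_
    obtain ⟨g, hg⟩ := h b (mem_range.1 hb)
    rw [hg, kl_alg]
    exact mul_mem (pl_mem_one g) (hv b (mem_range.1 hb)).1
  · rw [← hsum (fun b => p b w) t, ← e1 w]
theorem rank_one {J : C.FI} (hJ : J ≠ 0) (R : C.L →ₗ[RatFunc F] C.L) (h1 : ∀ w ∈ J, R w ∈ J)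
    (h2 : ∀ t : ℤ, ∀ w ∈ C.V (t + 1), R w - (if (C.l : ℤ) ∣ t then w else 0) ∈ C.V t) :
    ∃ u, ∀ w, ∃ k, (R ^ (C.l - 1)) w = C.kl k * u := by
  classical
  obtain ⟨v, d, p, e1, e2, e3, e4⟩ := exists_redb hJ
  have hl := C.hl.pos
  let N : ℕ → ℤ := fun b => C.l * d b + b
  let c : ℤ → ℕ := fun t => (((range C.l).erase 0).filter fun b => N b < t).card
  have cmono : ∀ s t, s ≤ t → c s ≤ c t := fun s t h => card_le_card fun b hb =>
    mem_filter.2 ⟨(mem_filter.1 hb).1, (mem_filter.1 hb).2.trans_le h⟩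
  have vJ : ∀ b < C.l, v b ∈ J := by
    intro b hb
    refine (e3 _).2 fun a ha => ?_
    rw [e2 a ha b hb]
    split_ifs
    · exact ⟨1, (map_one _).symm⟩
    · exact ⟨0, (map_zero _).symm⟩
  have vV : ∀ b < C.l, v b ∈ C.V (N b + 1) := by
    intro b hb
    refine (e4 _ _).2 fun a ha => ?_
    rw [e2 a ha b hb]
    split_ifs with h
    · rw [h, RatFunc.intDegree_one, zero_add]
      exact Or.inr (lt_add_one _)
    · exact Or.inl rfl
  have JV : ∀ t, ∀ w ∈ J, w ∈ C.V t → ∀ b < C.l, p b w ≠ 0 → N b < t := by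
    intro t w hw ht b hb h0
    obtain ⟨g, hg⟩ := (e3 w).1 hw b hb
    have h3 := ((e4 t w).1 ht b hb).resolve_left h0
    rw [hg, RatFunc.intDegree_polynomial] at h3
    have h4 : (0 : ℤ) ≤ C.l * g.natDegree := by positivity
    simp only [N]
    linarith
  have key : ∀ W : Submodule (RatFunc F) C.L, ∀ n : ℕ, ∀ t : ℤ, c t ≤ n →
      (N 0 < t → ∀ n', c (N 0) ≤ n' → (R ^ n') (v 0) ∈ W) →
      ∀ w, (∀ b < C.l, p b w ≠ 0 → N b < t) → (R ^ n) w ∈ W := by
    intro W n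
    induction n using Nat.strong_induction_on with
    | _ n ih =>
    intro t hc h0 w hw
    rw [e1 w, map_sum]
    refine Submodule.sum_mem _ fun b hb => ?_
    rw [← kl_smul, map_smul]
    by_cases hp : p b w = 0
    · rw [hp, zero_smul]
      exact Submodule.zero_mem _
    refine Submodule.smul_mem _ _ ?_
    have hb' := mem_range.1 hb
    have h3 := hw b hb' hp
    by_cases hb0 : b = 0
    · subst hb0
      exact h0 h3 n ((cmono _ _ h3.le).trans hc)
    have h4 : c (N b) < c t := by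
      refine card_lt_card ⟨fun a ha => mem_filter.2 ⟨(mem_filter.1 ha).1,
        (mem_filter.1 ha).2.trans h3⟩, fun h => ?_⟩
      exact lt_irrefl _ (mem_filter.1 (h (mem_filter.2 ⟨mem_erase.2 ⟨hb0, hb⟩, h3⟩))).2
    obtain ⟨n, rfl⟩ : ∃ n', n = n' + 1 := ⟨n - 1, by omega⟩
    rw [pow_succ, Module.End.mul_apply]
    refine ih n (lt_add_one n) (N b) (by omega) (fun h => h0 (h.trans h3)) _
      (JV _ _ (h1 _ (vJ b hb')) ?_)
    have h5 := h2 (N b) _ (vV b hb')
    rwa [if_neg, sub_zero] at h5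
    rintro ⟨A, hA⟩
    exact hb0 (red_res hb' hl (A := d b) (B := A) (by simpa using hA))
  have fix : ∀ n, c (N 0) ≤ n → (R ^ n) (v 0) = (R ^ c (N 0)) (v 0) := by
    intro n hn
    induction n, hn using Nat.le_induction with
    | base => rfl
    | succ n hn ih =>
      have h5 := h2 (N 0) _ (vV 0 hl)
      rw [if_pos ⟨d 0, by simp [N]⟩] at h5
      have h6 := key ⊥ n (N 0) hn (fun h => absurd h (lt_irrefl _)) _
        (JV _ _ (sub_mem (h1 _ (vJ 0 hl)) (vJ 0 hl)) h5)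
      rw [Submodule.mem_bot, map_sub, sub_eq_zero] at h6
      rw [pow_succ, Module.End.mul_apply, h6, ih]
  refine ⟨(R ^ c (N 0)) (v 0), fun w => ?_⟩
  obtain ⟨t, ht⟩ := ((range C.l).image N).exists_le
  have h7 := key (Submodule.span (RatFunc F) {(R ^ c (N 0)) (v 0)}) (C.l - 1) (t + 1)
    ((card_filter_le _ _).trans (by rw [card_erase_of_mem (mem_range.2 hl), card_range]))
    (fun _ n hn => by rw [fix n hn]; exact Submodule.mem_span_singleton_self _) w
    fun b hb _ => Int.lt_add_one_iff.2 (ht _ (mem_image_of_mem N (mem_range.2 hb)))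
  obtain ⟨k, hk⟩ := Submodule.mem_span_singleton.1 h7
  exact ⟨k, by rw [← hk, kl_smul]⟩

end Vale.Agent.P319.A.Crv
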