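import Vale.Agent.P319.A.Act
import Vale.Agent.P319.A.Red

/-! The linear system of the division step is solvable. -/

namespace Vale.Agent.P319.A.Crv

open Polynomial Finset

variable {F : Type} [Field F] [IsAlgClosed F] {C : Crv F}

omit [IsAlgClosed F] in
theorem de_pow {z : F} (hz : z ^ C.l = 1) (t : ℕ) : (z ^ t) ^ C.l = 1 := by
  rw [← pow_mul, mul_comm, pow_mul, hz, one_pow]

omit [IsAlgClosed F] in
theorem de_sg_y {z : F} (hz : z ^ C.l = 1) (t a : ℕ) :
    (C.sg (z ^ t)).1 (C.y ^ a) = z ^ (t * a) • C.y ^ a := by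
  rw [map_pow, sg_y (de_pow hz t), _root_.smul_pow, ← pow_mul]

omit [IsAlgClosed F] in
theorem de_zero (I : C.FI) : (0 : C.L) ∈ I := FractionalIdeal.zero_mem I

omit [IsAlgClosed F] in
theorem de_mul' {I : C.FI} {o w : C.L} (hw : w ∈ I) (ho : o ∈ (1 : C.FI)) : w * o ∈ I := by
  rw [mul_comm]
  exact mul_mem ho hw

omit [IsAlgClosed F] in
theorem de_cancel {A B J : C.FI} (hJ : J ≠ 0) (h : A * J ≤ B * J) : A ≤ B := by
  have h1 := mul_le_mul_left h J⁻¹
  rwa [mul_assoc, mul_assoc, mul_inv_cancel₀ hJ, mul_one, mul_one] at h1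

omit [IsAlgClosed F] in
theorem de_T {z : F} {I : C.FI} {U s : F[X]} {e : ℕ} (h : C.Nice I U) {g : C.L} {J : C.FI}
    (hN : C.Nrm z I U s e g J) : ∀ w ∈ J, g * (C.sg z).1 w ∈ J := by
  intro w hw
  have h1 : g * (C.sg z).1 w ∈ I * J := by
    rw [hN.eq]
    exact mem_sp_mul.2 ⟨_, (mem_act _ _ _).2 hw, rfl⟩
  have h2 : I * J ≤ 1 * J := mul_le_mul_left h.le J
  rw [one_mul] at h2
  exact h2 h1

omit [IsAlgClosed F] in
theorem de_stab {z : F} (hz : z ^ C.l = 1) {g : C.L} {J : C.FI}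
    (hT : ∀ w ∈ J, g * (C.sg z).1 w ∈ J) (k : ℕ) :
    ∀ w ∈ C.sp (C.y ^ k) * J, g * (C.sg z).1 w ∈ C.sp (C.y ^ k) * J := by
  intro w hw
  obtain ⟨j, hj, rfl⟩ := mem_sp_mul.1 hw
  refine mem_sp_mul.2 ⟨z ^ k • (g * (C.sg z).1 j), smul_mem _ (hT j hj), ?_⟩
  rw [map_mul, map_pow, sg_y hz, _root_.smul_pow, smul_mul_assoc, mul_smul_comm, mul_smul_comm,
    mul_left_comm]

omit [IsAlgClosed F] in
theorem de_zero_step (z : F) (g w : C.L) : C.hp z g 0 * (C.sg (z ^ 0)).1 w = w := by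
  rw [hp, prod_range_zero, one_mul, pow_zero, sg_one]
  rfl

theorem de_iter {z : F} (hz : z ^ C.l = 1) {g : C.L} {M : C.FI}
    (hM : ∀ w ∈ M, g * (C.sg z).1 w ∈ M) {s : F[X]} {w : C.L}
    (h : g * (C.sg z).1 w - C.pl s * w ∈ M) (t : ℕ) :
    C.hp z g t * (C.sg (z ^ t)).1 w - C.pl (s ^ t) * w ∈ M := by
  induction t with
  | zero =>
    rw [de_zero_step, pow_zero, map_one, one_mul, sub_self]
    exact de_zero M
  | succ t ih =>
    have h1 := add_mem (hM _ ih) (mul_mem (pl_mem_one (s ^ t)) h)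
    rw [map_sub, mul_sub, hp_succ hz, map_mul, sg_pl] at h1
    rw [pow_succ s, map_mul]
    have e : ∀ A B D E : C.L, A - g * (B * E) + B * (g * E - D * w) = A - B * D * w := by
      intro A B D E
      ring
    rwa [e] at h1

theorem de_last {z : F} (hz : IsPrimitiveRoot z C.l) (g w : C.L) :
    C.hp z g C.l * (C.sg (z ^ C.l)).1 w = C.nrm g * w := by
  rw [hz.pow_eq_one, sg_one, nrm_eq hz]
  rfl

omit [IsAlgClosed F] in
theorem de_mem_add {w x : C.L} {M : C.FI} :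
    x ∈ C.sp w + M ↔ ∃ o ∈ (1 : C.FI), x - w * o ∈ M := by
  rw [FractionalIdeal.mem_add]
  constructor
  · rintro ⟨i, hi, j, hj, rfl⟩
    obtain ⟨o, ho, rfl⟩ := mem_sp.1 hi
    exact ⟨o, ho, by rwa [add_sub_cancel_left]⟩
  · rintro ⟨o, ho, h⟩
    exact ⟨w * o, mem_sp.2 ⟨o, ho, rfl⟩, _, h, add_sub_cancel _ _⟩

/-- generator of `J` modulo `f` on which `h sigma` acts by `s` -/
theorem Nrm.gen {z : F} (hz : IsPrimitiveRoot z C.l) {I : C.FI} {U s : F[X]} {e : ℕ}
    (h : C.Nice I U) (hs : C.f ∣ s ^ C.l - U) {g : C.L} {J : C.FI} (hN : C.Nrm z I U s e g J) :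
    ∃ w ∈ J, J = C.sp w + C.sp (C.pl C.f) * J ∧
      g * (C.sg z).1 w - C.pl s * w ∈ C.sp (C.pl C.f) * J := by
  have hz1 := hz.pow_eq_one
  have hT := de_T h hN
  obtain ⟨w0, hw0, e0⟩ := exists_gen hN.ne
  have hy : ∀ w ∈ C.sp C.y * J, g * (C.sg z).1 w ∈ C.sp C.y * J := by
    simpa only [pow_one] using de_stab hz1 hT 1
  have hyJ : ∀ k, ∀ w ∈ C.sp (C.y ^ k) * J, w ∈ J := by
    intro k w hw
    obtain ⟨j, hj, rfl⟩ := mem_sp_mul.1 hw
    exact mul_mem (red_ypow k) hj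
  have it := de_iter hz1 hy (hN.ac w0 hw0)
  have itJ : ∀ t, C.hp z g t * (C.sg (z ^ t)).1 w0 ∈ J := by
    intro t
    have h1 := add_mem (hyJ 1 _ (by simpa only [pow_one] using it t))
      (mul_mem (pl_mem_one (s ^ t)) hw0)
    rwa [sub_add_cancel] at h1
  set w : C.L := ∑ t ∈ range C.l, C.pl (s ^ (C.l - (t + 1))) *
    (C.hp z g t * (C.sg (z ^ t)).1 w0) with hw
  have wJ : w ∈ J := sum_mem fun t _ => mul_mem (pl_mem_one _) (itJ t)
  have a1 : w - C.pl (Polynomial.C (C.l : F) * s ^ (C.l - 1)) * w0 ∈ C.sp C.y * J := by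
    have e : C.pl (Polynomial.C (C.l : F) * s ^ (C.l - 1)) * w0 =
        ∑ t ∈ range C.l, C.pl (s ^ (C.l - (t + 1))) * (C.pl (s ^ t) * w0) := by
      rw [sum_congr rfl (g := fun _ => C.pl (s ^ (C.l - 1)) * w0), sum_const, card_range,
        map_natCast, map_mul, map_natCast, nsmul_eq_mul, mul_assoc]
      intro t ht
      rw [← mul_assoc, ← map_mul, ← pow_add,
        show C.l - (t + 1) + t = C.l - 1 by have := mem_range.1 ht; omega]
    rw [e, hw, ← sum_sub_distrib]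
    exact sum_mem fun t _ => by rw [← mul_sub]; exact mul_mem (pl_mem_one _) (it t)
  have cop : IsCoprime (Polynomial.C (C.l : F) * s ^ (C.l - 1)) C.f := by
    obtain ⟨q, hq⟩ := hs
    have h1 : IsCoprime (s ^ C.l) C.f := by
      rw [show s ^ C.l = U + C.f * q by rw [← hq]; ring]
      exact h.cop.add_mul_left_left q
    exact IsCoprime.mul_left ((isCoprime_mul_unit_right_left (isUnit_C.2 C.hc.isUnit) 1 C.f).2
      isCoprime_one_left |> fun h2 => by rwa [one_mul] at h2)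
      ((IsCoprime.pow_left_iff C.hl.pos).1 h1).pow_left
  have a2 : ∃ o ∈ (1 : C.FI), w0 - w * o ∈ C.sp C.y * J := by
    obtain ⟨a, b, hab⟩ := cop
    refine ⟨C.pl a, pl_mem_one a, ?_⟩
    have h1 : C.pl b * C.pl C.f * w0 ∈ C.sp C.y * J := by
      refine mem_sp_mul.2 ⟨C.pl b * C.y ^ (C.l - 1) * w0,
        mul_mem (mul_mem (pl_mem_one b) (red_ypow _)) hw0, ?_⟩
      rw [← y_pow, ← mul_pow_sub_one C.hl.ne_zero C.y]
      ring
    have h2 := sub_mem h1 (mul_mem (pl_mem_one a) a1)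
    have h3 := congrArg C.pl hab
    rw [map_add, map_mul, map_mul C.pl b, map_one] at h3
    have e : C.pl b * C.pl C.f * w0 - C.pl a *
        (w - C.pl (Polynomial.C (C.l : F) * s ^ (C.l - 1)) * w0) = w0 - w * C.pl a := by
      linear_combination w0 * h3
    rwa [e] at h2
  have a3 : ∀ x ∈ J, ∃ o ∈ (1 : C.FI), x - w * o ∈ C.sp C.y * J := by
    intro x hx
    obtain ⟨o', ho', h1⟩ := a2
    rw [e0] at hx
    obtain ⟨o, ho, h2⟩ := de_mem_add.1 hx
    refine ⟨o' * o, mul_mem ho' ho, ?_⟩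
    have h3 := add_mem h2 (de_mul' h1 ho)
    rwa [show x - w0 * o + (w0 - w * o') * o = x - w * (o' * o) by ring] at h3
  have a4 : ∀ k, ∀ x ∈ J, ∃ o ∈ (1 : C.FI), x - w * o ∈ C.sp (C.y ^ k) * J := by
    intro k x hx
    induction k with
    | zero => exact ⟨0, de_zero _, by simpa [sp_one] using hx⟩
    | succ k ih =>
      obtain ⟨o, ho, h1⟩ := ih
      obtain ⟨j, hj, h2⟩ := mem_sp_mul.1 h1
      obtain ⟨o', ho', h3⟩ := a3 j hj
      obtain ⟨j', hj', h4⟩ := mem_sp_mul.1 h3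
      refine ⟨o + C.y ^ k * o', add_mem ho (mul_mem (red_ypow k) ho'),
        mem_sp_mul.2 ⟨j', hj', ?_⟩⟩
      linear_combination h2 + C.y ^ k * h4
  refine ⟨w, wJ, le_antisymm (fun x hx => de_mem_add.2 ?_) fun x hx => ?_, ?_⟩
  · rw [← y_pow]
    exact a4 _ x hx
  · obtain ⟨o, ho, h1⟩ := de_mem_add.1 hx
    rw [← y_pow] at h1
    have h2 := add_mem (hyJ _ _ h1) (de_mul' wJ ho)
    rwa [sub_add_cancel] at h2
  · have e : g * (C.sg z).1 w - C.pl s * w = C.pl U * w0 - C.pl (s ^ C.l) * w0 := by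
      have h1 := sum_range_sub
        (fun t => C.pl (s ^ (C.l - t)) * (C.hp z g t * (C.sg (z ^ t)).1 w0)) C.l
      rw [de_last hz, de_zero_step, hN.nr, Nat.sub_self, pow_zero, map_one, one_mul,
        Nat.sub_zero] at h1
      rw [← h1, hw, map_sum, mul_sum, mul_sum, ← sum_sub_distrib]
      refine sum_congr rfl fun t ht => ?_
      rw [map_mul, sg_pl, mul_left_comm, hp_succ hz1, ← mul_assoc (C.pl s), ← map_mul,
        ← pow_succ', show C.l - (t + 1) + 1 = C.l - t by have := mem_range.1 ht; omega]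
    obtain ⟨q, hq⟩ := hs
    refine mem_sp_mul.2 ⟨C.pl (-q) * w0, mul_mem (pl_mem_one _) hw0, ?_⟩
    rw [e, ← sub_mul, ← map_sub, ← mul_assoc, ← map_mul, mul_neg, ← hq, neg_sub]
theorem Nrm.hp {z : F} (hz : IsPrimitiveRoot z C.l) {I : C.FI} {U s : F[X]} {e : ℕ}
    (h : C.Nice I U) {g : C.L} {J : C.FI} (hN : C.Nrm z I U s e g J) {t : ℕ} (ht : t ≤ C.l) :
    C.Ip z I t * (C.sp (C.hp z g t) * C.act (C.sg (z ^ t)) J) = C.sp (C.pl U) * J ∧
      C.hp z g t - C.pl (X ^ (e * t)) ∈ C.Le ((e * t : ℕ) - 1) := by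
  have hz1 := hz.pow_eq_one
  constructor
  · have key : ∀ t, C.sp (C.hp z g t) * C.act (C.sg (z ^ t)) J =
        (∏ b ∈ range t, C.act (C.sg (z ^ b)) I) * J := by
      intro t
      induction t with
      | zero => rw [Crv.hp, prod_range_zero, prod_range_zero, sp_one, pow_zero, sg_one, act_one]
      | succ t ih =>
        have h1 := congrArg (C.act (C.sg (z ^ t))) hN.eq
        rw [map_mul, map_mul, act_sp, ← act_mul, ← sg_mul (de_pow hz1 t) hz1, ← pow_succ] at h1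
        rw [Crv.hp, prod_range_succ, prod_range_succ, sp_mul, mul_assoc, ← h1, mul_left_comm,
          ← Crv.hp, ih]
        ring
    rw [key, ← mul_assoc, mul_comm (C.Ip z I t), Ip,
      ← prod_range_add (fun b => C.act (C.sg (z ^ b)) I), Nat.add_sub_cancel' ht, ← nrmI_eq hz,
      h.nrm]
  · clear ht
    have hg := (bal_near hN.ld).2.1
    induction t with
    | zero =>
      rw [Crv.hp, prod_range_zero, mul_zero, pow_zero, map_one, sub_self]
      exact Submodule.zero_mem _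
    | succ t ih =>
      have h1 := Le_mul ih ((G_Le (C.sg (z ^ t))).2 hg)
      have h2 := Le_mul (pl_mem_Le (C := C) (g := X ^ (e * t)) (d := e * t) (natDegree_X_pow _).le)
        ((G_Le (C.sg (z ^ t))).2 hN.ld)
      rw [map_sub, sg_pl] at h2
      have h3 := Submodule.add_mem _ (Le_mono (t := ((e * (t + 1) : ℕ) : ℤ) - 1)
        (by push_cast; linarith) h1) (Le_mono (by push_cast; linarith) h2)
      rw [Crv.hp, prod_range_succ, ← Crv.hp, mul_add e, mul_one, pow_add, map_mul]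
      rw [mul_add e, mul_one] at h3
      have e1 : ∀ A B D E : C.L, (A - B) * D + B * (D - E) = A * D - B * E := by
        intro A B D E
        ring
      rwa [e1] at h3
/-- `op` as a linear map -/
noncomputable def deOp (z : F) (g : C.L) (R : ℕ → C.L) : C.L →ₗ[RatFunc F] C.L where
  toFun := C.op z g R
  map_add' a b := by simp only [op, map_add, mul_add, sum_add_distrib]
  map_smul' k a := by
    simp only [op, kl_smul, map_mul, sg_kl, RingHom.id_apply, mul_sum]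
    exact sum_congr rfl fun t _ => by ring

omit [IsAlgClosed F] in
theorem de_op_sum (z : F) (g : C.L) (R : ℕ → C.L) (k : ℕ → RatFunc F) (w : ℕ → C.L) :
    C.op z g R (∑ a ∈ range C.l, C.kl (k a) * w a) =
      ∑ a ∈ range C.l, C.kl (k a) * C.op z g R (w a) := by
  change deOp z g R _ = _
  rw [map_sum]
  refine sum_congr rfl fun a _ => ?_
  rw [← kl_smul, map_smul, kl_smul]
  rfl

omit [IsAlgClosed F] in
theorem de_op_y {z : F} (hz : z ^ C.l = 1) (g : C.L) (R : ℕ → C.L) (a : ℕ) (w : C.L) :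
    C.op z g R (C.y ^ a * w) = ∑ t ∈ range C.l,
      z ^ (t * a) • (C.y ^ a * R t * (C.hp z g t * (C.sg (z ^ t)).1 w)) := by
  refine sum_congr rfl fun t _ => ?_
  rw [map_mul, de_sg_y hz, smul_mul_assoc, mul_smul_comm]
  congr 1
  ring

/-- for `R` with the conditions `mem`, `e0`: `e2` says that `op R` maps `J` into `f U J` -/
theorem Nrm.e2_iff {z : F} (hz : IsPrimitiveRoot z C.l) {I : C.FI} {U s : F[X]} {e : ℕ}
    (h : C.Nice I U) (hs : C.f ∣ s ^ C.l - U) {g : C.L} {J : C.FI} (hN : C.Nrm z I U s e g J)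
    {R : ℕ → C.L} (hm : ∀ t < C.l, R t ∈ C.Ip z I t) :
    (∀ a < C.l, ∑ t ∈ range C.l, z ^ (t * a) • (C.pl (s ^ t) * C.y ^ a * R t) ∈
      C.sp (C.pl C.f)) ↔ ∀ w ∈ J, C.op z g R w ∈ C.sp (C.pl (C.f * U)) * J := by
  have hz1 := hz.pow_eq_one
  obtain ⟨w1, hw1, e1, hs1⟩ := hN.gen hz h hs
  have it := de_iter hz1 (by simpa only [y_pow] using de_stab hz1 (de_T h hN) C.l) hs1
  have hU : ∀ w ∈ J, C.op z g R w ∈ C.sp (C.pl U) * J := by
    intro w hw
    refine sum_mem fun t ht => ?_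
    rw [← (hN.hp hz h (mem_range.1 ht).le).1, mul_assoc]
    exact FractionalIdeal.mul_mem_mul (hm t (mem_range.1 ht))
      (mem_sp_mul.2 ⟨_, (mem_act _ _ _).2 hw, rfl⟩)
  have hR : ∀ t < C.l, R t ∈ (1 : C.FI) := by
    intro t ht
    have h1 : C.Ip z I t ≤ 1 := prod_le_one' fun b _ => (h.sg _).le
    exact h1 (hm t ht)
  have a1 : ∀ w ∈ J, (C.op z g R w ∈ C.sp (C.pl (C.f * U)) * J ↔
      C.op z g R w ∈ C.sp (C.pl C.f) * J) := by
    intro w hw
    constructor
    · intro h1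
      obtain ⟨j, hj, h2⟩ := mem_sp_mul.1 h1
      exact mem_sp_mul.2 ⟨C.pl U * j, mul_mem (pl_mem_one U) hj, by rw [h2, map_mul, mul_assoc]⟩
    · intro h1
      obtain ⟨j, hj, h2⟩ := mem_sp_mul.1 (hU w hw)
      rw [h2, ← y_pow] at h1
      obtain ⟨j', hj', h3⟩ := mem_sp_mul.1 (cancel_cop h.cop hj h1)
      refine mem_sp_mul.2 ⟨j', hj', ?_⟩
      rw [h2, h3, y_pow, map_mul]
      ring
  have a2 : ∀ a, C.op z g R (C.y ^ a * w1) -
      (∑ t ∈ range C.l, z ^ (t * a) • (C.pl (s ^ t) * C.y ^ a * R t)) * w1 ∈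
        C.sp (C.pl C.f) * J := by
    intro a
    rw [de_op_y hz1, sum_mul, ← sum_sub_distrib]
    refine sum_mem fun t ht => ?_
    rw [smul_mul_assoc, ← smul_sub]
    refine smul_mem _ ?_
    have h1 := mul_mem (mul_mem (red_ypow a) (hR t (mem_range.1 ht))) (it t)
    rwa [mul_sub, show C.y ^ a * R t * (C.pl (s ^ t) * w1) = C.pl (s ^ t) * C.y ^ a * R t * w1 by
      ring] at h1
  constructor
  · intro he w hw
    rw [a1 w hw]
    rw [e1] at hw
    obtain ⟨o, ho, h1⟩ := de_mem_add.1 hw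
    obtain ⟨j, hj, h2⟩ := mem_sp_mul.1 h1
    have h3 : w = ∑ a ∈ range C.l, C.kl (C.co a o) * (C.y ^ a * w1) +
        algebraMap F[X] (RatFunc F) C.f • j := by
      rw [kl_smul, kl_alg, ← h2]
      simp only [← mul_assoc]
      rw [← sum_mul, ← co_sum]
      ring
    have h4 : C.op z g R w = ∑ a ∈ range C.l, C.kl (C.co a o) * C.op z g R (C.y ^ a * w1) +
        C.pl C.f * C.op z g R j := by
      rw [h3]
      change deOp z g R _ = _
      rw [map_add, map_smul, kl_smul, kl_alg, ← de_op_sum]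
      rfl
    rw [h4]
    refine add_mem (sum_mem fun a ha => ?_) (mem_sp_mul.2 ⟨_, ?_, rfl⟩)
    · obtain ⟨q, hq⟩ := mem_one_iff.1 ho a (mem_range.1 ha)
      rw [hq, kl_alg]
      have h5 := add_mem (a2 a) (FractionalIdeal.mul_mem_mul (he a (mem_range.1 ha)) hw1)
      rw [sub_add_cancel] at h5
      exact mul_mem (pl_mem_one q) h5
    · obtain ⟨j', hj', h5⟩ := mem_sp_mul.1 (hU j hj)
      rw [h5]
      exact mul_mem (pl_mem_one U) hj'
  · intro he a _
    have hw := mul_mem (red_ypow a) hw1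
    have h1 := sub_mem ((a1 _ hw).1 (he _ hw)) (a2 a)
    rw [sub_sub_cancel] at h1
    set E := ∑ t ∈ range C.l, z ^ (t * a) • (C.pl (s ^ t) * C.y ^ a * R t) with hE
    have hE1 : E ∈ (1 : C.FI) := sum_mem fun t ht => smul_mem _
      (mul_mem (mul_mem (pl_mem_one _) (red_ypow a)) (hR t (mem_range.1 ht)))
    refine sp_le.1 (de_cancel hN.ne fun x hx => ?_)
    obtain ⟨j, hj, rfl⟩ := mem_sp_mul.1 hx
    rw [e1] at hj
    obtain ⟨o, ho, h2⟩ := de_mem_add.1 hj
    have h3 := add_mem (mul_mem hE1 h2) (de_mul' h1 ho)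
    rwa [show E * (j - w1 * o) + E * w1 * o = E * j by ring] at h3
theorem de_div {D : F[X]} (hD : D ≠ 0) {x : C.L} {t : ℤ} :
    x / C.pl D ∈ C.V t ↔ x ∈ C.V (t + C.l * D.natDegree) := by
  have h0 : C.pl D ≠ 0 := fun e => hD (pl_inj (e.trans (map_zero _).symm))
  constructor
  · intro h
    have h1 := V_pl (g := D) le_rfl h
    rwa [mul_div_cancel₀ _ h0] at h1
  · intro h
    have h1 := V_kl (k := (algebraMap F[X] (RatFunc F) D)⁻¹) (d := -D.natDegree)
      (Or.inr (by rw [RatFunc.intDegree_inv, RatFunc.intDegree_polynomial])) h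
    rwa [map_inv₀, kl_alg, mul_neg, add_neg_cancel_right, ← div_eq_inv_mul] at h1

theorem de_lt {l b : ℕ} (hb : b < l) {A t : ℤ} (h : l * A + b < t + 1)
    (h1 : ¬ (b = 0 ↔ (l : ℤ) ∣ t)) : l * A + b < t := by
  refine (Int.lt_add_one_iff.1 h).lt_of_ne fun e => h1 ⟨fun h0 => ⟨A, by simp [← e, h0]⟩, ?_⟩
  rintro ⟨B, hB⟩
  exact red_res hb (by omega) (A := A) (B := B) (by simpa [hB] using e)

theorem Nrm.e3_iff {z : F} (hz : IsPrimitiveRoot z C.l) {I : C.FI} {U s : F[X]} {e : ℕ}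
    (h : C.Nice I U) (he : U.natDegree = C.l * e) {g : C.L} {J : C.FI} (hN : C.Nrm z I U s e g J)
    {R : ℕ → C.L} (h0 : ∀ t < C.l, R t ∈ C.Le ((C.l * C.m + C.l * e - e * t : ℕ))) :
    (∀ a < C.l, ∑ t ∈ range C.l, z ^ (t * a) • (C.pl (X ^ (e * t)) * C.y ^ a * R t) -
      (if a = 0 then C.pl (C.f * U) else 0) ∈
        C.V ((C.l * (C.l * C.m + C.l * e + C.m * a) + a : ℕ))) ↔
    ∀ t : ℤ, ∀ w ∈ C.V (t + 1), C.op z g R w / C.pl (C.f * U) -
      (if (C.l : ℤ) ∣ t then w else 0) ∈ C.V t := by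
  have hz1 := hz.pow_eq_one
  have hD : C.f * U ≠ 0 := mul_ne_zero C.mon.ne_zero h.mon.ne_zero
  have hD0 : C.pl (C.f * U) ≠ 0 := fun e => hD (pl_inj (e.trans (map_zero _).symm))
  have hdeg : (C.f * U).natDegree = C.l * C.m + C.l * e := by
    rw [C.mon.natDegree_mul h.mon, C.deg, he]
  have a1 : ∀ a < C.l, (∑ t ∈ range C.l, z ^ (t * a) • (C.pl (X ^ (e * t)) * C.y ^ a * R t) -
      (if a = 0 then C.pl (C.f * U) else 0) ∈
        C.V ((C.l * (C.l * C.m + C.l * e + C.m * a) + a : ℕ)) ↔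
      C.op z g R (C.y ^ a) / C.pl (C.f * U) - (if a = 0 then 1 else 0) ∈
        C.V (C.l * (C.m * a) + a)) := by
    intro a _
    have h1 : C.op z g R (C.y ^ a) -
        ∑ t ∈ range C.l, z ^ (t * a) • (C.pl (X ^ (e * t)) * C.y ^ a * R t) ∈
        C.V ((C.l * (C.l * C.m + C.l * e + C.m * a) + a : ℕ)) := by
      rw [← mul_one (C.y ^ a), de_op_y hz1, mul_one, ← sum_sub_distrib]
      refine Submodule.sum_mem _ fun t ht => ?_
      rw [← smul_sub]
      refine Submodule.smul_mem _ _ ?_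
      have h2 := Le_mul (Le_mul (ypow_mem_Le a) (h0 t (mem_range.1 ht)))
        (hN.hp hz h (mem_range.1 ht).le).2
      have h3 : e * t ≤ C.l * C.m + C.l * e :=
        le_trans (by rw [mul_comm]; exact Nat.mul_le_mul_right _ (mem_range.1 ht).le)
          (Nat.le_add_left _ _)
      rw [map_one, mul_one, show C.y ^ a * R t * C.hp z g t - C.pl (X ^ (e * t)) * C.y ^ a * R t =
        C.y ^ a * R t * (C.hp z g t - C.pl (X ^ (e * t))) by ring]
      refine V_mono ?_ h2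
      rw [Nat.cast_sub h3]
      push_cast
      nlinarith [Int.natCast_nonneg a]
    have h4 : C.op z g R (C.y ^ a) / C.pl (C.f * U) - (if a = 0 then 1 else 0) =
        (C.op z g R (C.y ^ a) - (if a = 0 then C.pl (C.f * U) else 0)) / C.pl (C.f * U) := by
      split_ifs
      · rw [sub_div, div_self hD0]
      · rw [sub_zero, sub_zero]
    rw [h4, de_div hD, hdeg, show (C.l : ℤ) * (C.m * a) + a + C.l * (C.l * C.m + C.l * e : ℕ) =
      ((C.l * (C.l * C.m + C.l * e + C.m * a) + a : ℕ) : ℤ) by push_cast; ring]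
    constructor
    · intro h5
      have h6 := Submodule.add_mem _ h1 h5
      rwa [sub_add_sub_cancel] at h6
    · intro h5
      have h6 := Submodule.sub_mem _ h5 h1
      rwa [sub_sub_sub_cancel_left] at h6
  constructor
  · intro h3 t w hw
    have h4 : C.op z g R w / C.pl (C.f * U) - (if (C.l : ℤ) ∣ t then w else 0) =
        ∑ a ∈ range C.l, C.kl (C.co a w) *
          (C.op z g R (C.y ^ a) / C.pl (C.f * U) - (if a = 0 then 1 else 0)) +
        (C.kl (C.co 0 w) * C.y ^ 0 - (if (C.l : ℤ) ∣ t then w else 0)) := by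
      have h5 : C.op z g R w = ∑ a ∈ range C.l, C.kl (C.co a w) * C.op z g R (C.y ^ a) := by
        rw [← de_op_sum, ← co_sum]
      simp only [mul_sub, sum_sub_distrib, mul_ite, mul_one, mul_zero, sum_ite_eq', mem_range,
        C.hl.pos, if_true, pow_zero, h5, sum_div, mul_div_assoc]
      ring
    rw [h4]
    refine Submodule.add_mem _ (Submodule.sum_mem _ fun a ha => ?_) (mem_V.2 fun b hb => ?_)
    · rcases mem_V.1 hw a (mem_range.1 ha) with h5 | h5
      · rw [h5, map_zero, zero_mul]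
        exact Submodule.zero_mem _
      · exact V_mono (by linarith) (V_kl (Or.inr le_rfl)
          ((a1 a (mem_range.1 ha)).1 (h3 a (mem_range.1 ha))))
    · rw [map_sub, co_mono C.hl.pos]
      rcases mem_V.1 hw b hb with h5 | h5
      · left
        split_ifs with h6 h7 h7 <;> simp [← h5, h6]
      split_ifs with h6 h7 h7
      · left
        rw [h6, sub_self]
      · right
        rw [map_zero, sub_zero, ← h6]
        exact de_lt hb h5 fun h8 => h7 (h8.1 h6)
      · right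
        rw [zero_sub, RatFunc.intDegree_neg]
        exact de_lt hb h5 fun h8 => h6 (h8.2 h7)
      · left
        rw [map_zero, sub_zero]
  · intro h3 a ha
    rw [a1 a ha]
    have h4 : C.y ^ a ∈ C.V (C.l * (C.m * a) + a + 1) := by
      have h5 := (kl_y_mem_V (k := 1) (t := C.l * (C.m * a) + a + 1) ha).2
        (Or.inr (by simp))
      rwa [map_one, one_mul] at h5
    have h5 := h3 _ _ h4
    by_cases h6 : a = 0
    · rw [if_pos ⟨0, by simp [h6]⟩] at h5
      rw [if_pos h6]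
      rwa [show (1 : C.L) = C.y ^ a by rw [h6, pow_zero]]
    · rw [if_neg] at h5
      · rwa [if_neg h6]
      · rintro ⟨B, hB⟩
        exact h6 (red_res ha C.hl.pos (B := B) (by simpa using hB))
omit [IsAlgClosed F] in
theorem de_dual (p : C.L →ₗ[RatFunc F] RatFunc F) :
    ∃ φ : C.L, ∀ w, ∀ b < C.l, C.co b (φ * w) = p (w * C.y ^ (C.l - b)) := by
  let ψ : C.L → C.L := fun w => ∑ b ∈ range C.l, C.kl (p (w * C.y ^ (C.l - b))) * C.y ^ b
  have h1 : ∀ w, ψ (C.y * w) = ψ w * C.y := by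
    intro w
    have e1 := sum_range_succ (fun b => C.kl (p (C.y * w * C.y ^ (C.l - b))) * C.y ^ b) C.l
    have e2 := sum_range_succ' (fun b => C.kl (p (C.y * w * C.y ^ (C.l - b))) * C.y ^ b) C.l
    have e3 : C.kl (p (C.y * w * C.y ^ (C.l - C.l))) * C.y ^ C.l =
        C.kl (p (C.y * w * C.y ^ (C.l - 0))) * C.y ^ 0 := by
      rw [Nat.sub_self, Nat.sub_zero, pow_zero, mul_one, mul_one, y_pow, ← kl_alg, ← map_mul,
        mul_comm (C.y * w), ← kl_smul, map_smul, smul_eq_mul, mul_comm]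
    rw [e1, e3, add_left_inj] at e2
    refine e2.trans ?_
    rw [sum_mul]
    refine sum_congr rfl fun b hb => ?_
    rw [pow_succ, mul_assoc (C.kl _), mul_comm C.y w, mul_assoc w, ← pow_succ',
      show C.l - (b + 1) + 1 = C.l - b by have := mem_range.1 hb; omega]
  have h2 : ∀ a, ψ (C.y ^ a) = ψ 1 * C.y ^ a := by
    intro a
    induction a with
    | zero => simp
    | succ a ih => rw [pow_succ', h1, ih, mul_assoc, ← pow_succ, ← pow_succ']
  have h3 : ∀ w, ψ w = ψ 1 * w := by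
    intro w
    have e : ψ w = ∑ a ∈ range C.l, C.kl (C.co a w) * ψ (C.y ^ a) := by
      simp only [ψ, mul_sum]
      rw [sum_comm]
      refine sum_congr rfl fun b _ => ?_
      have e1 : w * C.y ^ (C.l - b) =
          ∑ a ∈ range C.l, C.co a w • (C.y ^ a * C.y ^ (C.l - b)) := by
        simp only [kl_smul, ← mul_assoc]
        rw [← sum_mul, ← co_sum]
      rw [e1, map_sum, map_sum, sum_mul]
      exact sum_congr rfl fun a _ => by rw [map_smul, smul_eq_mul, map_mul, mul_assoc]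
    rw [e]
    simp only [h2, mul_left_comm _ (ψ 1)]
    rw [← mul_sum, ← co_sum]
  refine ⟨ψ 1, fun w b hb => ?_⟩
  rw [← h3, map_sum, sum_eq_single b]
  · rw [co_mono hb, if_pos rfl]
  · intro c hc hcb
    rw [co_mono (mem_range.1 hc), if_neg hcb.symm]
  · intro hc
    exact absurd (mem_range.2 hb) hc

theorem div_exists {z : F} (hz : IsPrimitiveRoot z C.l) {I : C.FI} {U s : F[X]} {e : ℕ}
    (h : C.Nice I U) (he : U.natDegree = C.l * e) (hs : C.f ∣ s ^ C.l - U) {g : C.L} {J : C.FI}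
    (hN : C.Nrm z I U s e g J) : ∃ R, C.Sys z I U s e R := by
  obtain ⟨v, d, p, -, e2, e3, e4⟩ := exists_redb hN.ne
  obtain ⟨φ, hφ⟩ := de_dual (C := C) (p 0)
  have hl := C.hl.pos
  have hD : C.f * U ≠ 0 := mul_ne_zero C.mon.ne_zero h.mon.ne_zero
  have hD0 : C.pl (C.f * U) ≠ 0 := fun e => hD (pl_inj (e.trans (map_zero _).symm))
  have hb := fun t (ht : t < C.l) => bal_near (e := e * t) (hN.hp hz h ht.le).2
  have vJ : v 0 ∈ J := by
    refine (e3 _).2 fun a ha => ?_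
    rw [e2 a ha 0 hl]
    split_ifs
    · exact ⟨1, (map_one _).symm⟩
    · exact ⟨0, (map_zero _).symm⟩
  have vL : v 0 ∈ C.Le (d 0) := by
    refine (e4 _ _).2 fun a ha => ?_
    rw [e2 a ha 0 hl]
    split_ifs with h1
    · rw [h1, RatFunc.intDegree_one, zero_add]
      refine Or.inr ?_
      push_cast
      have : (0 : ℤ) < C.l := by exact_mod_cast hl
      linarith
    · exact Or.inl rfl
  have φL : φ ∈ C.Le (C.l * C.m - d 0) := by
    refine mem_Le.2 fun b hb => ?_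
    have h1 := hφ 1 b hb
    rw [mul_one, one_mul] at h1
    rw [h1]
    refine ((e4 _ _).1 (ypow_mem_Le (C.l - b)) 0 hl).imp_right fun h2 => ?_
    rw [Nat.cast_zero, add_zero, Nat.cast_sub hb.le] at h2
    have h3 := lt_of_mul_lt_mul_left h2 (Int.natCast_nonneg _)
    linarith
  have φO : ∀ w ∈ J, φ * w ∈ (1 : C.FI) := fun w hw => mem_one_iff.2 fun b hb => by
    rw [hφ w b hb]
    exact (e3 _).1 (de_mul' hw (red_ypow _)) 0 hl
  let R : ℕ → C.L := fun t =>
    (C.l : F)⁻¹ • (C.pl U * v 0 * (C.sg (z ^ t)).1 φ * (C.hp z g t)⁻¹)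
  have hR : ∀ t < C.l, ∀ w, R t * C.hp z g t * (C.sg (z ^ t)).1 w =
      (C.l : F)⁻¹ • (C.pl U * v 0 * (C.sg (z ^ t)).1 (φ * w)) := by
    intro t ht w
    simp only [R]
    rw [smul_mul_assoc, smul_mul_assoc, inv_mul_cancel_right₀ (hb t ht).1.1, map_mul,
      mul_assoc (C.pl U * v 0)]
  have hop : ∀ w, C.op z g R w = C.pl (C.f * U) * (C.kl (p 0 w) * v 0) := by
    intro w
    have h1 := co_avg hz hl (φ * w)
    simp only [mul_zero, pow_zero, one_smul, mul_one] at h1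
    rw [hφ w 0 hl, Nat.sub_zero, y_pow, ← kl_alg, mul_comm w, ← kl_smul, map_smul, smul_eq_mul,
      map_mul, kl_alg] at h1
    rw [op, sum_congr rfl fun t ht => hR t (mem_range.1 ht) w, ← smul_sum, ← mul_sum,
      ← mul_smul_comm, ← h1, map_mul]
    ring
  have mem : ∀ t < C.l, R t ∈ C.Ip z I t := by
    intro t ht
    have h1 : C.sp (C.hp z g t) * C.act (C.sg (z ^ t)) J ≠ 0 :=
      mul_ne_zero (sp_ne (hb t ht).1.1) ((map_ne_zero_iff _ (RingEquiv.injective _)).2 hN.ne)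
    refine sp_le.1 (de_cancel h1 fun x hx => ?_)
    rw [(hN.hp hz h ht.le).1]
    obtain ⟨x1, hx1, rfl⟩ := mem_sp_mul.1 hx
    obtain ⟨x2, hx2, rfl⟩ := mem_sp_mul.1 hx1
    obtain ⟨w, rfl⟩ := (C.sg (z ^ t)).1.surjective x2
    rw [← mul_assoc, hR t ht, mul_assoc]
    exact smul_mem _ (mem_sp_mul.2 ⟨_, de_mul' vJ
      ((G_mem_one _).2 (φO w ((mem_act _ _ _).1 hx2))), rfl⟩)
  have e0 : ∀ t < C.l, R t ∈ C.Le ((C.l * C.m + C.l * e - e * t : ℕ)) := by
    intro t ht
    have h1 := Le_mul (Le_mul (Le_mul (pl_mem_Le (C := C) he.le) vL) ((G_Le (C.sg (z ^ t))).2 φL))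
      (hb t ht).2.2
    have h3 : e * t ≤ C.l * C.m + C.l * e :=
      le_trans (by rw [mul_comm]; exact Nat.mul_le_mul_right _ ht.le) (Nat.le_add_left _ _)
    refine Submodule.smul_mem _ _ (Le_mono (le_of_eq ?_) h1)
    rw [Nat.cast_sub h3]
    push_cast
    ring
  have hp : ∀ w, ∀ b < C.l, p b (C.kl (p 0 w) * v 0) = if b = 0 then p 0 w else 0 := by
    intro w b hb
    rw [← kl_smul, map_smul, e2 b hb 0 hl, smul_eq_mul, mul_ite, mul_one, mul_zero]
  refine ⟨R, mem, e0, (hN.e3_iff hz h he e0).2 fun t w hw => ?_,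
    (hN.e2_iff hz h hs mem).2 fun w hw => ?_⟩
  · rw [hop, mul_div_cancel_left₀ _ hD0]
    refine (e4 _ _).2 fun b hb => ?_
    rw [map_sub, hp w b hb]
    rcases (e4 _ _).1 hw b hb with h5 | h5
    · left
      split_ifs with h6 h7 h7 <;> simp [← h5, h6]
    split_ifs with h6 h7 h7
    · left
      rw [h6, sub_self]
    · right
      rw [map_zero, sub_zero, ← h6]
      exact de_lt hb h5 fun h8 => h7 (h8.1 h6)
    · right
      rw [zero_sub, RatFunc.intDegree_neg]
      exact de_lt hb h5 fun h8 => h6 (h8.2 h7)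
    · left
      rw [map_zero, sub_zero]
  · rw [hop]
    obtain ⟨q, hq⟩ := (e3 w).1 hw 0 hl
    rw [hq, kl_alg]
    exact mem_sp_mul.2 ⟨_, mul_mem (pl_mem_one q) vJ, rfl⟩

end Vale.Agent.P319.A.Crv
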