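import Vale.Agent.P319.A.Int

/-! The filtration at infinity and balanced elements. -/

namespace Vale.Agent.P319.A.Crv

open Polynomial Finset

variable {F : Type} [Field F] [IsAlgClosed F] {C : Crv F}

/-- zero or of degree at most `d` -/
def Dg (k : RatFunc F) (d : ℤ) : Prop := k = 0 ∨ k.intDegree ≤ d

omit [IsAlgClosed F] in
theorem Dg.add {a b : RatFunc F} {d : ℤ} (ha : Dg a d) (hb : Dg b d) : Dg (a + b) d := by
  rcases eq_or_ne a 0 with rfl | h1
  · rwa [zero_add]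
  rcases eq_or_ne b 0 with rfl | h2
  · rwa [add_zero]
  rcases eq_or_ne (a + b) 0 with h | h
  · exact .inl h
  exact .inr ((RatFunc.intDegree_add_le h2 h).trans (max_le (ha.resolve_left h1) (hb.resolve_left h2)))

omit [IsAlgClosed F] in
theorem Dg.mul {a b : RatFunc F} {d e : ℤ} (ha : Dg a d) (hb : Dg b e) : Dg (a * b) (d + e) := by
  rcases eq_or_ne a 0 with rfl | h1
  · exact .inl (zero_mul _)
  rcases eq_or_ne b 0 with rfl | h2
  · exact .inl (mul_zero _)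
  exact .inr ((RatFunc.intDegree_mul h1 h2).trans_le
    (add_le_add (ha.resolve_left h1) (hb.resolve_left h2)))

omit [IsAlgClosed F] in
theorem Dg.neg {a : RatFunc F} {d : ℤ} (ha : Dg a d) : Dg (-a) d :=
  ha.imp neg_eq_zero.2 fun h => by rwa [RatFunc.intDegree_neg]

omit [IsAlgClosed F] in
theorem Dg.sub {a b : RatFunc F} {d : ℤ} (ha : Dg a d) (hb : Dg b d) : Dg (a - b) d := by
  rw [sub_eq_add_neg]
  exact ha.add hb.neg

omit [IsAlgClosed F] in
theorem Dg.smul {a : RatFunc F} {d : ℤ} (ha : Dg a d) (c : F) : Dg (c • a) d := by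
  rw [RatFunc.smul_eq_C_mul]
  simpa using Dg.mul (d := 0) (.inr (RatFunc.intDegree_C c).le) ha

omit [IsAlgClosed F] in
theorem filt_step {p q : RatFunc F} (hq : q ≠ 0) (h : Dg p q.intDegree) :
    ∃ c : F, Dg (p - c • q) (q.intDegree - 1) := by
  obtain ⟨r, hr⟩ : ∃ r, r = p / q := ⟨_, rfl⟩
  have h0 : Dg r 0 := by
    have := h.mul (b := q⁻¹) (.inr (RatFunc.intDegree_inv q).le)
    rwa [add_neg_cancel, ← div_eq_mul_inv, ← hr] at this
  suffices h : ∃ c : F, Dg (r - RatFunc.C c) (-1) by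
    obtain ⟨c, hc⟩ := h
    refine ⟨c, ?_⟩
    have := hc.mul (b := q) (.inr le_rfl)
    rwa [sub_mul, hr, div_mul_cancel₀ _ hq, ← RatFunc.smul_eq_C_mul, neg_add_eq_sub] at this
  rcases h0 with h0 | h0
  · exact ⟨0, .inl (by simp [h0])⟩
  obtain ⟨g, hg⟩ : ∃ g, g = r.num - Polynomial.C (r.num.coeff r.denom.natDegree) * r.denom :=
    ⟨_, rfl⟩
  have hd : algebraMap F[X] (RatFunc F) r.denom ≠ 0 := RatFunc.algebraMap_ne_zero r.denom_ne_zero
  have e : r - RatFunc.C (r.num.coeff r.denom.natDegree) =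
      algebraMap F[X] (RatFunc F) g / algebraMap F[X] (RatFunc F) r.denom := by
    rw [hg, map_sub, map_mul, sub_div, RatFunc.num_div_denom, mul_div_cancel_right₀ _ hd,
      RatFunc.algebraMap_C]
  refine ⟨r.num.coeff r.denom.natDegree, ?_⟩
  rw [e]
  rcases eq_or_ne g 0 with h1 | h1
  · exact .inl (by simp [h1])
  have h2 : g.degree < r.denom.natDegree := by
    refine (degree_lt_iff_coeff_zero _ _).2 fun m hm => ?_
    rw [hg, coeff_sub, coeff_C_mul]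
    rcases hm.eq_or_lt with rfl | hm
    · rw [r.monic_denom.coeff_natDegree, mul_one, sub_self]
    · rw [RatFunc.intDegree] at h0
      rw [coeff_eq_zero_of_natDegree_lt hm, coeff_eq_zero_of_natDegree_lt (by omega), mul_zero,
        sub_self]
  have h3 := (natDegree_lt_iff_degree_lt h1).2 h2
  right
  rw [RatFunc.intDegree_div (RatFunc.algebraMap_ne_zero h1) hd, RatFunc.intDegree_polynomial,
    RatFunc.intDegree_polynomial]
  omega

omit [IsAlgClosed F] in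
theorem filt_near {a b : RatFunc F} (hb : b ≠ 0) (h : Dg (a - b) (b.intDegree - 1)) :
    a ≠ 0 ∧ a.intDegree = b.intDegree := by
  have h1 : ¬ Dg a (b.intDegree - 1) := fun h1 => by
    have := h1.sub h
    rw [sub_sub_cancel] at this
    have := this.resolve_left hb
    omega
  have h2 : Dg a b.intDegree := by
    have := Dg.add (h.imp_right fun h' => h'.trans (by omega)) (.inr le_rfl : Dg b b.intDegree)
    rwa [sub_add_cancel] at this
  rw [Dg, not_or] at h1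
  have := h2.resolve_left h1.1
  exact ⟨h1.1, by omega⟩

theorem V_mono {s t : ℤ} (h : s ≤ t) : C.V s ≤ C.V t := fun _ hz => mem_V.2 fun b hb =>
  (mem_V.1 hz b hb).imp_right fun h' => h'.trans_le h

theorem Le_mono {s t : ℤ} (h : s ≤ t) : C.Le s ≤ C.Le t := V_mono (mul_le_mul_of_nonneg_left (by omega) (by positivity))

theorem mem_Le {k : ℤ} {z : C.L} :
    z ∈ C.Le k ↔ ∀ b < C.l, C.co b z = 0 ∨ (C.co b z).intDegree + C.m * b ≤ k := by
  refine mem_V.trans (forall₂_congr fun b hb => or_congr_right ?_)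
  have h1 : (b : ℤ) < C.l := by exact_mod_cast hb
  have h2 : (0 : ℤ) ≤ b := by positivity
  constructor
  · intro h
    by_contra h'
    nlinarith [mul_le_mul_of_nonneg_left (show k + 1 ≤ _ from not_le.1 h') (h2.trans h1.le)]
  · intro h
    nlinarith [mul_le_mul_of_nonneg_left h (h2.trans h1.le)]

theorem V_kl {k : RatFunc F} {d t : ℤ} (hk : k = 0 ∨ k.intDegree ≤ d) {z : C.L} (hz : z ∈ C.V t) :
    C.kl k * z ∈ C.V (t + C.l * d) := by
  refine mem_V.2 fun b hb => ?_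
  rw [co_kl]
  rcases eq_or_ne k 0 with rfl | h1
  · exact .inl (zero_mul _)
  rcases eq_or_ne (C.co b z) 0 with h2 | h2
  · exact .inl (by rw [h2, mul_zero])
  have h3 := (mem_V.1 hz b hb).resolve_left h2
  right
  rw [RatFunc.intDegree_mul h1 h2]
  nlinarith [mul_le_mul_of_nonneg_left (hk.resolve_left h1) (Int.natCast_nonneg C.l)]

theorem V_pl {g : F[X]} {d : ℕ} (hg : g.natDegree ≤ d) {t : ℤ} {z : C.L} (hz : z ∈ C.V t) :
    C.pl g * z ∈ C.V (t + C.l * d) := by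
  rw [← kl_alg]
  exact V_kl (.inr (by rw [RatFunc.intDegree_polynomial]; exact_mod_cast hg)) hz

theorem kl_y_mem_V {b : ℕ} (hb : b < C.l) {k : RatFunc F} {t : ℤ} :
    C.kl k * C.y ^ b ∈ C.V t ↔ k = 0 ∨ C.l * (k.intDegree + C.m * b) + b < t := by
  rw [mem_V]
  refine ⟨fun h => by simpa [co_mono hb] using h b hb, fun h c _ => ?_⟩
  rw [co_mono hb]
  split_ifs with e
  · rwa [e]
  · exact .inl rfl

theorem filt_mono_iff {b : ℕ} (hb : b < C.l) {k : RatFunc F} {d : ℤ} :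
    C.kl k * C.y ^ b ∈ C.Le d ↔ Dg k (d - C.m * b) := by
  rw [mem_Le]
  refine ⟨fun h => (by simpa [co_mono hb] using h b hb : _ ∨ _).imp_right fun h => by omega,
    fun h c _ => ?_⟩
  rw [co_mono hb]
  split_ifs with e
  · exact h.imp_right fun h => by rw [e]; omega
  · exact .inl rfl

theorem filt_kl {k : RatFunc F} {d : ℤ} : C.kl k ∈ C.Le d ↔ Dg k d := by
  simpa using filt_mono_iff (k := k) (d := d) C.hl.pos

theorem filt_mono {k : RatFunc F} {d : ℤ} (hk : Dg k d) (n : ℕ) :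
    C.kl k * C.y ^ n ∈ C.Le (d + C.m * n) := by
  have e : C.y ^ n = C.kl (algebraMap F[X] (RatFunc F) (C.f ^ (n / C.l))) * C.y ^ (n % C.l) := by
    rw [kl_alg, map_pow, ← y_pow, ← pow_mul, ← pow_add, Nat.div_add_mod]
  rw [e, ← mul_assoc, ← map_mul, filt_mono_iff (Nat.mod_lt _ C.hl.pos)]
  convert hk.mul (.inr le_rfl) using 1
  rw [RatFunc.intDegree_polynomial, natDegree_pow, C.deg]
  have : (n : ℤ) = C.l * (n / C.l : ℕ) + (n % C.l : ℕ) := by exact_mod_cast (Nat.div_add_mod n C.l).symm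
  rw [Nat.cast_mul, Nat.cast_mul]
  linear_combination (C.m : ℤ) * this

theorem Le_mul {i j : ℤ} {a b : C.L} (ha : a ∈ C.Le i) (hb : b ∈ C.Le j) :
    a * b ∈ C.Le (i + j) := by
  rw [co_sum a, co_sum b, sum_mul_sum]
  refine Submodule.sum_mem _ fun s hs => Submodule.sum_mem _ fun t ht => ?_
  rw [mul_mul_mul_comm, ← map_mul, ← pow_add]
  have h1 : Dg (C.co s a) (i - C.m * s) :=
    (mem_Le.1 ha s (mem_range.1 hs)).imp_right fun h => by omega
  have h2 : Dg (C.co t b) (j - C.m * t) :=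
    (mem_Le.1 hb t (mem_range.1 ht)).imp_right fun h => by omega
  convert filt_mono (h1.mul h2) (s + t) using 2
  push_cast
  ring

theorem Le_prod {ι : Type} {s : Finset ι} {g : ι → C.L} {k : ι → ℤ} (h : ∀ i ∈ s, g i ∈ C.Le (k i)) :
    ∏ i ∈ s, g i ∈ C.Le (∑ i ∈ s, k i) := by
  classical
  induction s using Finset.induction_on with
  | empty => simpa using filt_kl.2 (.inr RatFunc.intDegree_one.le : Dg (1 : RatFunc F) 0)
  | insert a s ha ih =>
    rw [prod_insert ha, sum_insert ha]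
    exact Le_mul (h a (mem_insert_self _ _)) (ih fun i hi => h i (mem_insert_of_mem hi))

theorem one_mem_Le : (1 : C.L) ∈ C.Le 0 := by
  simpa using filt_kl.2 (.inr RatFunc.intDegree_one.le : Dg (1 : RatFunc F) 0)

theorem one_not_mem_Le : (1 : C.L) ∉ C.Le (-1) := fun h => by
  rw [← map_one C.kl, filt_kl] at h
  simpa using h.resolve_left one_ne_zero

theorem pl_mem_Le {g : F[X]} {d : ℕ} (hg : g.natDegree ≤ d) : C.pl g ∈ C.Le d := by
  rw [← kl_alg, filt_kl]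
  exact .inr (by rw [RatFunc.intDegree_polynomial]; exact_mod_cast hg)

theorem ypow_mem_Le (a : ℕ) : C.y ^ a ∈ C.Le (C.m * a) := by
  simpa using filt_mono (C := C) (.inr RatFunc.intDegree_one.le : Dg (1 : RatFunc F) 0) a

theorem ypow_inv_mem_Le (a : ℕ) : (C.y ^ a)⁻¹ ∈ C.Le (-(C.m * a)) := by
  obtain ⟨n, hn⟩ : ∃ n, C.l = n + 1 := ⟨C.l - 1, by have := C.hl.pos; omega⟩
  have e : (C.y ^ a)⁻¹ = C.kl (algebraMap F[X] (RatFunc F) (C.f ^ a))⁻¹ * C.y ^ (n * a) := by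
    have := C.y_ne
    rw [map_inv₀, kl_alg, map_pow, ← y_pow, ← pow_mul, hn, add_mul, pow_add, one_mul]
    field_simp
  rw [e]
  convert filt_mono (C := C) (.inr le_rfl) (n * a) using 2
  rw [RatFunc.intDegree_inv, RatFunc.intDegree_polynomial, natDegree_pow, C.deg, hn]
  push_cast
  ring

theorem xpow_inv_mem_Le (a : ℕ) : (C.pl (X ^ a))⁻¹ ∈ C.Le (-a) := by
  rw [← kl_alg, ← map_inv₀, filt_kl]
  exact .inr (by rw [RatFunc.intDegree_inv, RatFunc.intDegree_polynomial, natDegree_X_pow])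

theorem G_Le (t : C.G) {k : ℤ} {z : C.L} : t.1 z ∈ C.Le k ↔ z ∈ C.Le k := t.2.2 _ _

theorem filt_max {z : C.L} (h : z ≠ 0) (w : ℕ → ℤ) :
    ∃ b < C.l, C.co b z ≠ 0 ∧ ∀ c < C.l, C.co c z = 0 ∨ w c ≤ w b := by
  classical
  have hne : ((range C.l).filter fun b => C.co b z ≠ 0).Nonempty := by
    by_contra hn
    refine h (ext_co fun b hb => ?_)
    by_contra hb'
    exact hn ⟨b, mem_filter.2 ⟨mem_range.2 hb, by simpa using hb'⟩⟩
  obtain ⟨b, hb, hm⟩ := exists_max_image _ w hne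
  rw [mem_filter, mem_range] at hb
  exact ⟨b, hb.1, hb.2, fun c hc => or_iff_not_imp_left.2 fun h0 =>
    hm c (mem_filter.2 ⟨mem_range.2 hc, h0⟩)⟩

theorem exists_min {z : C.L} (h : z ≠ 0) : ∃ t : ℤ, z ∈ C.V (t + 1) ∧ z ∉ C.V t := by
  obtain ⟨b, hb, h0, hm⟩ := filt_max h fun b => C.l * ((C.co b z).intDegree + C.m * b) + b
  refine ⟨_, mem_V.2 fun c hc => (hm c hc).imp_right Int.lt_add_one_iff.2, fun h => ?_⟩
  exact lt_irrefl _ ((mem_V.1 h b hb).resolve_left h0)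

theorem exists_minLe {z : C.L} (h : z ≠ 0) : ∃ k : ℤ, z ∈ C.Le k ∧ z ∉ C.Le (k - 1) := by
  obtain ⟨b, hb, h0, hm⟩ := filt_max h fun b => (C.co b z).intDegree + C.m * b
  refine ⟨_, mem_Le.2 hm, fun h => ?_⟩
  have := (mem_Le.1 h b hb).resolve_left h0
  omega

theorem V_step {t : ℤ} {a b : C.L} (ha : a ∈ C.V (t + 1)) (hb : b ∈ C.V (t + 1))
    (hb' : b ∉ C.V t) : ∃ c : F, a - c • b ∈ C.V t := by
  have key : ∀ {i : ℕ} {x : C.L} {s d : ℤ}, i < C.l → x ∈ C.V s → s ≤ C.l * (d + 1 + C.m * i) + i →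
      Dg (C.co i x) d := fun {i x s d} hi hx hs => (mem_V.1 hx i hi).imp_right fun h => by
    by_contra h'
    nlinarith [mul_le_mul_of_nonneg_left (show d + 1 ≤ _ from not_le.1 h') (Int.natCast_nonneg C.l)]
  rw [mem_V] at hb'
  push Not at hb'
  obtain ⟨j, hj, h0, h1⟩ := hb'
  have h2 := (mem_V.1 hb j hj).resolve_left h0
  have hl : (0 : ℤ) < C.l := by exact_mod_cast C.hl.pos
  obtain ⟨c, hc⟩ := filt_step h0 (key hj ha (by nlinarith))
  refine ⟨c, mem_V.2 fun i hi => ?_⟩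
  rw [map_sub, co_smul]
  rcases eq_or_ne i j with rfl | hij
  · exact hc.imp_right fun h => by nlinarith [mul_le_mul_of_nonneg_left h hl.le]
  have hi' : (i : ℤ) < C.l := by exact_mod_cast hi
  have hj' : (j : ℤ) < C.l := by exact_mod_cast hj
  obtain ⟨D, hD⟩ : ∃ D, D = (C.co j b).intDegree + C.m * j := ⟨_, rfl⟩
  rw [← hD] at h1 h2
  rcases hij.lt_or_gt with h | h
  · have h3 : t + 1 ≤ C.l * (D - C.m * i + 1 + C.m * i) + i := by nlinarith
    exact ((key hi ha h3).sub ((key hi hb h3).smul c)).imp_right fun h' => by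
      have : (i : ℤ) < j := by exact_mod_cast h
      nlinarith [mul_le_mul_of_nonneg_left h' hl.le]
  · have : (j : ℤ) < i := by exact_mod_cast h
    have h3 : t + 1 ≤ C.l * (D - 1 - C.m * i + 1 + C.m * i) + i := by nlinarith
    exact ((key hi ha h3).sub ((key hi hb h3).smul c)).imp_right fun h' => by
      nlinarith [mul_le_mul_of_nonneg_left h' hl.le]

theorem int_V_zero {z : C.L} (h : z ∈ (1 : C.FI)) (h0 : z ∈ C.V 0) : z = 0 := ext_co fun b hb => by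
  obtain ⟨g, hg⟩ := mem_one_iff.1 h b hb
  rw [map_zero]
  refine (mem_V.1 h0 b hb).resolve_right (not_lt.2 ?_)
  rw [hg, RatFunc.intDegree_polynomial]
  positivity

theorem int_Le_zero {z : C.L} (h : z ∈ (1 : C.FI)) (h0 : z ∈ C.Le 0) : ∃ c : F, z = c • 1 := by
  obtain ⟨g, hg⟩ := mem_one_iff.1 h 0 C.hl.pos
  have h1 : g.natDegree = 0 := by
    rcases mem_Le.1 h0 0 C.hl.pos with h1 | h1
    · rw [hg, map_eq_zero_iff _ (IsFractionRing.injective _ _)] at h1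
      rw [h1, natDegree_zero]
    · rw [hg, RatFunc.intDegree_polynomial] at h1
      omega
  refine ⟨g.coeff 0, ext_co fun b hb => ?_⟩
  rw [← pl_C, ← kl_alg, ← pow_zero C.y, co_mono C.hl.pos, ← eq_C_of_natDegree_eq_zero h1]
  split_ifs with e
  · rw [e, hg]
  obtain ⟨g', hg'⟩ := mem_one_iff.1 h b hb
  refine (mem_Le.1 h0 b hb).resolve_right (not_le.2 ?_)
  have := C.hm
  have := Nat.pos_of_ne_zero e
  rw [hg', RatFunc.intDegree_polynomial]
  positivity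

theorem Bal.mul {a b : C.L} (ha : C.Bal a) (hb : C.Bal b) : C.Bal (a * b) := by
  obtain ⟨h0, i, h1, h2⟩ := ha
  obtain ⟨h0', j, h1', h2'⟩ := hb
  refine ⟨mul_ne_zero h0 h0', i + j, Le_mul h1 h1', ?_⟩
  rw [mul_inv, neg_add]
  exact Le_mul h2 h2'

theorem Bal.inv {a : C.L} (ha : C.Bal a) : C.Bal a⁻¹ := by
  obtain ⟨h0, i, h1, h2⟩ := ha
  exact ⟨inv_ne_zero h0, -i, h2, by rwa [inv_inv, neg_neg]⟩

theorem Bal.G {a : C.L} (ha : C.Bal a) (t : C.G) : C.Bal (t.1 a) := by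
  obtain ⟨h0, i, h1, h2⟩ := ha
  exact ⟨by simpa using h0, i, (G_Le t).2 h1, by rw [← map_inv₀]; exact (G_Le t).2 h2⟩

theorem Bal.smul {a : C.L} (ha : C.Bal a) {c : F} (hc : c ≠ 0) : C.Bal (c • a) := by
  obtain ⟨h0, i, h1, h2⟩ := ha
  exact ⟨smul_ne_zero hc h0, i, Submodule.smul_mem _ _ h1,
    by rw [smul_inv₀]; exact Submodule.smul_mem _ _ h2⟩

theorem bal_kl {k : RatFunc F} (h : k ≠ 0) : C.Bal (C.kl k) := ⟨by simpa using h, k.intDegree, filt_kl.2 (.inr le_rfl),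
    by rw [← map_inv₀]; exact filt_kl.2 (.inr (RatFunc.intDegree_inv k).le)⟩

theorem bal_pl {g : F[X]} (h : g ≠ 0) : C.Bal (C.pl g) := by
  rw [← kl_alg]
  exact bal_kl (RatFunc.algebraMap_ne_zero h)

theorem bal_y : C.Bal C.y := ⟨y_ne, C.m * (1 : ℕ), by simpa using ypow_mem_Le (C := C) 1,
    by simpa using ypow_inv_mem_Le (C := C) 1⟩

theorem inv_of_nrm {z : C.L} {k : ℤ} {r : RatFunc F} (hz : z ∈ C.Le k) (hn : C.nrm z = C.kl r)
    (h0 : r ≠ 0) (hd : r.intDegree = C.l * k) : z⁻¹ ∈ C.Le (-k) := by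
  obtain ⟨u, hu⟩ := exists_prim (C := C)
  obtain ⟨n, hn'⟩ : ∃ n, C.l = n + 1 := ⟨C.l - 1, by have := C.hl.pos; omega⟩
  have h1 := nrm_eq hu z
  rw [show range C.l = range (n + 1) by rw [hn'], prod_range_succ', pow_zero, sg_one, hn] at h1
  have h2 := Le_prod (s := range n) (k := fun _ => k) fun t _ => (G_Le (C.sg (u ^ (t + 1)))).2 hz
  have h3 : C.kl r ≠ 0 := by simpa using h0
  have h4 : z⁻¹ = C.kl r⁻¹ * ∏ t ∈ range n, (C.sg (u ^ (t + 1))).1 z := by
    have hz0 : z ≠ 0 := by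
      rintro rfl
      exact h3 (by simpa using h1)
    have h5 : C.kl r = (∏ t ∈ range n, (C.sg (u ^ (t + 1))).1 z) * z := h1
    rw [map_inv₀, eq_inv_mul_iff_mul_eq₀ h3, h5, mul_inv_cancel_right₀ hz0]
  rw [h4]
  convert Le_mul (filt_kl.2 (.inr (RatFunc.intDegree_inv r).le)) h2 using 2
  rw [hd, hn']
  simp
  ring

theorem filt_nrm {z : C.L} {k : ℤ} (hz : z ∈ C.Le k) : C.nrm z ∈ C.Le (C.l * k) := by
  obtain ⟨u, hu⟩ := exists_prim (C := C)
  rw [nrm_eq hu]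
  simpa using Le_prod (s := range C.l) (k := fun _ => k) fun t _ => (G_Le (C.sg (u ^ t))).2 hz

omit [IsAlgClosed F] in
theorem filt_nrm_inv (z : C.L) : C.nrm z⁻¹ = (C.nrm z)⁻¹ := by
  simp only [nrm, map_inv₀, prod_inv_distrib]

theorem Bal.deg {z : C.L} {r : RatFunc F} (hz : C.Bal z) (hn : C.nrm z = C.kl r) :
    ∃ k : ℤ, z ∈ C.Le k ∧ z⁻¹ ∈ C.Le (-k) ∧ r.intDegree = C.l * k := by
  obtain ⟨h0, k, h1, h2⟩ := hz
  have hr : r ≠ 0 := by
    rintro rfl
    exact nrm_ne h0 (by simpa using hn)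
  have h3 := filt_nrm h1
  have h4 := filt_nrm h2
  rw [filt_nrm_inv, hn, ← map_inv₀, filt_kl] at h4
  rw [hn, filt_kl] at h3
  have h5 := h4.resolve_left (inv_ne_zero hr)
  rw [RatFunc.intDegree_inv, mul_neg] at h5
  exact ⟨k, h1, h2, le_antisymm (h3.resolve_left hr) (by omega)⟩

theorem filt_of_sub {a b : C.L} {k : ℤ} (h : a - b ∈ C.Le (k - 1)) (hb : b ∈ C.Le k) :
    a ∈ C.Le k := by
  simpa using Submodule.add_mem _ (Le_mono (by omega) h) hb

theorem filt_prod_sub {s : Finset ℕ} {g g' : ℕ → C.L} {k : ℤ} (h : ∀ i ∈ s, g i ∈ C.Le k)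
    (h' : ∀ i ∈ s, g' i ∈ C.Le k) (hs : ∀ i ∈ s, g i - g' i ∈ C.Le (k - 1)) :
    ∏ i ∈ s, g i - ∏ i ∈ s, g' i ∈ C.Le (s.card * k - 1) := by
  induction s using Finset.induction_on with
  | empty => simp
  | insert a s ha ih =>
    have h1 := Le_mul (h a (mem_insert_self _ _)) (ih (fun i hi => h i (mem_insert_of_mem hi))
      (fun i hi => h' i (mem_insert_of_mem hi)) fun i hi => hs i (mem_insert_of_mem hi))
    have h2 := Le_mul (hs a (mem_insert_self _ _))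
      (Le_prod (k := fun _ => k) fun i hi => h' i (mem_insert_of_mem hi))
    rw [sum_const, nsmul_eq_mul, show k - 1 + s.card * k = k + (s.card * k - 1) by ring] at h2
    rw [prod_insert ha, prod_insert ha, card_insert_of_notMem ha]
    convert Submodule.add_mem _ h1 h2 using 1
    · push_cast
      ring_nf
    · ring

theorem filt_nrm_sub {a b : C.L} {k : ℤ} (ha : a ∈ C.Le k) (hb : b ∈ C.Le k)
    (h : a - b ∈ C.Le (k - 1)) : C.nrm a - C.nrm b ∈ C.Le (C.l * k - 1) := by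
  obtain ⟨u, hu⟩ := exists_prim (C := C)
  rw [nrm_eq hu, nrm_eq hu]
  simpa using filt_prod_sub (s := range C.l) (fun t _ => (G_Le (C.sg (u ^ t))).2 ha)
    (fun t _ => (G_Le (C.sg (u ^ t))).2 hb) fun t _ => by
      rw [← map_sub]
      exact (G_Le _).2 h

theorem filt_core {h : C.L} {t : ℕ} {c : F} (hc : c ≠ 0) (h1 : h ∈ C.Le t)
    (h2 : C.nrm h - C.pl (Polynomial.C c * X ^ (C.l * t)) ∈ C.Le (C.l * t - 1)) :
    C.Bal h ∧ h⁻¹ ∈ C.Le (-t) := by
  obtain ⟨r, hr⟩ := exists_nrm_kl h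
  have hd : (algebraMap F[X] (RatFunc F) (Polynomial.C c * X ^ (C.l * t))).intDegree = C.l * t := by
    rw [RatFunc.intDegree_polynomial, natDegree_C_mul_X_pow _ _ hc, Nat.cast_mul]
  rw [hr, ← kl_alg, ← map_sub, filt_kl, ← hd] at h2
  obtain ⟨h3, h4⟩ := filt_near (RatFunc.algebraMap_ne_zero (by simp [hc])) h2
  have h5 := inv_of_nrm h1 hr h3 (h4.trans hd)
  refine ⟨⟨?_, t, h1, h5⟩, h5⟩
  rintro rfl
  have h6 := nrm_kl (C := C) 0
  rw [zero_pow C.hl.ne_zero, map_zero, hr] at h6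
  exact h3 (by simpa using h6)

theorem filt_monic {h : C.L} {n : ℕ} {c : F} (hc : c ≠ 0) (h1 : h ∈ (1 : C.FI))
    (h2 : C.nrm h - C.pl (Polynomial.C c * X ^ n) ∈ C.Le (n - 1)) :
    ∃ D : F[X], D.Monic ∧ D.natDegree = n ∧ C.nrm h = C.pl (Polynomial.C c * D) := by
  obtain ⟨g, hg⟩ := exists_nrm_pl h1
  rw [hg, ← map_sub, ← kl_alg, filt_kl] at h2
  have h3 : (Polynomial.C c⁻¹ * (g - Polynomial.C c * X ^ n)).degree < (X ^ n : F[X]).degree := by
    rw [degree_C_mul (inv_ne_zero hc), degree_X_pow]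
    rcases eq_or_ne (g - Polynomial.C c * X ^ n) 0 with h | h
    · rw [h, degree_zero]
      exact WithBot.bot_lt_coe _
    have := h2.resolve_left (RatFunc.algebraMap_ne_zero h)
    rw [RatFunc.intDegree_polynomial] at this
    exact (natDegree_lt_iff_degree_lt h).1 (by omega)
  refine ⟨_, (monic_X_pow n).add_of_left h3, ?_, ?_⟩
  · rw [natDegree_add_eq_left_of_degree_lt h3, natDegree_X_pow]
  · rw [hg, mul_add, ← mul_assoc, ← C_mul, mul_inv_cancel₀ hc, C_1, one_mul, add_sub_cancel]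

theorem bal_near {h : C.L} {e : ℕ} (hh : h - C.pl (X ^ e) ∈ C.Le (e - 1)) :
    C.Bal h ∧ h ∈ C.Le e ∧ h⁻¹ ∈ C.Le (-e) := by
  have hx : C.pl (X ^ e) ∈ C.Le e := pl_mem_Le (natDegree_X_pow e).le
  have h1 : h ∈ C.Le e := filt_of_sub hh hx
  have h2 := filt_nrm_sub h1 hx hh
  rw [nrm_pl, ← pow_mul, mul_comm e, ← one_mul (X ^ _), ← C_1] at h2
  exact ⟨(filt_core one_ne_zero h1 h2).1, h1, (filt_core one_ne_zero h1 h2).2⟩

theorem nrm_near {h : C.L} {e : ℕ} (h1 : h ∈ (1 : C.FI)) (hh : h - C.pl (X ^ e) ∈ C.Le (e - 1)) :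
    ∃ D : F[X], D.Monic ∧ D.natDegree = C.l * e ∧ C.nrm h = C.pl D := by
  have hx : C.pl (X ^ e) ∈ C.Le e := pl_mem_Le (natDegree_X_pow e).le
  have h2 := filt_nrm_sub (filt_of_sub hh hx) hx hh
  rw [nrm_pl, ← pow_mul, mul_comm e, ← one_mul (X ^ _), ← C_1, ← Nat.cast_mul] at h2
  simpa using filt_monic one_ne_zero h1 h2

/-- `y / x^m` -/
noncomputable def eta (C : Crv F) : C.L := C.y * (C.pl (X ^ C.m))⁻¹

theorem filt_pl_ne {g : F[X]} (h : g ≠ 0) : C.pl g ≠ 0 := (bal_pl h).1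

theorem filt_pow {a : C.L} (h : a ∈ C.Le 0) (b : ℕ) : a ^ b ∈ C.Le 0 := by
  simpa using Le_prod (s := range b) (k := fun _ => 0) fun _ _ => h

theorem filt_eta : C.eta ∈ C.Le 0 := by
  simpa [eta] using Le_mul (ypow_mem_Le (C := C) 1) (xpow_inv_mem_Le C.m)

theorem filt_eta_inv : C.eta⁻¹ ∈ C.Le 0 := by
  simpa [eta, mul_comm] using Le_mul (ypow_inv_mem_Le (C := C) 1) (pl_mem_Le (natDegree_X_pow C.m).le)

theorem filt_eta_ne : C.eta ≠ 0 := mul_ne_zero y_ne (inv_ne_zero (filt_pl_ne (by simp)))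

theorem filt_sg_eta {u : F} (hu : u ^ C.l = 1) (b : ℕ) :
    (C.sg u).1 (C.eta ^ b) = u ^ b • C.eta ^ b := by
  rw [map_pow, eta, map_mul, map_inv₀, sg_y hu, sg_pl, smul_mul_assoc, _root_.smul_pow]

theorem filt_monic_sub {U : F[X]} (hU : U.Monic) :
    C.pl U * (C.pl (X ^ U.natDegree))⁻¹ - 1 ∈ C.Le (-1) := by
  have h1 : C.pl (U - X ^ U.natDegree) ∈ C.Le (U.natDegree - 1) := by
    rw [← kl_alg, filt_kl]
    rcases eq_or_ne (U - X ^ U.natDegree) 0 with h | h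
    · exact .inl (by rw [h, map_zero])
    have := (natDegree_lt_iff_degree_lt h).2 (by
      rw [← degree_eq_natDegree hU.ne_zero]
      exact degree_sub_lt (by rw [degree_X_pow, degree_eq_natDegree hU.ne_zero]) hU.ne_zero
        (by rw [hU.leadingCoeff, leadingCoeff_X_pow]))
    right
    rw [RatFunc.intDegree_polynomial]
    omega
  have h2 := Le_mul h1 (xpow_inv_mem_Le U.natDegree)
  rw [map_sub, sub_mul, mul_inv_cancel₀ (filt_pl_ne (by simp))] at h2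
  convert h2 using 2
  ring

theorem filt_E (u : F) : ∑ b ∈ range C.l, u ^ b • C.eta ^ b ∈ C.Le 0 :=
  Submodule.sum_mem _ fun b _ => Submodule.smul_mem _ _ (filt_pow filt_eta b)

theorem filt_E_mul {u : F} (hu : u ^ C.l = 1) :
    (u • C.eta - 1) * ∑ b ∈ range C.l, u ^ b • C.eta ^ b ∈ C.Le (-1) := by
  simp only [← _root_.smul_pow]
  rw [mul_geom_sum, _root_.smul_pow, hu, one_smul, eta, mul_pow, y_pow, inv_pow, ← map_pow, ← pow_mul,
    mul_comm C.m, ← C.deg]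
  exact filt_monic_sub C.mon

theorem filt_lead {c : F} {t : ℕ} (ht : C.m * (C.l - 1) ≤ t) : C.lead c t =
    C.pl (X ^ t) * (1 + ((c - 1) * (C.l : F)⁻¹) • ∑ b ∈ range C.l, (1 : F) ^ b • C.eta ^ b) := by
  rw [lead, mul_add, mul_one, mul_smul_comm, mul_sum]
  congr 2
  refine sum_congr rfl fun b hb => ?_
  have h1 : C.m * b ≤ t := (Nat.mul_le_mul_left _ (by have := mem_range.1 hb; omega)).trans ht
  have h2 : C.pl (X ^ C.m) ≠ 0 := filt_pl_ne (by simp)
  have h3 : C.pl (X ^ t) = C.pl (X ^ (t - C.m * b)) * C.pl (X ^ C.m) ^ b := by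
    rw [← map_pow, ← map_mul, ← pow_mul, ← pow_add, Nat.sub_add_cancel h1]
  rw [h3, one_pow, one_smul, eta, mul_pow, inv_pow]
  field_simp

omit [IsAlgClosed F] in
theorem filt_root_sum {z : F} (hz : IsPrimitiveRoot z C.l) (g : ℕ → C.L) :
    ∑ s ∈ range C.l, ∑ b ∈ range C.l, (z ^ s) ^ b • g b = (C.l : F) • g 0 := by
  rw [sum_comm, sum_eq_single_of_mem 0 (mem_range.2 C.hl.pos) fun b hb h0 => ?_]
  · simp [Nat.cast_smul_eq_nsmul]
  have h1 := (hz.pow_of_coprime b (Nat.coprime_of_lt_prime h0 (mem_range.1 hb) C.hl).symm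
    ).geom_sum_eq_zero C.hl.one_lt
  rw [← sum_smul, sum_congr rfl fun s _ => pow_right_comm z s b, h1, zero_smul]

theorem lead_mem {c : F} {t : ℕ} (ht : C.m * (C.l - 1) ≤ t) :
    C.lead c t ∈ (1 : C.FI) ∧ C.lead c t ∈ C.Le t := by
  refine ⟨add_mem (pl_mem_one _) (smul_mem _ (sum_mem fun b _ => mul_mem (pl_mem_one _) ?_)), ?_⟩
  · exact mem_one.2 (pow_mem (mem_one.1 y_mem_one) b)
  rw [filt_lead ht]
  have h := Le_mul (pl_mem_Le (C := C) (natDegree_X_pow t).le) (Submodule.add_mem _ one_mem_Le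
    (Submodule.smul_mem _ ((c - 1) * (C.l : F)⁻¹) (filt_E 1)))
  rwa [add_zero] at h

theorem filt_nrm_lead {c : F} {t : ℕ} (ht : C.m * (C.l - 1) ≤ t) :
    C.nrm (C.lead c t) - C.pl (Polynomial.C c * X ^ (C.l * t)) ∈ C.Le (C.l * t - 1) := by
  obtain ⟨z, hz⟩ := exists_prim (C := C)
  obtain ⟨g, hg⟩ : ∃ g, g = (c - 1) * (C.l : F)⁻¹ := ⟨_, rfl⟩
  obtain ⟨E, hE⟩ : ∃ E : ℕ → C.L, ∀ s, E s = ∑ b ∈ range C.l, (z ^ s) ^ b • C.eta ^ b :=
    ⟨_, fun _ => rfl⟩
  have hp : ∀ s, (z ^ s) ^ C.l = 1 := fun s => by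
    rw [← pow_mul, mul_comm, pow_mul, hz.pow_eq_one, one_pow]
  have hE0 : ∀ s, E s ∈ C.Le 0 := fun s => hE s ▸ filt_E _
  have hEE : ∀ s < C.l, ∀ r < C.l, s ≠ r → E s * E r ∈ C.Le (-1) := fun s hs r hr hsr => by
    have h1 := Le_mul (filt_E_mul (hp s)) (hE0 r)
    have h2 := Le_mul (filt_E_mul (hp r)) (hE0 s)
    rw [← hE, add_zero] at h1 h2
    have h3 : z ^ s - z ^ r ≠ 0 := fun h => hsr (hz.pow_inj hs hr (sub_eq_zero.1 h))
    rw [← Submodule.smul_mem_iff _ h3]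
    convert Submodule.sub_mem _ (Submodule.smul_mem _ (z ^ r) h1) (Submodule.smul_mem _ (z ^ s) h2)
      using 1
    simp only [Algebra.smul_def, map_sub]
    ring
  have key : ∀ n ≤ C.l, ∏ s ∈ range n, (1 + g • E s) - (1 + g • ∑ s ∈ range n, E s) ∈ C.Le (-1) := by
    intro n hn
    induction n with
    | zero => simp
    | succ n ih =>
      have h1 := Le_mul (ih (by omega)) (Submodule.add_mem _ one_mem_Le
        (Submodule.smul_mem _ g (hE0 n)))
      have h2 : (∑ s ∈ range n, E s) * E n ∈ C.Le (-1) := by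
        rw [sum_mul]
        exact Submodule.sum_mem _ fun s hs => hEE s (by have := mem_range.1 hs; omega) n hn
          (mem_range.1 hs).ne
      rw [prod_range_succ, sum_range_succ]
      rw [add_zero] at h1
      convert Submodule.add_mem _ h1 (Submodule.smul_mem _ (g * g) h2) using 1
      simp only [Algebra.smul_def, map_mul]
      ring
  have h1 := key _ le_rfl
  have h2 : C.nrm (1 + g • ∑ b ∈ range C.l, (1 : F) ^ b • C.eta ^ b) =
      ∏ s ∈ range C.l, (1 + g • E s) := by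
    rw [nrm_eq hz]
    refine prod_congr rfl fun s _ => ?_
    simp only [map_add, map_one, sg_smul, map_sum, one_pow, one_smul, filt_sg_eta (hp s), hE]
  have h3 : 1 + g • ∑ s ∈ range C.l, E s = c • (1 : C.L) := by
    simp only [hE]
    rw [filt_root_sum hz, pow_zero, smul_smul, hg, inv_mul_cancel_right₀ C.hc, sub_smul, one_smul,
      add_sub_cancel]
  rw [h3, ← h2] at h1
  have h4 := Le_mul (pl_mem_Le (natDegree_X_pow (C.l * t)).le) h1
  rw [filt_lead ht, nrm_mul, nrm_pl, ← hg, ← pow_mul, mul_comm t, map_mul, pl_C]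
  rwa [mul_sub, mul_smul_comm, mul_one, Nat.cast_mul] at h4

theorem nrm_lead {c : F} (hc : c ≠ 0) {t : ℕ} (ht : C.m * (C.l - 1) ≤ t) {h : C.L}
    (h1 : h ∈ (1 : C.FI)) (hh : h - C.lead c t ∈ C.Le (t - 1)) :
    C.Bal h ∧ ∃ D : F[X], D.Monic ∧ D.natDegree = C.l * t ∧
      C.nrm h = C.pl (Polynomial.C c * D) := by
  have hl := (lead_mem (c := c) ht).2
  have h2 := filt_of_sub hh hl
  have h3 := Submodule.add_mem _ (filt_nrm_sub h2 hl hh) (filt_nrm_lead (c := c) ht)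
  rw [sub_add_sub_cancel] at h3
  exact ⟨(filt_core hc h2 h3).1, filt_monic hc h1 (by rwa [Nat.cast_mul])⟩

theorem inv_of_sg {z : F} (hz : IsPrimitiveRoot z C.l) {b : C.L} {k : ℤ} (h1 : b ∈ C.Le k)
    (h2 : b ∉ C.Le (k - 1))
    (h3 : ∀ t < C.l, ∃ r ∈ C.Le 0, (C.sg (z ^ t)).1 b - b * r ∈ C.Le (k - 1)) :
    b⁻¹ ∈ C.Le (-k) := by
  choose! r hr hr' using h3
  rw [mem_Le] at h2
  push Not at h2
  obtain ⟨j, hj, h0, h2⟩ := h2
  have h3 := (mem_Le.1 h1 j hj).resolve_left h0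
  obtain ⟨u, hu⟩ : ∃ u, u = C.kl (C.co j b) * C.y ^ j := ⟨_, rfl⟩
  obtain ⟨R, hR⟩ : ∃ R, R = (C.l : F)⁻¹ • ∑ t ∈ range C.l, z⁻¹ ^ (t * j) • r t := ⟨_, rfl⟩
  have hR0 : R ∈ C.Le 0 := hR ▸ Submodule.smul_mem _ _ (Submodule.sum_mem _ fun t ht =>
    Submodule.smul_mem _ _ (hr t (mem_range.1 ht)))
  have h4 : u - b * R ∈ C.Le (k - 1) := by
    rw [hu, co_avg hz hj, hR, mul_smul_comm, mul_sum, ← smul_sub, ← sum_sub_distrib]
    refine Submodule.smul_mem _ _ (Submodule.sum_mem _ fun t ht => ?_)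
    rw [mul_smul_comm, ← smul_sub]
    exact Submodule.smul_mem _ _ (hr' t (mem_range.1 ht))
  have h5 : u⁻¹ ∈ C.Le (-k) := by
    rw [hu, mul_inv, ← map_inv₀]
    exact Le_mono (by omega)
      (Le_mul (filt_kl.2 (.inr (RatFunc.intDegree_inv _).le)) (ypow_inv_mem_Le j))
  have hu0 : u ≠ 0 := hu ▸ mul_ne_zero (by simpa using h0) (pow_ne_zero _ y_ne)
  have h6 := Submodule.neg_mem _ (Le_mul h4 h5)
  rw [sub_mul, mul_inv_cancel₀ hu0, neg_sub, show k - 1 + -k = (0 : ℕ) - 1 by omega,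
    ← map_one C.pl, ← pow_zero X] at h6
  obtain ⟨⟨h7, -⟩, -, h8⟩ := bal_near h6
  have h9 := Le_mul (Le_mul hR0 h5) h8
  have hb0 : b ≠ 0 := fun h => h7 (by simp [h])
  have hR1 : R ≠ 0 := fun h => h7 (by simp [h])
  convert h9 using 1
  · simp
  · field_simp

theorem filt_inv {z : F} (hz : IsPrimitiveRoot z C.l) {b r : C.L} {k : ℤ} (h1 : b ∈ C.Le k)
    (h2 : b ∉ C.Le (k - 1)) (hr : r ∈ C.Le 0) (h3 : (C.sg z).1 b - b * r ∈ C.Le (k - 1)) :
    b⁻¹ ∈ C.Le (-k) := by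
  refine inv_of_sg hz h1 h2 fun t ht => ?_
  clear ht
  induction t with
  | zero => exact ⟨1, one_mem_Le, by simp [sg_one]⟩
  | succ t ih =>
    obtain ⟨s, hs, hs'⟩ := ih
    have h4 := (G_Le (C.sg (z ^ t))).2 hr
    refine ⟨s * (C.sg (z ^ t)).1 r, by simpa using Le_mul hs h4, ?_⟩
    have h5 := Le_mul hs' h4
    rw [add_zero] at h5
    have e : (C.sg (z ^ (t + 1))).1 b = (C.sg (z ^ t)).1 ((C.sg z).1 b) := by
      rw [sg_pow hz.pow_eq_one, sg_pow hz.pow_eq_one, pow_succ]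
      rfl
    convert Submodule.add_mem _ ((G_Le (C.sg (z ^ t))).2 h3) h5 using 1
    rw [e, map_sub, map_mul]
    ring

theorem bal_of_sg {z : F} (hz : IsPrimitiveRoot z C.l) {w : C.L} (h0 : w ≠ 0)
    (h : C.Bal ((C.sg z).1 w / w)) : C.Bal w := by
  obtain ⟨k, h1, h2⟩ := exists_minLe h0
  have hn : C.nrm ((C.sg z).1 w / w) = C.kl 1 := by
    rw [div_eq_mul_inv, nrm_mul, nrm_sg, filt_nrm_inv, mul_inv_cancel₀ (nrm_ne h0), map_one]
  obtain ⟨j, h3, -, h4⟩ := h.deg hn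
  have hj : j = 0 := by simpa [C.hl.ne_zero] using h4
  exact ⟨h0, k, h1, filt_inv hz h1 h2 (hj ▸ h3) (by rw [mul_div_cancel₀ _ h0, sub_self]; simp)⟩

theorem bal_unit {h : C.L} (hb : C.Bal h) (h1 : C.sp h = 1) : ∃ c : F, c ≠ 0 ∧ h = c • 1 := by
  obtain ⟨h0, k, h2, h3⟩ := hb
  have h4 : h ∈ (1 : C.FI) := sp_le.1 h1.le
  have h5 : h⁻¹ ∈ (1 : C.FI) := by
    have := sp_mul h h⁻¹
    rw [mul_inv_cancel₀ h0, sp_one, h1, one_mul] at this
    exact sp_le.1 this.ge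
  have e : C.Le (-1) = C.V 0 := by simp [Le]
  rcases lt_trichotomy k 0 with hk | rfl | hk
  · exact absurd (int_V_zero h4 (e ▸ Le_mono (by omega) h2)) h0
  · obtain ⟨c, hc⟩ := int_Le_zero h4 h2
    exact ⟨c, fun h => h0 (by simp [hc, h]), hc⟩
  · exact absurd (int_V_zero h5 (e ▸ Le_mono (by omega) h3)) (inv_ne_zero h0)

theorem h90_inf {z : F} (hz : IsPrimitiveRoot z C.l) {h : C.L} {U : F[X]} {e : ℕ} (hb : C.Bal h)
    (hn : C.nrm h = C.pl U) (hU : U.Monic) (he : U.natDegree = C.l * e) :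
    ∃ b, C.Bal b ∧ h * (C.sg z).1 b / b - C.pl (X ^ e) ∈ C.Le (e - 1) := by
  have hl : (C.l : ℤ) ≠ 0 := by exact_mod_cast C.hl.ne_zero
  obtain ⟨k, h1, h2, h3⟩ := hb.deg (hn.trans (kl_alg U).symm)
  rw [RatFunc.intDegree_polynomial, he, Nat.cast_mul, mul_right_inj' hl] at h3
  subst h3
  have hx : C.pl (X ^ e) ∈ C.Le e := pl_mem_Le (natDegree_X_pow e).le
  have hx0 : C.pl (X ^ e) ≠ 0 := filt_pl_ne (by simp)
  obtain ⟨g, hg⟩ : ∃ g, g = h * (C.pl (X ^ e))⁻¹ := ⟨_, rfl⟩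
  have hg0 : g ≠ 0 := hg ▸ mul_ne_zero hb.1 (inv_ne_zero hx0)
  have g1 : g ∈ C.Le 0 := by simpa [hg] using Le_mul h1 (xpow_inv_mem_Le e)
  have g2 : g⁻¹ ∈ C.Le 0 := by simpa [hg, mul_comm] using Le_mul h2 hx
  have g3 : C.hp z g C.l - 1 ∈ C.Le (-1) := by
    rw [hp, ← nrm_eq hz, hg, nrm_mul, filt_nrm_inv, nrm_pl, hn, ← pow_mul, mul_comm e, ← he]
    exact filt_monic_sub hU
  have hp0 : ∀ t, C.hp z g t ∈ C.Le 0 := fun t => by
    simpa [hp] using Le_prod (s := range t) (k := fun _ => 0) fun b _ => (G_Le (C.sg (z ^ b))).2 g1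
  have hp1 : ∀ s, (z ^ s) ^ C.l = 1 := fun s => by
    rw [← pow_mul, mul_comm, pow_mul, hz.pow_eq_one, one_pow]
  obtain ⟨B, hB⟩ : ∃ B : ℕ → C.L, ∀ j,
    B j = ∑ t ∈ range C.l, C.hp z g t * (C.sg (z ^ t)).1 (C.eta ^ j) := ⟨_, fun _ => rfl⟩
  have B0 : ∀ j, B j ∈ C.Le 0 := fun j => hB j ▸ Submodule.sum_mem _ fun t _ => by
    simpa using Le_mul (hp0 t) ((G_Le (C.sg (z ^ t))).2 (filt_pow filt_eta j))
  have B1 : ∀ j, g * (C.sg z).1 (B j) - B j ∈ C.Le (-1) := fun j => by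
    have e := sum_range_succ' (fun t => C.hp z g t * (C.sg (z ^ t)).1 (C.eta ^ j)) C.l
    rw [sum_range_succ, ← hB, hz.pow_eq_one, pow_zero, sg_one] at e
    have e' : g * (C.sg z).1 (B j) =
        ∑ t ∈ range C.l, C.hp z g (t + 1) * (C.sg (z ^ (t + 1))).1 (C.eta ^ j) := by
      rw [hB, map_sum, mul_sum]
      exact sum_congr rfl fun t _ => hp_succ hz.pow_eq_one _ _ _
    have e0 : C.hp z g 0 = 1 := prod_range_zero _
    have e1 : (1 : C.G).1 (C.eta ^ j) = C.eta ^ j := rfl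
    rw [← e', e0, e1] at e
    have h4 := Le_mul g3 (filt_pow filt_eta j)
    rw [add_zero] at h4
    convert h4 using 1
    linear_combination -e
  obtain ⟨j, hj⟩ : ∃ j, B j ∉ C.Le (0 - 1) := by
    by_contra hn
    push Not at hn
    have h4 : ∑ j ∈ range C.l, C.eta⁻¹ ^ j * B j ∈ C.Le (-1) :=
      Submodule.sum_mem _ fun j _ => by simpa using Le_mul (filt_pow filt_eta_inv j) (hn j)
    have h5 : ∑ j ∈ range C.l, C.eta⁻¹ ^ j * B j = (C.l : F) • (1 : C.L) := by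
      rw [← show C.hp z g 0 = 1 from prod_range_zero _, ← filt_root_sum hz]
      refine sum_congr rfl fun j _ => ?_
      rw [hB, mul_sum]
      refine sum_congr rfl fun t _ => ?_
      have := pow_ne_zero j (filt_eta_ne (C := C))
      rw [filt_sg_eta (hp1 t), mul_smul_comm, mul_smul_comm, ← pow_mul, ← pow_mul, mul_comm t,
        inv_pow]
      congr 1
      field_simp
    rw [h5, Submodule.smul_mem_iff _ C.hc] at h4
    exact one_not_mem_Le h4
  have h4 := filt_inv hz (B0 j) hj g2 (by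
    convert Le_mul g2 (B1 j) using 1
    · simp
    · field_simp)
  have h5 : B j ≠ 0 := fun h => hj (h ▸ Submodule.zero_mem _)
  refine ⟨B j, ⟨h5, 0, B0 j, h4⟩, ?_⟩
  convert Le_mul (Le_mul hx (B1 j)) h4 using 1
  · simp [sub_eq_add_neg]
  · rw [hg]
    field_simp

end Vale.Agent.P319.A.Crv
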