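import Vale.Agent.P319.A.Int

/-! Content lemma, norms of ideals, codimension. -/

namespace Vale.Agent.P319.A.Crv

open Polynomial Finset

variable {F : Type} [Field F] [IsAlgClosed F] {C : Crv F}

theorem gn_le {P : C.L[X]} {I : C.FI} : C.gn P ≤ I ↔ ∀ j, P.coeff j ∈ I := by
  rw [← FractionalIdeal.coe_le_coe, gn, FractionalIdeal.spanFinset_coe, Submodule.span_le]
  constructor
  · intro h j
    by_cases hj : j ∈ P.support
    · exact h ⟨j, hj, rfl⟩
    · rw [notMem_support_iff.1 hj]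
      exact FractionalIdeal.zero_mem _
  · rintro h _ ⟨j, -, rfl⟩
    exact h j

theorem coeff_mem_gn (P : C.L[X]) (j : ℕ) : P.coeff j ∈ C.gn P := by
  exact gn_le.1 (le_refl (C.gn P)) j

theorem mem_gn {P : C.L[X]} {z : C.L} {N : ℕ} (hN : P.degree < N) : z ∈ C.gn P ↔
    ∃ o : ℕ → C.L, (∀ j, o j ∈ (1 : C.FI)) ∧ z = ∑ j ∈ range N, o j * P.coeff j := by
  constructor
  · intro h
    rw [← FractionalIdeal.mem_coe, gn, FractionalIdeal.spanFinset_coe] at h
    induction h using Submodule.span_induction with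
    | mem x hx =>
      obtain ⟨j, hj, rfl⟩ := hx
      have hj' : j < N := by
        exact_mod_cast (le_degree_of_ne_zero (mem_support_iff.1 hj)).trans_lt hN
      refine ⟨fun i => if i = j then 1 else 0, fun i => ?_, by simp [hj']⟩
      dsimp only
      split_ifs
      exacts [mem_one.2 (one_mem _), FractionalIdeal.zero_mem _]
    | zero => exact ⟨0, fun _ => FractionalIdeal.zero_mem _, by simp⟩
    | add x y _ _ hx hy =>
      obtain ⟨a, ha, rfl⟩ := hx
      obtain ⟨b, hb, rfl⟩ := hy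
      exact ⟨a + b, fun j => add_mem (ha j) (hb j), by simp [add_mul, sum_add_distrib]⟩
    | smul c x _ hx =>
      obtain ⟨a, ha, rfl⟩ := hx
      refine ⟨fun j => c * a j, fun j => mul_mem (mem_one.2 c.2) (ha j), ?_⟩
      change (c : C.L) * _ = _
      simp [mul_sum, mul_assoc]
  · rintro ⟨o, ho, rfl⟩
    exact sum_mem fun j _ => mul_mem (ho j) (coeff_mem_gn P j)

theorem gn_C (z : C.L) : C.gn (Polynomial.C z) = C.sp z := by
  refine le_antisymm (gn_le.2 fun j => ?_) (sp_le.2 ?_)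
  · rw [coeff_C]
    split_ifs
    exacts [sp_le.1 le_rfl, FractionalIdeal.zero_mem _]
  · simpa using coeff_mem_gn (Polynomial.C z) 0

theorem idl_lift {P : C.L[X]} (hP : C.gn P ≠ 0) {m : Ideal C.O} (hm : m ≠ ⊤) :
    ∃ a ∈ (C.gn P)⁻¹, ∃ P' : C.O[X], P'.map (algebraMap C.O C.L) = Polynomial.C a * P ∧
      P' ∉ Ideal.map Polynomial.C m := by
  by_contra! h
  have h1 : (C.gn P)⁻¹ * C.gn P ≤ m := by
    refine FractionalIdeal.mul_le.2 fun a ha z hz => ?_
    obtain ⟨P', hP'⟩ := (mem_lifts _).1 ((lifts_iff_coeff_lifts (f := algebraMap C.O C.L)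
      (Polynomial.C a * P)).2 fun j => by
        have := FractionalIdeal.mul_mem_mul ha (coeff_mem_gn P j)
        rw [inv_mul_cancel₀ hP] at this
        rw [coeff_C_mul]
        exact ⟨⟨_, mem_one.1 this⟩, rfl⟩)
    have h2 := Ideal.mem_map_C_iff.1 (h a ha P' hP')
    obtain ⟨o, ho, rfl⟩ := (mem_gn (degree_le_natDegree.trans_lt
      (by exact_mod_cast Nat.lt_succ_self P.natDegree))).1 hz
    rw [mul_sum]
    refine sum_mem fun j _ => ?_
    rw [mul_left_comm, ← coeff_C_mul, ← hP', coeff_map]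
    exact mul_mem (ho j) (FractionalIdeal.mem_coeIdeal_of_mem _ (h2 j))
  rw [inv_mul_cancel₀ hP, ← FractionalIdeal.coeIdeal_top,
    FractionalIdeal.coeIdeal_le_coeIdeal] at h1
  exact hm (top_le_iff.1 h1)

theorem idl_one : C.gn 1 = 1 := by rw [← C_1, gn_C, sp_one]

theorem gn_mul (P Q : C.L[X]) : C.gn (P * Q) = C.gn P * C.gn Q := by
  have hle : C.gn (P * Q) ≤ C.gn P * C.gn Q := gn_le.2 fun j => by
    rw [coeff_mul]
    exact sum_mem fun x _ => FractionalIdeal.mul_mem_mul (coeff_mem_gn _ _) (coeff_mem_gn _ _)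
  by_cases hP : C.gn P = 0
  · rw [hP, zero_mul] at hle ⊢
    exact le_antisymm hle (FractionalIdeal.zero_le _)
  by_cases hQ : C.gn Q = 0
  · rw [hQ, mul_zero] at hle ⊢
    exact le_antisymm hle (FractionalIdeal.zero_le _)
  have h1 : (C.gn P)⁻¹ * (C.gn Q)⁻¹ * (C.gn P * C.gn Q) = 1 := by
    rw [mul_mul_mul_comm, inv_mul_cancel₀ hP, inv_mul_cancel₀ hQ, one_mul]
  obtain ⟨J, hJ⟩ := FractionalIdeal.le_one_iff_exists_coeIdeal.1
    ((mul_le_mul_right hle ((C.gn P)⁻¹ * (C.gn Q)⁻¹)).trans h1.le)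
  by_cases hJ' : J = ⊤
  · rw [hJ', FractionalIdeal.coeIdeal_top, ← h1] at hJ
    exact (mul_left_cancel₀ (mul_ne_zero (inv_ne_zero hP) (inv_ne_zero hQ)) hJ).symm
  exfalso
  obtain ⟨m, hm, hJm⟩ := Ideal.exists_le_maximal J hJ'
  obtain ⟨a, ha, P', hP', hPm⟩ := idl_lift hP hm.ne_top
  obtain ⟨b, hb, Q', hQ', hQm⟩ := idl_lift hQ hm.ne_top
  refine ((Ideal.isPrime_map_C_of_isPrime (P := m)).mem_or_mem ?_).elim hPm hQm
  refine Ideal.mem_map_C_iff.2 fun j => hJm ?_
  have h2 : algebraMap C.O C.L ((P' * Q').coeff j) = a * b * (P * Q).coeff j := by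
    rw [← coeff_map, Polynomial.map_mul, hP', hQ', mul_mul_mul_comm, ← C_mul, coeff_C_mul]
  have h3 := FractionalIdeal.mul_mem_mul (FractionalIdeal.mul_mem_mul ha hb)
    (coeff_mem_gn (P * Q) j)
  rw [← hJ, ← h2, FractionalIdeal.mem_coeIdeal] at h3
  obtain ⟨x, hx, e⟩ := h3
  rwa [← Subtype.ext e]

theorem gn_prod (l : List C.L[X]) : C.gn l.prod = (l.map C.gn).prod := by
  induction l with
  | nil => exact idl_one
  | cons a l ih => rw [List.prod_cons, gn_mul, ih, List.map_cons, List.prod_cons]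

theorem gn_finprod {ι : Type} (s : Finset ι) (g : ι → C.L[X]) :
    C.gn (∏ i ∈ s, g i) = ∏ i ∈ s, C.gn (g i) := by
  induction s using Finset.cons_induction with
  | empty => exact idl_one
  | cons a s ha ih => rw [prod_cons, prod_cons, gn_mul, ih]

theorem act_gn (t : C.G) (P : C.L[X]) : C.act t (C.gn P) = C.gn (P.map (t.1 : C.L →+* C.L)) := by
  have key : ∀ (t : C.G) (P : C.L[X]),
      C.gn (P.map (t.1 : C.L →+* C.L)) ≤ C.act t (C.gn P) := fun t P => gn_le.2 fun j => by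
    rw [coeff_map]
    exact (mem_act t _ _).2 (coeff_mem_gn P j)
  refine le_antisymm ?_ (key t P)
  have h := (act_le t).2 (key t⁻¹ (P.map (t.1 : C.L →+* C.L)))
  rw [← act_mul, mul_inv_cancel, act_one, Polynomial.map_map] at h
  have e : ((t⁻¹).1 : C.L →+* C.L).comp (t.1 : C.L →+* C.L) = RingHom.id _ :=
    RingHom.ext fun x => t.1.symm_apply_apply x
  rwa [e, Polynomial.map_id] at h

theorem exists_gn (I : C.FI) : ∃ P : C.L[X], C.gn P = I := by
  classical
  obtain ⟨n, e, he⟩ := Submodule.fg_iff_exists_fin_generating_family.1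
    (FractionalIdeal.fg_of_isNoetherianRing le_rfl I)
  refine ⟨ofFn n e, le_antisymm (gn_le.2 fun j => ?_) ?_⟩
  · rcases lt_or_ge j n with h | h
    · rw [ofFn_coeff_eq_val_of_lt e h, ← FractionalIdeal.mem_coe, ← he]
      exact Submodule.subset_span ⟨_, rfl⟩
    · rw [ofFn_coeff_eq_zero_of_ge e h]
      exact FractionalIdeal.zero_mem _
  · rw [← FractionalIdeal.coe_le_coe, ← he, Submodule.span_le]
    rintro _ ⟨j, rfl⟩
    have := coeff_mem_gn (ofFn n e) j
    rwa [ofFn_coeff_eq_val_of_lt e j.2] at this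

theorem exists_nrm {I : C.FI} (h0 : I ≠ 0) (h1 : I ≤ 1) :
    ∃ U : F[X], U.Monic ∧ C.nrmI I = C.sp (C.pl U) := by
  obtain ⟨P, rfl⟩ := exists_gn I
  obtain ⟨z, hz⟩ := exists_prim (C := C)
  set R := ∏ u ∈ nthRootsFinset C.l (1 : F), P.map ((C.sg u).1 : C.L →+* C.L) with hR
  have e1 : C.nrmI (C.gn P) = C.gn R := by
    rw [hR, gn_finprod, nrmI]
    exact prod_congr rfl fun u _ => act_gn _ _
  have e2 : R.map ((C.sg z).1 : C.L →+* C.L) = R := by
    rw [hR, Polynomial.map_prod,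
      ← int_prod_shift hz.pow_eq_one fun u => P.map ((C.sg u).1 : C.L →+* C.L)]
    refine prod_congr rfl fun u hu => ?_
    rw [Polynomial.map_map]
    congr 1
    exact RingHom.ext fun w => int_sg_sg hz.pow_eq_one (int_mem_rt.1 hu) w
  have e3 : ∀ j, ∃ g, R.coeff j = C.pl g := by
    intro j
    have h2 : (C.sg z).1 (R.coeff j) = R.coeff j := by
      conv_rhs => rw [← e2, coeff_map]
      rfl
    have h3 : R.coeff j ∈ (1 : C.FI) := h1 (nrmI_le h1 (e1 ▸ coeff_mem_gn R j))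
    rw [fixed_kl hz h2] at h3 ⊢
    obtain ⟨g, hg⟩ := kl_mem_one.1 h3
    exact ⟨g, by rw [hg, kl_alg]⟩
  let J : Ideal F[X] :=
    { carrier := {g | C.pl g ∈ C.gn R}
      add_mem' := fun ha hb => by simpa using add_mem ha hb
      zero_mem' := by simpa using FractionalIdeal.zero_mem _
      smul_mem' := fun c g hg => by simpa using mul_mem (pl_mem_one c) hg }
  obtain ⟨U, hU⟩ := IsPrincipalIdealRing.principal J
  have e4 : C.gn R = C.sp (C.pl U) := by
    refine le_antisymm (gn_le.2 fun j => ?_) (sp_le.2 ?_)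
    · obtain ⟨g, hg⟩ := e3 j
      have h2 : g ∈ J := by
        change C.pl g ∈ C.gn R
        rw [← hg]
        exact coeff_mem_gn R j
      rw [hU] at h2
      rw [hg, pl_mem_sp]
      exact Ideal.mem_span_singleton.1 h2
    · change U ∈ J
      rw [hU]
      exact Submodule.mem_span_singleton_self U
  have hU0 : U ≠ 0 := by
    rintro rfl
    refine nrmI_ne h0 ?_
    rw [e1, e4, map_zero, sp, FractionalIdeal.spanSingleton_zero]
  refine ⟨_, monic_mul_leadingCoeff_inv hU0, ?_⟩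
  rw [e1, e4, mul_comm, map_mul, pl_C, sp_smul (inv_ne_zero (leadingCoeff_ne_zero.2 hU0))]

theorem exists_nrmK {I : C.FI} (h0 : I ≠ 0) : ∃ k, k ≠ 0 ∧ C.nrmI I = C.sp (C.kl k) := by
  obtain ⟨a, J, ha, e⟩ := FractionalIdeal.exists_eq_spanSingleton_mul I
  have hJ : (J : C.FI) ≠ 0 := by
    intro h
    rw [h, mul_zero] at e
    exact h0 e
  obtain ⟨U, -, hU⟩ := exists_nrm hJ FractionalIdeal.coeIdeal_le_one
  obtain ⟨k, hk⟩ := exists_nrm_kl (algebraMap C.O C.L a)⁻¹
  have e1 : C.nrmI I = C.sp (C.kl (k * algebraMap F[X] (RatFunc F) U)) := by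
    rw [e, nrmI_mul, hU, map_mul, kl_alg, sp_mul, ← hk, ← nrmI_sp]
    rfl
  refine ⟨_, fun h => nrmI_ne h0 ?_, e1⟩
  rw [e1, h, map_zero, sp, FractionalIdeal.spanSingleton_zero]

theorem sp_pl_inj {U W : F[X]} (hU : U.Monic) (hW : W.Monic)
    (h : C.sp (C.pl U) = C.sp (C.pl W)) : U = W := by
  exact eq_of_monic_of_associated hU hW
    (associated_of_dvd_dvd (pl_mem_sp.1 (sp_le.1 h.ge)) (pl_mem_sp.1 (sp_le.1 h.le)))

section rank

variable {M N : Type} [AddCommGroup M] [AddCommGroup N] [Module F M] [Module F N]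

omit [IsAlgClosed F] in
theorem idl_rank_map (f : M →ₗ[F] N) (W : Submodule F M) :
    Module.rank F (W.map f) + Module.rank F (W ⊓ LinearMap.ker f : Submodule F M) =
      Module.rank F W := by
  rw [← (f.domRestrict W).rank_range_add_rank_ker, LinearMap.range_domRestrict,
    LinearMap.ker_domRestrict,
    ← (Submodule.comapSubtypeEquivOfLe (inf_le_left : W ⊓ LinearMap.ker f ≤ W)).rank_eq,
    Submodule.comap_inf, Submodule.comap_subtype_self, top_inf_eq]

omit [IsAlgClosed F] in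
theorem idl_rank_add {I J K : Submodule F M} (h1 : K ≤ J) (h2 : J ≤ I) :
    Module.rank F (I.map K.mkQ) = Module.rank F (I.map J.mkQ) + Module.rank F (J.map K.mkQ) := by
  rw [← idl_rank_map (K.mapQ J LinearMap.id h1) (I.map K.mkQ), ← Submodule.map_comp,
    Submodule.mapQ_mkQ, Submodule.ker_mapQ, LinearMap.comp_id, Submodule.comap_id,
    inf_eq_right.2 (Submodule.map_mono h2)]

omit [IsAlgClosed F] in
theorem idl_rank_eq (f : M →ₗ[F] N) {A B : Submodule F M} {A' B' : Submodule F N}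
    (h1 : ∀ x ∈ A, f x ∈ A') (h2 : ∀ x ∈ A, f x ∈ B' ↔ x ∈ B)
    (h3 : ∀ y ∈ A', ∃ x ∈ A, y - f x ∈ B') :
    Module.rank F (A.map B.mkQ) = Module.rank F (A'.map B'.mkQ) := by
  have e : A'.map B'.mkQ = A.map (B'.mkQ ∘ₗ f) := by
    refine le_antisymm ?_ ?_
    · rintro _ ⟨y, hy, rfl⟩
      obtain ⟨x, hx, h⟩ := h3 y hy
      exact ⟨x, hx, ((Submodule.Quotient.eq B').2 h).symm⟩
    · rintro _ ⟨x, hx, rfl⟩
      exact ⟨f x, h1 x hx, rfl⟩
  have e2 : LinearMap.ker (B.mkQ.domRestrict A) = LinearMap.ker ((B'.mkQ ∘ₗ f).domRestrict A) := by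
    ext x
    simp [h2 x x.2]
  rw [e, ← LinearMap.range_domRestrict, ← LinearMap.range_domRestrict,
    ← (LinearMap.quotKerEquivRange _).rank_eq, ← (LinearMap.quotKerEquivRange _).rank_eq, e2]

end rank

/-- the codimension -/
noncomputable def idlC (C : Crv F) (I : C.FI) : Cardinal :=
  Module.rank F ((C.und 1).map (C.und I).mkQ)

theorem idl_mul {I J : C.FI} (hI : I ≤ 1) (hJ : J ≤ 1) (hI0 : I ≠ 0) (hJ0 : J ≠ 0) :
    C.idlC (I * J) = C.idlC I + C.idlC J := by
  have h1 : I * J ≤ I := mul_le_of_le_one_right' hJ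
  rw [idlC, idl_rank_add (J := C.und I) (fun z hz => mem_und.2 (h1 (mem_und.1 hz)))
    fun z hz => mem_und.2 (hI (mem_und.1 hz))]
  congr 1
  obtain ⟨x, hx⟩ := IsDedekindDomain.exists_add_spanSingleton_mul_eq h1 (mul_ne_zero hI0 hJ0)
    (one_ne_zero (α := C.FI))
  rw [mul_one] at hx
  replace hx : I * J + C.sp x = I := hx
  have hxI : x ∈ I := sp_le.1 (le_trans le_sup_right hx.le)
  refine (idl_rank_eq (LinearMap.mulLeft F x) (fun o ho => ?_) (fun o ho => ?_)
    fun y hy => ?_).symm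
  · rw [mem_und] at ho ⊢
    rw [LinearMap.mulLeft_apply, mul_comm]
    exact mul_mem ho hxI
  · rw [mem_und] at ho
    rw [mem_und, mem_und, LinearMap.mulLeft_apply]
    refine ⟨fun h => sp_le.1 ?_, FractionalIdeal.mul_mem_mul hxI⟩
    have h2 : I * C.sp o ≤ I * J := by
      nth_rewrite 1 [← hx]
      rw [add_mul, ← sp_mul]
      exact sup_le (mul_le_of_le_one_right' (sp_le.2 ho)) (sp_le.2 h)
    have h3 := mul_le_mul_right h2 I⁻¹
    rwa [inv_mul_cancel_left₀ hI0, inv_mul_cancel_left₀ hI0] at h3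
  · rw [mem_und, ← hx, FractionalIdeal.mem_add] at hy
    obtain ⟨i, hi, j, hj, rfl⟩ := hy
    obtain ⟨o, ho, rfl⟩ := mem_sp.1 hj
    exact ⟨o, mem_und.2 ho, mem_und.2 (by simpa using hi)⟩

omit [IsAlgClosed F] in
theorem idl_sg (u : F) (I : C.FI) : C.idlC (C.act (C.sg u) I) = C.idlC I := by
  let f : C.L →ₗ[F] C.L :=
    { toFun := (C.sg u).1, map_add' := map_add _, map_smul' := sg_smul u }
  refine (idl_rank_eq f (fun o ho => ?_) (fun o _ => ?_) fun y hy => ?_).symm
  · exact mem_und.2 ((G_mem_one _).2 (mem_und.1 ho))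
  · rw [mem_und, mem_und]
    exact mem_act _ _ _
  · obtain ⟨x, rfl⟩ := (C.sg u).1.surjective y
    exact ⟨x, mem_und.2 ((G_mem_one _).1 (mem_und.1 hy)), by simp [f]⟩

theorem idl_pl {U : F[X]} (hU : U ≠ 0) : C.idlC (C.sp (C.pl U)) = (C.l * U.natDegree : ℕ) := by
  let f : (Fin C.l → F[X]) →ₗ[F] C.L :=
    { toFun := fun g => ∑ b, C.pl (g b) * C.y ^ (b : ℕ)
      map_add' := fun g h => by simp [add_mul, sum_add_distrib]
      map_smul' := fun a g => by
        simp only [Pi.smul_apply, smul_eq_C_mul, map_mul, pl_C, RingHom.id_apply,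
          smul_sum, smul_mul_assoc] }
  have hf : ∀ g (b : Fin C.l), C.co b (f g) = algebraMap F[X] (RatFunc F) (g b) := by
    intro g b
    change C.co b (∑ c, C.pl (g c) * C.y ^ (c : ℕ)) = _
    simp only [map_sum, ← kl_alg, co_mono (Fin.is_lt _), Fin.val_inj, sum_ite_eq, mem_univ,
      if_true]
  let θ := (Ideal.Quotient.mkₐ F (Ideal.span {U})).toLinearMap.compLeft (Fin C.l)
  have hθ : Function.Surjective θ := Ideal.Quotient.mk_surjective.comp_left
  have : Module.Finite F (F[X] ⧸ Ideal.span {U}) := (AdjoinRoot.powerBasis hU).finite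
  rw [idlC, ← idl_rank_eq f (A := ⊤) (B := LinearMap.ker θ) (fun g _ => ?_) (fun g _ => ?_)
    fun y hy => ?_, Submodule.map_top, Submodule.range_mkQ, rank_top,
    (θ.quotKerEquivOfSurjective hθ).rank_eq, ← Module.finrank_eq_rank, Module.finrank_pi_fintype]
  · simp [finrank_quotient_span_eq_natDegree]
  · exact mem_und.2 (mem_one_iff.2 fun b hb => ⟨_, hf g ⟨b, hb⟩⟩)
  · rw [mem_und, mem_sp_pl, LinearMap.mem_ker, funext_iff]
    constructor
    · intro h b
      obtain ⟨k, hk⟩ := h b b.2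
      rw [hf] at hk
      exact Ideal.Quotient.eq_zero_iff_mem.2 (Ideal.mem_span_singleton.2
        ⟨k, IsFractionRing.injective F[X] (RatFunc F) hk⟩)
    · intro h b hb
      obtain ⟨k, hk⟩ := Ideal.mem_span_singleton.1 (Ideal.Quotient.eq_zero_iff_mem.1 (h ⟨b, hb⟩))
      exact ⟨k, by rw [← hk]; exact hf g ⟨b, hb⟩⟩
  · choose g hg using mem_one_iff.1 (mem_und.1 hy)
    refine ⟨fun b => g b b.2, trivial, ?_⟩
    rw [← show y = f fun b => g b b.2 from
      ext_co fun b hb => (hg b hb).trans (hf (fun b => g b b.2) ⟨b, hb⟩).symm, sub_self]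
    exact zero_mem _

theorem idl_cod {I : C.FI} {U : F[X]} (h1 : I ≤ 1) (hU : U ≠ 0) (hn : C.nrmI I = C.sp (C.pl U)) :
    C.idlC I = U.natDegree := by
  have h0 : I ≠ 0 := by
    rintro rfl
    have h2 := nrmI_le h1
    rw [hn] at h2
    have h3 : C.pl U ≠ 0 := (map_ne_zero_iff C.pl pl_inj).2 hU
    exact sp_ne h3 (le_antisymm h2 (FractionalIdeal.zero_le _))
  have key : ∀ s : Finset F, ∏ u ∈ s, C.act (C.sg u) I ≤ 1 ∧ ∏ u ∈ s, C.act (C.sg u) I ≠ 0 ∧
      C.idlC (∏ u ∈ s, C.act (C.sg u) I) = s.card * C.idlC I := by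
    intro s
    induction s using Finset.cons_induction with
    | empty =>
      refine ⟨le_rfl, one_ne_zero (α := C.FI), ?_⟩
      rw [prod_empty, idlC, Submodule.mkQ_map_self]
      simp
    | cons u s hu ih =>
      have h2 : C.act (C.sg u) I ≤ 1 := by
        rw [← map_one (C.act (C.sg u)), act_le]
        exact h1
      have h3 : C.act (C.sg u) I ≠ 0 := (_root_.map_ne_zero (C.act (C.sg u))).2 h0
      rw [prod_cons]
      refine ⟨mul_le_one' h2 ih.1, mul_ne_zero h3 ih.2.1, ?_⟩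
      rw [idl_mul h2 ih.1 h3 ih.2.1, idl_sg, ih.2.2, card_cons]
      push_cast
      ring
  have h2 := (key (nthRootsFinset C.l (1 : F))).2.2
  rw [← nrmI, hn, idl_pl hU, int_card] at h2
  have h3 : C.idlC I < Cardinal.aleph0 := by
    refine lt_of_le_of_lt ?_ (h2 ▸ Cardinal.natCast_lt_aleph0)
    exact Cardinal.le_mul_left (by exact_mod_cast C.hl.ne_zero)
  obtain ⟨n, hn'⟩ := Cardinal.lt_aleph0.1 h3
  rw [hn'] at h2 ⊢
  have h4 : C.l * U.natDegree = C.l * n := by exact_mod_cast h2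
  rw [Nat.eq_of_mul_eq_mul_left C.hl.pos h4]

theorem cod_le {I : C.FI} {U : F[X]} (h1 : I ≤ 1) (hU : U ≠ 0) (hn : C.nrmI I = C.sp (C.pl U))
    (W : Submodule F C.L) [FiniteDimensional F W] (hW : W ≤ C.und 1) :
    Module.finrank F W ≤ U.natDegree + Module.finrank F (W ⊓ C.und I : Submodule F C.L) := by
  have h := idl_rank_map (C.und I).mkQ W
  have h2 := (Submodule.rank_mono (Submodule.map_mono (f := (C.und I).mkQ) hW)).trans
    (idl_cod h1 hU hn).le
  rw [Submodule.ker_mkQ, ← Module.finrank_eq_rank F W,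
    ← Module.finrank_eq_rank F (W ⊓ C.und I : Submodule F C.L)] at h
  exact_mod_cast h.ge.trans (add_le_add_left h2 _)

theorem cod_eq {I : C.FI} {U : F[X]} (h1 : I ≤ 1) (hU : U ≠ 0) (hn : C.nrmI I = C.sp (C.pl U))
    (W : Submodule F C.L) [FiniteDimensional F W] (hW : W ≤ C.und 1)
    (hW' : C.und 1 ≤ W ⊔ C.und I) :
    Module.finrank F W = U.natDegree + Module.finrank F (W ⊓ C.und I : Submodule F C.L) := by
  have h := idl_rank_map (C.und I).mkQ W
  have h2 : W.map (C.und I).mkQ = (C.und 1).map (C.und I).mkQ := by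
    refine le_antisymm (Submodule.map_mono hW) ((Submodule.map_mono hW').trans ?_)
    rw [Submodule.map_sup, Submodule.mkQ_map_self, sup_bot_eq]
  rw [Submodule.ker_mkQ, ← Module.finrank_eq_rank F W,
    ← Module.finrank_eq_rank F (W ⊓ C.und I : Submodule F C.L), h2, ← idlC,
    idl_cod h1 hU hn] at h
  exact_mod_cast h.symm


end Vale.Agent.P319.A.Crv
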