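import Vale.Agent.P319.A.IdlA
import Vale.Agent.P319.A.Filt

/-! Ideals coprime to y, the ramified primes. -/

namespace Vale.Agent.P319.A.Crv

open Polynomial Finset

variable {F : Type} [Field F] [IsAlgClosed F] {C : Crv F}

omit [IsAlgClosed F] in
theorem idl_add_le {I J K : C.FI} (h : I ≤ K) (h' : J ≤ K) : I + J ≤ K := by
  rw [← FractionalIdeal.sup_eq_add]
  exact sup_le h h'

omit [IsAlgClosed F] in
theorem idl_cast {I : C.FI} {a b : C.L} (h : a ∈ I) (e : b = a) : b ∈ I := e ▸ h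

omit [IsAlgClosed F] in
theorem idl_spy_le : C.sp C.y ≤ 1 := sp_le.2 y_mem_one

omit [IsAlgClosed F] in
theorem idlb_one : (1 : C.L) ∈ (1 : C.FI) := FractionalIdeal.one_mem_one _

omit [IsAlgClosed F] in
theorem idl_self (z : C.L) : z ∈ C.sp z := sp_le.1 le_rfl

omit [IsAlgClosed F] in
theorem idl_cop {I : C.FI} (h : I ≤ 1) : I + C.sp C.y = 1 ↔ ∃ a ∈ I, 1 - a ∈ C.sp C.y := by
  constructor
  · intro h1
    obtain ⟨a, ha, b, hb, e⟩ := (FractionalIdeal.mem_add _ _ _).1 (h1.ge idlb_one)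
    exact ⟨a, ha, by rwa [← e, add_sub_cancel_left]⟩
  · rintro ⟨a, ha, hb⟩
    refine le_antisymm (idl_add_le h idl_spy_le) ?_
    rw [← sp_one, sp_le]
    exact (FractionalIdeal.mem_add _ _ _).2 ⟨a, ha, _, hb, add_sub_cancel _ _⟩

omit [IsAlgClosed F] in
theorem idl_fix {I : C.FI} {t : C.G} (h1 : I ≤ 1) (h : ∀ w ∈ (1 : C.FI), t.1 w - w ∈ I) :
    C.act t I = I := by
  ext w
  obtain ⟨w, rfl⟩ := t.1.surjective w
  rw [mem_act]
  constructor
  · intro hw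
    simpa using add_mem (h w (h1 hw)) hw
  · intro hw
    simpa using sub_mem hw (h w ((G_mem_one t).1 (h1 hw)))

omit [IsAlgClosed F] in
theorem idl_prod_le {ι : Type} (s : Finset ι) {A : ι → C.FI} {B : C.FI} (hA : ∀ i, A i ≤ 1)
    (hB : B ≤ 1) : ∏ i ∈ s, (A i + B) ≤ ∏ i ∈ s, A i + B := by
  classical
  induction s using Finset.induction_on with
  | empty => simp
  | insert a s ha ih =>
    rw [prod_insert ha, prod_insert ha]
    refine (mul_le_mul_right ih _).trans ?_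
    rw [add_mul, mul_add]
    refine idl_add_le (idl_add_le le_self_add ?_) ?_
    · exact (mul_le_of_le_one_left' (hA a)).trans le_add_self
    · exact (mul_le_of_le_one_right' (idl_add_le (C := C) (prod_le_one' fun i _ => hA i) hB)).trans
        le_add_self

theorem cop_of {I : C.FI} {U : F[X]} (h1 : I ≤ 1) (hn : C.nrmI I = C.sp (C.pl U))
    (hc : I + C.sp C.y = 1) : IsCoprime U C.f := by
  obtain ⟨a, ha, h2⟩ := (idl_cop h1).1 hc
  obtain ⟨g, hg⟩ := exists_nrm_pl (h1 ha)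
  have h3 := nrm_mem ha
  have h4 := nrm_cong (g := 1) (w := a) (by
    rw [map_one, ← neg_sub, ← neg_one_smul F]
    exact smul_mem _ h2)
  rw [hn, hg, pl_mem_sp] at h3
  rw [hg, one_pow, ← map_sub, pl_mem_spy] at h4
  obtain ⟨u, hu⟩ := h3
  obtain ⟨v, hv⟩ := h4
  exact ⟨u, -v, by linear_combination hv - hu⟩

theorem Nice.ne {I : C.FI} {U : F[X]} (h : C.Nice I U) : I ≠ 0 := fun e => filt_pl_ne (C := C) h.mon.ne_zero (by
  have := sp_le.1 (h.nrm ▸ nrmI_le h.le)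
  rwa [e, FractionalIdeal.mem_zero_iff] at this)

theorem Nice.mem {I : C.FI} {U : F[X]} (h : C.Nice I U) : C.pl U ∈ I := sp_le.1 (h.nrm ▸ nrmI_le h.le)

theorem Nice.cop' {I : C.FI} {U : F[X]} (h : C.Nice I U) : I + C.sp C.y = 1 := by
  obtain ⟨u, v, e⟩ := h.cop
  refine (idl_cop h.le).2 ⟨_, mul_mem (pl_mem_one u) h.mem, ?_⟩
  rw [← map_mul, ← map_one C.pl, ← map_sub, pl_mem_spy, ← e, add_sub_cancel_left]
  exact dvd_mul_left _ _

theorem Nice.mul {I J : C.FI} {U W : F[X]} (h : C.Nice I U) (h' : C.Nice J W) :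
    C.Nice (I * J) (U * W) := ⟨mul_le_one' h.le h'.le, h.mon.mul h'.mon,
    by rw [nrmI_mul, h.nrm, h'.nrm, map_mul, sp_mul], h.cop.mul_left h'.cop⟩

theorem Nice.sg {I : C.FI} {U : F[X]} (h : C.Nice I U) (z : F) :
    C.Nice (C.act (C.sg z) I) U := ⟨by rw [← map_one (C.act (C.sg z)), act_le]; exact h.le, h.mon,
    by rw [nrmI_sg, h.nrm], h.cop⟩

theorem nice_one : C.Nice 1 1 := ⟨le_rfl, monic_one, by
  rw [← sp_one, nrmI_sp, ← map_one C.pl, nrm_pl, one_pow], isCoprime_one_left⟩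

theorem inf_y {I : C.FI} (h1 : I ≤ 1) (hc : I + C.sp C.y = 1) {z : C.L} (hz : z ∈ I)
    (hy : z ∈ C.sp C.y) : z ∈ C.sp C.y * I := by
  obtain ⟨a, ha, h2⟩ := (idl_cop h1).1 hc
  refine idl_cast
    (add_mem (FractionalIdeal.mul_mem_mul hy ha) (FractionalIdeal.mul_mem_mul h2 hz)) ?_
  ring

theorem cancel_cop {J : C.FI} {U : F[X]} (hU : IsCoprime U C.f) {k : ℕ} {z : C.L} (hz : z ∈ J)
    (h : C.pl U * z ∈ C.sp (C.y ^ k) * J) : z ∈ C.sp (C.y ^ k) * J := by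
  obtain ⟨u, v, e⟩ := hU.pow_right (n := k)
  obtain ⟨n, hn⟩ : ∃ n, C.l = n + 1 := ⟨C.l - 1, by have := C.hl.pos; omega⟩
  have h1 : C.y ^ (n * k) ∈ (1 : C.FI) := mem_one.2 (pow_mem (mem_one.1 y_mem_one) _)
  have h2 := congrArg C.pl e
  rw [map_add, map_mul, map_mul, map_pow, map_one, ← y_pow, hn] at h2
  refine idl_cast (add_mem (mul_mem (pl_mem_one u) h) (FractionalIdeal.mul_mem_mul (idl_self _)
    (mul_mem (pl_mem_one v) (mul_mem h1 hz)))) ?_
  linear_combination (-z) * h2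

theorem cop_mul {I J : C.FI} (h1 : I ≤ 1) (h2 : J ≤ 1) (hI : I + C.sp C.y = 1)
    (hJ : J + C.sp C.y = 1) : I * J + C.sp C.y = 1 := by
  obtain ⟨a, ha, h3⟩ := (idl_cop h1).1 hI
  obtain ⟨b, hb, h4⟩ := (idl_cop h2).1 hJ
  refine (idl_cop (C := C) (mul_le_one' h1 h2)).2 ⟨_, FractionalIdeal.mul_mem_mul ha hb, ?_⟩
  refine idl_cast (add_mem h3 (mul_mem (h1 ha) h4)) ?_
  ring

theorem idl_decomp (I : Ideal C.O) : I ≠ 0 → ∃ Q A : C.FI, Q ≠ 0 ∧
    (∀ z, C.act (C.sg z) Q = Q) ∧ A ≤ 1 ∧ A + C.sp C.y = 1 ∧ (I : C.FI) = Q * A := by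
  induction I using UniqueFactorizationMonoid.induction_on_prime with
  | h₁ => exact fun h => absurd rfl h
  | h₂ I hI =>
    refine fun _ => ⟨1, 1, one_ne_zero, fun z => map_one _, le_rfl,
      le_antisymm (idl_add_le le_rfl idl_spy_le) le_self_add, ?_⟩
    simp [Ideal.isUnit_iff.1 hI]
  | h₃ I p hI hp ih =>
    obtain ⟨Q, A, h1, h2, h3, h4, h5⟩ := ih hI
    have hp1 : (p : C.FI) ≤ 1 := FractionalIdeal.coeIdeal_le_one
    intro _
    rw [FractionalIdeal.coeIdeal_mul, h5]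
    by_cases hy : (⟨C.y, mem_one.1 y_mem_one⟩ : C.O) ∈ p
    · have hy' : C.sp C.y ≤ p := sp_le.2 (FractionalIdeal.mem_coeIdeal_of_mem _ hy)
      refine ⟨p * Q, A, mul_ne_zero (by simpa using hp.ne_zero) h1, fun z => ?_, h3, h4,
        (mul_assoc _ _ _).symm⟩
      rw [map_mul, h2, idl_fix hp1 fun w hw => hy' (sg_sub_mem z hw)]
    · obtain ⟨b, i, hi, e⟩ :=
        ((Ideal.isPrime_of_prime hp).isMaximal hp.ne_zero).exists_inv hy
      refine ⟨Q, p * A, h1, h2, mul_le_one' hp1 h3, cop_mul hp1 h3 ((idl_cop hp1).2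
        ⟨i, FractionalIdeal.mem_coeIdeal_of_mem _ hi, ?_⟩) h4, mul_left_comm _ _ _⟩
      have e' : (b : C.L) * C.y + i = 1 := congrArg Subtype.val e
      rw [← e', add_sub_cancel_right]
      exact mul_mem (mem_one.2 b.2) (idl_self _)

theorem decomp {J : C.FI} (h : J ≠ 0) : ∃ Q A B : C.FI, Q ≠ 0 ∧ (∀ z, C.act (C.sg z) Q = Q) ∧
    A ≤ 1 ∧ B ≤ 1 ∧ A + C.sp C.y = 1 ∧ B + C.sp C.y = 1 ∧ J * B = Q * A := by
  obtain ⟨d, I, hd, e⟩ := FractionalIdeal.exists_eq_spanSingleton_mul J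
  have hI : I ≠ 0 := by
    rintro rfl
    exact h (by simpa using e)
  obtain ⟨Q, A, h1, h2, h3, h4, h5⟩ := idl_decomp I hI
  obtain ⟨Q', B, h1', h2', h3', h4', h5'⟩ := idl_decomp (Ideal.span {d}) (by simpa using hd)
  have hB : B ≠ 0 := by
    rintro rfl
    simp [hd, FractionalIdeal.spanSingleton_eq_zero_iff] at h5'
  refine ⟨Q * Q'⁻¹, A, B, mul_ne_zero h1 (inv_ne_zero h1'), fun z => by
    rw [map_mul, map_inv₀, h2, h2'], h3, h3', h4, h4', ?_⟩
  rw [e, ← FractionalIdeal.spanSingleton_inv, ← FractionalIdeal.coeIdeal_span_singleton, h5, h5']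
  field_simp

theorem exists_gen {J : C.FI} (h : J ≠ 0) : ∃ w ∈ J, J = C.sp w + C.sp C.y * J := by
  obtain ⟨w, hw⟩ := IsDedekindDomain.exists_add_spanSingleton_mul_eq
    (mul_le_of_le_one_left' idl_spy_le : C.sp C.y * J ≤ J) (mul_ne_zero (sp_ne y_ne) h) one_ne_zero
  rw [mul_one, add_comm] at hw
  exact ⟨w, sp_le.1 (le_self_add.trans hw.le), hw.symm⟩

theorem P_ne (a : F) : C.P a ≠ 0 := fun h => sp_ne (C := C) y_ne (add_eq_zero.1 h).2

theorem P_le (a : F) : C.P a ≤ 1 := idl_add_le (sp_le.2 (pl_mem_one _)) idl_spy_le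

theorem act_sg_P (z a : F) : C.act (C.sg z) (C.P a) = C.P a := idl_fix (P_le a) fun _ hw => (le_add_self : C.sp C.y ≤ C.P a) (sg_sub_mem z hw)

theorem act_fr_P {s : F ≃+* F} (hs : C.f.map s = C.f) {a : F} (ha : s a = a) :
    C.act (C.fr s) (C.P a) = C.P a := by
  simp [P, act_sp, fr_pl hs, fr_y, ha, -map_sub]

omit [IsAlgClosed F] in
theorem idl_root {a : F} (ha : C.f.IsRoot a) :
    ∃ g, C.f = (X - Polynomial.C a) * g ∧ g.eval a ≠ 0 := by
  obtain ⟨g, hg⟩ := dvd_iff_isRoot.2 ha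
  refine ⟨g, hg, fun h => not_isUnit_X_sub_C a (C.sep.squarefree _ ?_)⟩
  rw [hg]
  exact mul_dvd_mul_left _ (dvd_iff_isRoot.2 h)

omit [IsAlgClosed F] in
theorem idl_cop_root {a : F} {g : F[X]} (h : g.eval a ≠ 0) : IsCoprime (X - Polynomial.C a) g :=
  (irreducible_X_sub_C a).coprime_iff_not_dvd.2 fun h' => h (dvd_iff_isRoot.1 h')

theorem P_pow {a : F} (ha : C.f.IsRoot a) : C.P a ^ C.l = C.sp (C.pl (X - Polynomial.C a)) := by
  obtain ⟨g, hg, h0⟩ := idl_root ha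
  apply le_antisymm
  · have h1 := idl_prod_le (range C.l) (A := fun _ => C.sp C.y) (fun _ => idl_spy_le)
      (sp_le.2 (pl_mem_one (X - Polynomial.C a)))
    rw [prod_const, prod_const, card_range, add_comm, ← sp_pow, y_pow] at h1
    exact h1.trans (idl_add_le (sp_le.2 (pl_mem_sp.2 ⟨g, hg⟩)) le_rfl)
  obtain ⟨n, hn⟩ : ∃ n, C.l = n + 1 := ⟨C.l - 1, by have := C.hl.pos; omega⟩
  obtain ⟨u, v, e⟩ := (idl_cop_root h0).pow_left (m := n)
  have h1 : C.pl (X - Polynomial.C a) ^ C.l ∈ C.P a ^ C.l := by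
    rw [← sp_le, sp_pow]
    exact pow_le_pow_left' le_self_add _
  have h2 : C.y ^ C.l ∈ C.P a ^ C.l := by
    rw [← sp_le, sp_pow]
    exact pow_le_pow_left' le_add_self _
  rw [sp_le]
  refine idl_cast (add_mem (mul_mem (pl_mem_one u) h1) (mul_mem (pl_mem_one v) h2)) ?_
  rw [y_pow, ← map_pow, ← map_mul, ← map_mul, ← map_add, hg, hn]
  congr 1
  linear_combination (-(X - Polynomial.C a)) * e

theorem prod_P : ∏ a ∈ C.rts, C.P a = C.sp C.y := by
  have e : ∏ a ∈ C.rts, C.sp (C.pl (X - Polynomial.C a)) = C.sp (C.pl C.f) := by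
    conv_rhs => rw [f_eq, map_prod]
    exact (map_prod (⟨⟨C.sp, sp_one⟩, sp_mul⟩ : C.L →* C.FI) _ _).symm
  have h1 := idl_prod_le (C := C) C.rts (fun a => sp_le.2 (pl_mem_one (X - Polynomial.C a))) idl_spy_le
  have h2 : ∏ a ∈ C.rts, C.P a ≤ C.sp C.y :=
    h1.trans (idl_add_le (e ▸ sp_le.2 (pl_mem_spy.2 dvd_rfl)) le_rfl)
  by_contra h
  refine (pow_lt_pow_left₀ (h2.lt_of_ne h) zero_le C.hl.ne_zero).ne ?_
  rw [← prod_pow, prod_congr rfl fun a ha => P_pow (C := C) (mem_rts.1 ha), e, ← sp_pow, y_pow]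

theorem exists_J {a : F} (ha : C.f.IsRoot a) : ∃ (J : C.FI) (U : F[X]), C.Nice J U ∧
    U.natDegree = C.l * (C.m + 1) - 1 ∧
    C.nrm (C.pl ((X - Polynomial.C a) ^ (C.m + 1)) + C.y) = C.pl ((X - Polynomial.C a) * U) ∧
    C.Bal (C.pl ((X - Polynomial.C a) ^ (C.m + 1)) + C.y) ∧
    J * C.P a = C.sp (C.pl ((X - Polynomial.C a) ^ (C.m + 1)) + C.y) ∧
    J = C.sp (C.pl U) + C.sp (C.pl ((X - Polynomial.C a) ^ (C.m + 1)) + C.y) := by
  obtain ⟨g, hg, h0⟩ := idl_root ha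
  obtain ⟨π, hπ⟩ : ∃ π, π = X - Polynomial.C a := ⟨_, rfl⟩
  obtain ⟨n, hn⟩ : ∃ n, C.l * (C.m + 1) = n + 1 :=
    ⟨C.l * (C.m + 1) - 1, by have := Nat.mul_pos C.hl.pos C.m.add_one_pos; omega⟩
  have hm : π.Monic := hπ ▸ monic_X_sub_C a
  have hd : π.natDegree = 1 := hπ ▸ natDegree_X_sub_C a
  have hg0 : g ≠ 0 := fun h => h0 (by simp [h])
  have hdg : (Polynomial.C ((-1) ^ C.l) * g).degree < (π ^ n).degree := by
    have h1 := C.deg
    rw [hg, natDegree_mul (X_sub_C_ne_zero a) hg0, natDegree_X_sub_C] at h1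
    rw [degree_C_mul (by simp), degree_eq_natDegree hg0, degree_eq_natDegree (hm.pow n).ne_zero,
      hm.natDegree_pow, hd]
    have := C.hl.pos
    exact_mod_cast (by nlinarith : g.natDegree < n * 1)
  obtain ⟨U, hU⟩ : ∃ U, U = π ^ n - Polynomial.C ((-1) ^ C.l) * g := ⟨_, rfl⟩
  have hUm : U.Monic := hU ▸ (hm.pow n).sub_of_left hdg
  have hUd : U.natDegree = n := by
    rw [hU, natDegree_sub_eq_left_of_natDegree_lt (natDegree_lt_natDegree (by simpa) hdg),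
      hm.natDegree_pow, hd, mul_one]
  have hn0 : n ≠ 0 := by
    have := C.hl.two_le
    rintro rfl
    nlinarith
  have hUa : U.eval a ≠ 0 := by simpa [hU, hπ, hn0]
  have hUc : IsCoprime U C.f := cop_iff.2 fun b hb => by
    rcases eq_or_ne b a with rfl | hba
    · exact hUa
    have h1 : g.eval b = 0 := by simpa [hg, sub_eq_zero, hba] using hb
    simp [hU, hπ, h1, sub_eq_zero, hba]
  rw [← hπ] at hg ⊢
  obtain ⟨w, hw⟩ : ∃ w, w = C.pl (π ^ (C.m + 1)) + C.y := ⟨_, rfl⟩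
  have hN : C.nrm w = C.pl (π * U) := by
    rw [hw, nrm_lin, ← pow_mul, mul_comm _ C.l, hn, hU, hg]
    congr 1
    simp only [map_pow, map_neg, map_one]
    ring
  have hL : w ∈ C.Le (C.m + 1 : ℕ) := hw ▸ Submodule.add_mem _
    (pl_mem_Le (by rw [hm.natDegree_pow, hd, mul_one]))
    (Le_mono (s := C.m) (by simp) (by simpa using ypow_mem_Le (C := C) 1))
  have hw0 : w ≠ 0 := by
    rintro rfl
    have h6 := nrm_kl (C := C) 0
    rw [zero_pow C.hl.ne_zero, map_zero, hN] at h6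
    exact filt_pl_ne (hm.mul hUm).ne_zero h6
  have hB : C.Bal w := ⟨hw0, _, hL, inv_of_nrm hL (hN.trans (kl_alg _).symm)
    (RatFunc.algebraMap_ne_zero (hm.mul hUm).ne_zero) (by
      rw [RatFunc.intDegree_polynomial, hm.natDegree_mul hUm, hd, hUd, ← Nat.cast_mul, hn, add_comm])⟩
  have hπP : C.pl π ∈ C.P a := hπ ▸ sp_le.1 le_self_add
  have hwP : C.sp w ≤ C.P a := sp_le.2 (hw ▸ add_mem (by
    rw [pow_succ, map_mul]
    exact mul_mem (pl_mem_one _) hπP) (sp_le.1 le_add_self))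
  obtain ⟨J, hJ⟩ : ∃ J, J * C.P a = C.sp w := ⟨_, div_mul_cancel₀ _ (P_ne a)⟩
  have hJ1 : J ≤ 1 := by
    have h1 := mul_le_mul_left (hJ.trans_le hwP) (C.P a)⁻¹
    rwa [mul_inv_cancel_right₀ (P_ne (C := C) a), mul_inv_cancel₀ (P_ne (C := C) a)] at h1
  have hNice : C.Nice J U := by
    refine ⟨hJ1, hUm, ?_, hUc⟩
    obtain ⟨z, hz⟩ := exists_prim (C := C)
    have h1 := congrArg C.nrmI hJ
    rw [nrmI_mul, nrmI_sp, hN, nrmI_eq hz (C.P a), prod_congr rfl fun _ _ => act_sg_P (C := C) _ a,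
      prod_const, card_range, P_pow ha, ← hπ, map_mul, sp_mul, mul_comm] at h1
    exact mul_left_cancel₀ (sp_ne (filt_pl_ne hm.ne_zero)) h1
  rw [← hw]
  refine ⟨J, U, hNice, by omega, hN, hB, hJ, le_antisymm (fun x hx => ?_)
    (idl_add_le (sp_le.2 hNice.mem) (hJ ▸ mul_le_of_le_one_right' (P_le a)))⟩
  obtain ⟨u, v, e⟩ := idl_cop_root hUa
  have e' := congrArg C.pl e
  rw [← hπ, map_add, map_mul, map_mul, map_one] at e'
  refine (FractionalIdeal.mem_add _ _ _).2 ⟨_, mul_mem (mul_mem (pl_mem_one v) (hJ1 hx))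
    (idl_self _), _, mul_mem (pl_mem_one u) (hJ ▸ FractionalIdeal.mul_mem_mul hx hπP), ?_⟩
  linear_combination x * e'

/-- the ideal `(y - (x - b)^m)` -/
noncomputable def B (C : Crv F) (b : F) : C.FI := C.sp (C.pl (-(X - Polynomial.C b) ^ C.m) + C.y)
theorem exists_B {b : F} (h0 : C.f.eval b ≠ 0)
    (h1 : ((C.l * C.m : ℕ) : F) * b + C.f.coeff (C.l * C.m - 1) ≠ 0) :
    ∃ (U : F[X]) (c : F), C.Nice (C.B b) U ∧ U.natDegree = C.l * C.m - 1 ∧ c ≠ 0 ∧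
      C.nrm (C.pl (-(X - Polynomial.C b) ^ C.m) + C.y) = C.pl (Polynomial.C c * U) := by
  obtain ⟨D, hD⟩ : ∃ D, D = (X - Polynomial.C b) ^ (C.l * C.m) - C.f := ⟨_, rfl⟩
  have hm := monic_X_sub_C b
  have hp := Nat.mul_pos C.hl.pos C.hm
  have hd : ((X - Polynomial.C b) ^ (C.l * C.m)).natDegree = C.l * C.m := by
    rw [hm.natDegree_pow, natDegree_X_sub_C, mul_one]
  have h2 : D.coeff (C.l * C.m - 1) ≠ 0 := by
    have := hm.nextCoeff_pow (C.l * C.m)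
    rw [nextCoeff_of_natDegree_pos (hd.symm ▸ hp), hd, nextCoeff_X_sub_C, nsmul_eq_mul] at this
    rw [hD, coeff_sub, this]
    exact fun h => h1 (by linear_combination -h)
  have hD0 : D ≠ 0 := fun h => h2 (by simp [h])
  have h3 : D.natDegree = C.l * C.m - 1 := by
    refine natDegree_eq_of_le_of_coeff_ne_zero (Nat.le_sub_one_of_lt ?_) h2
    rw [natDegree_lt_iff_degree_lt hD0, ← hd, ← degree_eq_natDegree (hm.pow _).ne_zero, hD]
    refine degree_sub_lt_left ?_ (hm.pow _).ne_zero (by rw [(hm.pow _).leadingCoeff, C.mon.leadingCoeff])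
    rw [degree_eq_natDegree (hm.pow _).ne_zero, degree_eq_natDegree C.mon.ne_zero, hd, C.deg]
  have hc := leadingCoeff_ne_zero.2 hD0
  have hc' : (-1) ^ C.l * D.leadingCoeff ≠ 0 := by simpa
  have hN : C.nrm (C.pl (-(X - Polynomial.C b) ^ C.m) + C.y) = C.pl
      (Polynomial.C ((-1) ^ C.l * D.leadingCoeff) * (D * Polynomial.C D.leadingCoeff⁻¹)) := by
    rw [nrm_lin, mul_comm D, ← mul_assoc, ← C_mul, mul_inv_cancel_right₀ hc, neg_pow, ← pow_mul,
      mul_comm C.m, ← mul_sub, ← hD]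
    simp
  refine ⟨_, _, ⟨sp_le.2 (add_mem (pl_mem_one _) y_mem_one), monic_mul_leadingCoeff_inv hD0, ?_,
    cop_iff.2 fun a ha => ?_⟩, by rw [natDegree_mul_leadingCoeff_inv _ hD0, h3], hc', hN⟩
  · rw [B, nrmI_sp, hN, map_mul, pl_C, sp_smul hc']
  · have : a - b ≠ 0 := fun h => h0 (sub_eq_zero.1 h ▸ ha)
    have h4 : D.eval a ≠ 0 := by simp [hD, ha.eq_zero, this]
    rw [eval_mul, eval_C]
    exact mul_ne_zero h4 (inv_ne_zero hc)

theorem act_fr_B {s : F ≃+* F} (hs : C.f.map s = C.f) {b : F} (hb : s b = b) :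
    C.act (C.fr s) (C.B b) = C.B b := by
  rw [B, act_sp, map_add, fr_pl hs, fr_y]
  simp [hb]

end Vale.Agent.P319.A.Crv
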