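import Vale.Agent.P319.A.Bas

/-! Norms, the integral basis, the twisted algebra. -/

namespace Vale.Agent.P319.A.Crv

open Polynomial Finset

variable {F : Type} [Field F] [IsAlgClosed F] {C : Crv F}

theorem exists_prim : ∃ z : F, IsPrimitiveRoot z C.l := by
  have : NeZero (C.l : F) := ⟨C.hc⟩
  have : NeZero C.l := ⟨C.hl.ne_zero⟩
  exact HasEnoughRootsOfUnity.exists_primitiveRoot F C.l

theorem f_eq : C.f = ∏ a ∈ C.rts, (X - Polynomial.C a) := by
  have h := (IsAlgClosed.splits C.f).eq_prod_roots_of_monic C.mon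
  unfold rts
  classical
  rw [Finset.prod, Multiset.toFinset_val, Multiset.dedup_eq_self.2 (nodup_roots C.sep)]
  exact h

theorem mem_rts {a : F} : a ∈ C.rts ↔ C.f.IsRoot a := by
  unfold rts
  classical
  rw [Multiset.mem_toFinset, mem_roots C.mon.ne_zero]

theorem card_rts : C.rts.card = C.l * C.m := by
  unfold rts
  classical
  rw [Multiset.toFinset_card_of_nodup (nodup_roots C.sep), IsAlgClosed.card_roots_eq_natDegree,
    C.deg]

theorem f_dvd {g : F[X]} : C.f ∣ g ↔ ∀ a, C.f.IsRoot a → g.eval a = 0 := by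
  constructor
  · rintro ⟨k, rfl⟩ a ha
    rw [eval_mul, ha.eq_zero, zero_mul]
  · intro h
    rw [f_eq]
    exact Finset.prod_dvd_of_coprime
      ((pairwise_coprime_X_sub_C (s := id) Function.injective_id).set_pairwise _)
      fun a ha => dvd_iff_isRoot.2 (h a (mem_rts.1 ha))

theorem cop_iff {g : F[X]} : IsCoprime g C.f ↔ ∀ a, C.f.IsRoot a → g.eval a ≠ 0 := by
  rw [Polynomial.isCoprime_iff_aeval_ne_zero_of_isAlgClosed F F]
  simp only [coe_aeval_eq_eval, IsRoot.def]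
  exact forall_congr' fun a => by tauto

omit [IsAlgClosed F] in
theorem int_mem_rt {u : F} : u ∈ nthRootsFinset C.l (1 : F) ↔ u ^ C.l = 1 :=
  mem_nthRootsFinset C.hl.pos 1

omit [IsAlgClosed F] in
theorem int_pow_rt {z : F} (hz : z ^ C.l = 1) (t : ℕ) : (z ^ t) ^ C.l = 1 := by
  rw [← pow_mul, mul_comm, pow_mul, hz, one_pow]

omit [IsAlgClosed F] in
theorem int_prod_eq {M : Type} [CommMonoid M] {z : F} (hz : IsPrimitiveRoot z C.l) (φ : F → M) :
    ∏ u ∈ nthRootsFinset C.l (1 : F), φ u = ∏ t ∈ range C.l, φ (z ^ t) := by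
  have : NeZero C.l := ⟨C.hl.ne_zero⟩
  refine (prod_nbij (fun t => z ^ t) (fun t _ => int_mem_rt.2 (int_pow_rt hz.pow_eq_one t))
    hz.injOn_pow (fun u hu => ?_) fun _ _ => rfl).symm
  obtain ⟨i, hi, rfl⟩ := hz.eq_pow_of_pow_eq_one (int_mem_rt.1 hu)
  exact ⟨i, mem_coe.2 (mem_range.2 hi), rfl⟩

omit [IsAlgClosed F] in
theorem int_prod_shift {M : Type} [CommMonoid M] {z : F} (hz : z ^ C.l = 1) (φ : F → M) :
    ∏ u ∈ nthRootsFinset C.l (1 : F), φ (z * u) = ∏ u ∈ nthRootsFinset C.l (1 : F), φ u := by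
  have h0 : z ≠ 0 := by
    rintro rfl
    rw [zero_pow C.hl.ne_zero] at hz
    exact zero_ne_one hz
  refine prod_nbij' (fun u => z * u) (fun u => z⁻¹ * u) ?_ ?_ ?_ ?_ fun _ _ => rfl
  · intro u hu
    rw [int_mem_rt] at hu ⊢
    rw [mul_pow, hz, hu, one_mul]
  · intro u hu
    rw [int_mem_rt] at hu ⊢
    rw [mul_pow, inv_pow, hz, hu, inv_one, one_mul]
  · intro u _
    exact inv_mul_cancel_left₀ h0 u
  · intro u _
    exact mul_inv_cancel_left₀ h0 u

theorem int_card : (nthRootsFinset C.l (1 : F)).card = C.l := by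
  obtain ⟨z, hz⟩ := exists_prim (C := C)
  exact hz.card_nthRootsFinset

omit [IsAlgClosed F] in
theorem int_sg_sg {z u : F} (hz : z ^ C.l = 1) (hu : u ^ C.l = 1) (w : C.L) :
    (C.sg z).1 ((C.sg u).1 w) = (C.sg (z * u)).1 w := by
  rw [sg_mul hz hu]
  rfl

omit [IsAlgClosed F] in
theorem int_sg_one (w : C.L) : (C.sg 1).1 w = w := by
  rw [sg_one]
  rfl

omit [IsAlgClosed F] in
theorem int_sg_cases (z : F) : ∃ u : F, u ^ C.l = 1 ∧ C.sg z = C.sg u := by
  by_cases h : ∃ t : C.G, t.1 C.y = z • C.y ∧ ∀ k, t.1 (C.kl k) = C.kl k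
  · refine ⟨z, ?_, rfl⟩
    obtain ⟨t, h1, h2⟩ := h
    have h3 : t.1 (C.y ^ C.l) = C.y ^ C.l := by rw [y_pow, ← kl_alg, h2]
    rw [map_pow, h1, _root_.smul_pow] at h3
    exact smul_left_injective F (pow_ne_zero C.l y_ne) (h3.trans (one_smul _ _).symm)
  · refine ⟨1, one_pow _, ?_⟩
    rw [sg_one, sg, dif_neg h]

omit [IsAlgClosed F] in
theorem int_geom {z : F} (hz : IsPrimitiveRoot z C.l) {b c : ℕ} (hb : b < C.l) (hc : c < C.l) :
    ∑ t ∈ range C.l, z⁻¹ ^ (t * b) * (z ^ t) ^ c = if c = b then (C.l : F) else 0 := by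
  have h0 : z ≠ 0 := hz.ne_zero C.hl.ne_zero
  have e : ∀ t, z⁻¹ ^ (t * b) * (z ^ t) ^ c = (z⁻¹ ^ b * z ^ c) ^ t := fun t => by ring
  simp only [e]
  split_ifs with h
  · subst h
    simp [h0]
  · have h1 : z⁻¹ ^ b * z ^ c ≠ 1 := by
      intro h1
      rw [inv_pow, inv_mul_eq_one₀ (pow_ne_zero _ h0)] at h1
      exact h (hz.pow_inj hb hc h1).symm
    rw [geom_sum_eq h1, mul_pow, int_pow_rt hz.pow_eq_one, int_pow_rt hz.inv.pow_eq_one]
    simp

omit [IsAlgClosed F] in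
theorem int_prod_mem {ι : Type} {s : Finset ι} {g : ι → C.L} (h : ∀ i ∈ s, g i ∈ (1 : C.FI)) :
    ∏ i ∈ s, g i ∈ (1 : C.FI) :=
  prod_induction g (· ∈ (1 : C.FI)) (fun _ _ => mul_mem) (mem_one.2 (one_mem _)) h

omit [IsAlgClosed F] in
theorem int_pow_mem {w : C.L} (h : w ∈ (1 : C.FI)) (k : ℕ) : w ^ k ∈ (1 : C.FI) :=
  mem_one.2 (pow_mem (mem_one.1 h) k)

omit [IsAlgClosed F] in
theorem int_co_kl (k : RatFunc F) (c : ℕ) : C.co c (C.kl k) = if c = 0 then k else 0 := by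
  simpa using co_mono C.hl.pos k c

theorem nrm_eq {z : F} (hz : IsPrimitiveRoot z C.l) (w : C.L) :
    C.nrm w = ∏ t ∈ range C.l, (C.sg (z ^ t)).1 w := by
  exact int_prod_eq hz _

theorem nrmI_eq {z : F} (hz : IsPrimitiveRoot z C.l) (I : C.FI) :
    C.nrmI I = ∏ t ∈ range C.l, C.act (C.sg (z ^ t)) I := by
  exact int_prod_eq hz _

theorem nrm_mul (a b : C.L) : C.nrm (a * b) = C.nrm a * C.nrm b := by
  simp only [nrm, map_mul, prod_mul_distrib]

theorem nrm_ne {a : C.L} (h : a ≠ 0) : C.nrm a ≠ 0 := by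
  exact prod_ne_zero_iff.2 fun u _ => (_root_.map_ne_zero _).2 h

theorem nrm_kl (k : RatFunc F) : C.nrm (C.kl k) = C.kl (k ^ C.l) := by
  simp only [nrm, sg_kl, prod_const, int_card, map_pow]

theorem nrm_pl (g : F[X]) : C.nrm (C.pl g) = C.pl (g ^ C.l) := by
  simp only [nrm, sg_pl, prod_const, int_card, map_pow]

theorem nrm_smul (a : F) (w : C.L) : C.nrm (a • w) = a ^ C.l • C.nrm w := by
  rw [← pl_C, nrm_mul, nrm_pl, ← C_pow, pl_C]

theorem nrm_sg (z : F) (w : C.L) : C.nrm ((C.sg z).1 w) = C.nrm w := by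
  obtain ⟨u, hu, e⟩ := int_sg_cases (C := C) z
  rw [e, nrm, nrm, ← int_prod_shift hu fun v => (C.sg v).1 w]
  exact prod_congr rfl fun v hv => by rw [int_sg_sg (int_mem_rt.1 hv) hu, mul_comm]

theorem nrm_fr {s : F ≃+* F} (hs : C.f.map s = C.f) (w : C.L) :
    C.nrm ((C.fr s).1 w) = (C.fr s).1 (C.nrm w) := by
  have key : ∀ u : F, u ^ C.l = 1 → C.fr s * C.sg u = C.sg (s u) * C.fr s := by
    intro u hu
    have hu' : s u ^ C.l = 1 := by rw [← map_pow, hu, map_one]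
    refine G_ext ?_ fun g => ?_
    · change (C.fr s).1 ((C.sg u).1 C.y) = (C.sg (s u)).1 ((C.fr s).1 C.y)
      rw [sg_y hu, fr_smul hs, fr_y, sg_y hu']
    · change (C.fr s).1 ((C.sg u).1 _) = (C.sg (s u)).1 ((C.fr s).1 _)
      rw [sg_pl, fr_pl hs, sg_pl]
  rw [nrm, nrm, map_prod]
  refine (prod_nbij' s s.symm ?_ ?_ ?_ ?_ fun u hu => ?_).symm
  · intro u hu
    rw [int_mem_rt] at hu ⊢
    rw [← map_pow, hu, map_one]
  · intro u hu
    rw [int_mem_rt] at hu ⊢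
    rw [← map_pow, hu, map_one]
  · intro u _
    exact s.symm_apply_apply u
  · intro u _
    exact s.apply_symm_apply u
  · exact congrArg (fun t : C.G => t.1 w) (key u (int_mem_rt.1 hu))

theorem nrm_lin (A : F[X]) : C.nrm (C.pl A + C.y) = C.pl (A ^ C.l - (-1) ^ C.l * C.f) := by
  obtain ⟨z, hz⟩ := exists_prim (C := C)
  have h := X_pow_sub_C_eq_prod (hz.map_of_injective (algebraMap F C.L).injective) (α := -C.y)
    C.hl.pos rfl
  have h2 := congrArg (eval (C.pl A)) h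
  simp only [eval_sub, eval_pow, eval_X, eval_C, eval_prod] at h2
  rw [nrm_eq hz, map_sub, map_pow, map_mul, map_pow, map_neg, map_one, ← y_pow, ← neg_pow, h2]
  refine prod_congr rfl fun t _ => ?_
  rw [map_add, sg_pl, sg_y (int_pow_rt hz.pow_eq_one t), Algebra.smul_def, map_pow]
  ring

theorem co_avg {z : F} (hz : IsPrimitiveRoot z C.l) {b : ℕ} (hb : b < C.l) (w : C.L) :
    C.kl (C.co b w) * C.y ^ b =
      (C.l : F)⁻¹ • ∑ t ∈ range C.l, z⁻¹ ^ (t * b) • (C.sg (z ^ t)).1 w := by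
  refine ext_co fun c hc => ?_
  rw [co_mono hb, co_smul, map_sum]
  simp only [co_smul, co_sg (int_pow_rt hz.pow_eq_one _), smul_smul]
  rw [← sum_smul, int_geom hz hb hc, smul_smul]
  split_ifs with h
  · rw [inv_mul_cancel₀ C.hc, one_smul, h]
  · rw [mul_zero, zero_smul]

theorem fixed_kl {z : F} (hz : IsPrimitiveRoot z C.l) {w : C.L} (h : (C.sg z).1 w = w) :
    w = C.kl (C.co 0 w) := by
  refine ext_co fun c hc => ?_
  rw [int_co_kl]
  split_ifs with h0
  · rw [h0]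
  · have h1 := co_sg hz.pow_eq_one c w
    rw [h] at h1
    have h2 : (1 - z ^ c) • C.co c w = 0 := by rw [sub_smul, one_smul, ← h1, sub_self]
    exact (smul_eq_zero.1 h2).resolve_left
      (sub_ne_zero.2 (hz.pow_ne_one_of_pos_of_lt h0 hc).symm)

theorem exists_nrm_kl (w : C.L) : ∃ k, C.nrm w = C.kl k := by
  obtain ⟨z, hz⟩ := exists_prim (C := C)
  refine ⟨_, fixed_kl hz ?_⟩
  rw [nrm, map_prod, ← int_prod_shift hz.pow_eq_one fun v => (C.sg v).1 w]
  exact prod_congr rfl fun v hv => int_sg_sg hz.pow_eq_one (int_mem_rt.1 hv) w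

theorem kl_mem_one {k : RatFunc F} :
    C.kl k ∈ (1 : C.FI) ↔ ∃ g, k = algebraMap F[X] (RatFunc F) g := by
  rw [mem_one, mem_integralClosure_iff, kl,
    isIntegral_algebraMap_iff (algebraMap (RatFunc F) C.L).injective,
    IsIntegrallyClosed.isIntegral_iff]
  exact exists_congr fun _ => eq_comm

theorem mem_one_iff {w : C.L} :
    w ∈ (1 : C.FI) ↔ ∀ b < C.l, ∃ g, C.co b w = algebraMap F[X] (RatFunc F) g := by
  constructor
  · intro h b hb
    obtain ⟨z, hz⟩ := exists_prim (C := C)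
    have h1 : C.kl (C.co b w) * C.y ^ b ∈ (1 : C.FI) := by
      rw [co_avg hz hb]
      exact smul_mem _ (sum_mem fun t _ => smul_mem _ ((G_mem_one _).2 h))
    generalize C.co b w = k at h1 ⊢
    have h2 := int_pow_mem h1 C.l
    rw [mul_pow, ← pow_mul, mul_comm b, pow_mul, y_pow, ← kl_alg, ← map_pow, ← map_pow,
      ← map_mul, kl_mem_one] at h2
    obtain ⟨g, hg⟩ := h2
    obtain ⟨d, hd⟩ : ∃ d, C.l = b + (d + 1) := ⟨C.l - b - 1, by omega⟩
    have h3 : (k * algebraMap F[X] (RatFunc F) C.f) ^ C.l =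
        algebraMap F[X] (RatFunc F) (C.f * (g * C.f ^ d)) := by
      rw [map_mul, map_mul, ← hg, map_pow, mul_pow]
      nth_rewrite 2 [hd]
      ring
    have h4 : IsIntegral F[X] (k * algebraMap F[X] (RatFunc F) C.f) :=
      IsIntegral.of_pow C.hl.pos (h3 ▸ isIntegral_algebraMap)
    obtain ⟨g1, hg1⟩ := IsIntegrallyClosed.isIntegral_iff.1 h4
    rw [← hg1, ← map_pow] at h3
    obtain ⟨g2, rfl⟩ := C.sep.squarefree.isRadical C.l g1
      ⟨_, IsFractionRing.injective F[X] (RatFunc F) h3⟩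
    have h0 : algebraMap F[X] (RatFunc F) C.f ≠ 0 := by simpa using C.mon.ne_zero
    rw [map_mul, mul_comm] at hg1
    exact ⟨g2, (mul_right_cancel₀ h0 hg1).symm⟩
  · intro h
    rw [co_sum w]
    refine sum_mem fun b hb => ?_
    obtain ⟨g, hg⟩ := h b (mem_range.1 hb)
    rw [hg, kl_alg]
    exact mul_mem (pl_mem_one g) (int_pow_mem y_mem_one b)

theorem mem_sp_pl {w : C.L} {D : F[X]} :
    w ∈ C.sp (C.pl D) ↔ ∀ b < C.l, ∃ g, C.co b w = algebraMap F[X] (RatFunc F) (D * g) := by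
  rw [mem_sp]
  constructor
  · rintro ⟨o, ho, rfl⟩ b hb
    obtain ⟨g, hg⟩ := mem_one_iff.1 ho b hb
    exact ⟨g, by rw [← kl_alg, co_kl, hg, map_mul]⟩
  · intro h
    choose! g hg using h
    refine ⟨∑ b ∈ range C.l, C.pl (g b) * C.y ^ b,
      sum_mem fun b _ => mul_mem (pl_mem_one _) (int_pow_mem y_mem_one b), ?_⟩
    rw [co_sum w, mul_sum]
    refine sum_congr rfl fun b hb => ?_
    rw [hg b (mem_range.1 hb), kl_alg, map_mul, mul_assoc]

theorem exists_nrm_pl {w : C.L} (h : w ∈ (1 : C.FI)) : ∃ g, C.nrm w = C.pl g := by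
  obtain ⟨k, hk⟩ := exists_nrm_kl w
  have h1 : C.nrm w ∈ (1 : C.FI) := int_prod_mem fun u _ => (G_mem_one _).2 h
  rw [hk] at h1
  obtain ⟨g, rfl⟩ := kl_mem_one.1 h1
  exact ⟨g, hk.trans (kl_alg g)⟩

theorem pl_mem_sp {g U : F[X]} : C.pl g ∈ C.sp (C.pl U) ↔ U ∣ g := by
  constructor
  · intro h
    obtain ⟨k, hk⟩ := mem_sp_pl.1 h 0 C.hl.pos
    rw [← kl_alg, int_co_kl, if_pos rfl] at hk
    exact ⟨k, IsFractionRing.injective F[X] (RatFunc F) hk⟩
  · rintro ⟨k, rfl⟩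
    exact mem_sp.2 ⟨_, pl_mem_one k, map_mul _ _ _⟩

theorem pl_mem_spy {g : F[X]} : C.pl g ∈ C.sp C.y ↔ C.f ∣ g := by
  obtain ⟨d, hd⟩ : ∃ d, C.l = d + 1 := ⟨C.l - 1, by have := C.hl.pos; omega⟩
  have e : C.pl C.f = C.y * C.y ^ d := by rw [← y_pow, hd, pow_succ']
  constructor
  · intro h
    obtain ⟨o, ho, h1⟩ := mem_sp.1 h
    have h2 : C.pl g * C.y ^ d ∈ C.sp (C.pl C.f) :=
      mem_sp.2 ⟨o, ho, by rw [h1, e]; ring⟩
    obtain ⟨k, hk⟩ := mem_sp_pl.1 h2 d (by omega)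
    rw [← kl_alg, co_mono (by omega), if_pos rfl] at hk
    exact ⟨k, IsFractionRing.injective F[X] (RatFunc F) hk⟩
  · rintro ⟨k, rfl⟩
    exact mem_sp.2 ⟨C.y ^ d * C.pl k, mul_mem (int_pow_mem y_mem_one d) (pl_mem_one k),
      by rw [map_mul, e, mul_assoc]⟩

theorem sub_co0 {w : C.L} (h : w ∈ (1 : C.FI)) :
    ∃ g, C.co 0 w = algebraMap F[X] (RatFunc F) g ∧ w - C.pl g ∈ C.sp C.y := by
  obtain ⟨d, hd⟩ : ∃ d, C.l = d + 1 := ⟨C.l - 1, by have := C.hl.pos; omega⟩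
  have h1 := mem_one_iff.1 h
  obtain ⟨g, hg⟩ := h1 0 C.hl.pos
  refine ⟨g, hg, ?_⟩
  have e := co_sum w
  rw [hd, sum_range_succ', hg, kl_alg, pow_zero, mul_one] at e
  rw [sub_eq_of_eq_add e]
  refine sum_mem fun b hb => ?_
  obtain ⟨k, hk⟩ := h1 (b + 1) (by have := mem_range.1 hb; omega)
  rw [hk, kl_alg]
  exact mem_sp.2 ⟨C.pl k * C.y ^ b, mul_mem (pl_mem_one k) (int_pow_mem y_mem_one b), by ring⟩

omit [IsAlgClosed F] in
theorem int_sg_y (z : F) {w : C.L} (h : w ∈ C.sp C.y) : (C.sg z).1 w ∈ C.sp C.y := by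
  obtain ⟨u, hu, e⟩ := int_sg_cases (C := C) z
  obtain ⟨o, ho, rfl⟩ := mem_sp.1 h
  rw [e, map_mul, sg_y hu, smul_mul_assoc]
  exact smul_mem _ (mem_sp.2 ⟨_, (G_mem_one _).2 ho, rfl⟩)

theorem sg_sub_mem (z : F) {w : C.L} (h : w ∈ (1 : C.FI)) : (C.sg z).1 w - w ∈ C.sp C.y := by
  obtain ⟨g, -, hg⟩ := sub_co0 h
  have h1 := sub_mem (int_sg_y z hg) hg
  rwa [map_sub, sg_pl, sub_sub_sub_cancel_right] at h1

theorem nrm_cong {w : C.L} {g : F[X]} (h : w - C.pl g ∈ C.sp C.y) :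
    C.nrm w - C.pl (g ^ C.l) ∈ C.sp C.y := by
  have hw : w ∈ (1 : C.FI) := by
    have := add_mem (sp_le.2 y_mem_one h) (pl_mem_one g)
    rwa [sub_add_cancel] at this
  rw [← nrm_pl, nrm, nrm]
  induction nthRootsFinset C.l (1 : F) using Finset.cons_induction with
  | empty => simpa using FractionalIdeal.zero_mem _
  | cons u s hu ih =>
    rw [prod_cons, prod_cons]
    have h1 := add_mem (mul_mem ((G_mem_one (C.sg u)).2 hw) ih)
      (mul_mem (int_prod_mem (s := s) fun v _ => (G_mem_one (C.sg v)).2 (pl_mem_one g))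
        (int_sg_y u h))
    rw [map_sub] at h1
    exact (congrArg (· ∈ C.sp C.y) (by ring)).mp h1

theorem nrmI_mul (I J : C.FI) : C.nrmI (I * J) = C.nrmI I * C.nrmI J := by
  simp only [nrmI, map_mul, prod_mul_distrib]

theorem nrmI_sp (w : C.L) : C.nrmI (C.sp w) = C.sp (C.nrm w) := by
  rw [nrmI, nrm]
  induction nthRootsFinset C.l (1 : F) using Finset.cons_induction with
  | empty => simp [sp_one]
  | cons u s hu ih => rw [prod_cons, prod_cons, sp_mul, ih, act_sp]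

theorem nrmI_sg (z : F) (I : C.FI) : C.nrmI (C.act (C.sg z) I) = C.nrmI I := by
  obtain ⟨u, hu, e⟩ := int_sg_cases (C := C) z
  rw [e, nrmI, nrmI, ← int_prod_shift hu fun v => C.act (C.sg v) I]
  exact prod_congr rfl fun v hv => by
    rw [← act_mul, ← sg_mul (int_mem_rt.1 hv) hu, mul_comm]

theorem nrmI_le {I : C.FI} (h : I ≤ 1) : C.nrmI I ≤ I := by
  classical
  rw [nrmI, ← mul_prod_erase _ _ (int_mem_rt.2 (one_pow _)), sg_one, act_one]
  refine mul_le_of_le_one_right' (prod_induction _ (· ≤ 1) (fun _ _ => mul_le_one') le_rfl ?_)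
  intro u _
  rw [← map_one (C.act (C.sg u)), act_le]
  exact h

theorem nrmI_ne {I : C.FI} (h : I ≠ 0) : C.nrmI I ≠ 0 := by
  exact prod_ne_zero_iff.2 fun u _ => (_root_.map_ne_zero _).2 h

theorem nrm_mem {I : C.FI} {w : C.L} (h : w ∈ I) : C.nrm w ∈ C.nrmI I := by
  rw [nrmI, nrm]
  induction nthRootsFinset C.l (1 : F) using Finset.cons_induction with
  | empty => exact mem_one.2 (one_mem _)
  | cons u s hu ih =>
    rw [prod_cons, prod_cons]
    exact FractionalIdeal.mul_mem_mul ((mem_act _ _ _).2 h) ih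

theorem hp_succ {z : F} (hz : z ^ C.l = 1) (h w : C.L) (t : ℕ) :
    h * (C.sg z).1 (C.hp z h t * (C.sg (z ^ t)).1 w) =
      C.hp z h (t + 1) * (C.sg (z ^ (t + 1))).1 w := by
  rw [hp, hp, prod_range_succ', map_mul, map_prod, pow_zero, int_sg_one,
    int_sg_sg hz (int_pow_rt hz t), ← pow_succ']
  rw [prod_congr rfl fun b _ => by rw [int_sg_sg hz (int_pow_rt hz b), ← pow_succ']]
  ring

theorem op_inj {z : F} (hz : IsPrimitiveRoot z C.l) {h : C.L} (h0 : h ≠ 0) {A B : ℕ → C.L}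
    (e : ∀ w, C.op z h A w = C.op z h B w) : ∀ t < C.l, A t = B t := by
  intro s hs
  have h1 : ∀ a, ∑ t ∈ range C.l, (z ^ a) ^ t • ((A t - B t) * C.hp z h t) = 0 := by
    intro a
    have h2 := sub_eq_zero.2 (e (C.y ^ a))
    rw [op, op, ← sum_sub_distrib] at h2
    refine mul_right_cancel₀ (pow_ne_zero a y_ne) ?_
    rw [zero_mul, ← h2, sum_mul]
    refine sum_congr rfl fun t _ => ?_
    rw [map_pow, sg_y (int_pow_rt hz.pow_eq_one t), _root_.smul_pow, ← pow_mul, ← pow_mul, mul_comm a t]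
    simp only [Algebra.smul_def]
    ring
  have h2 : ∑ a ∈ range C.l, z⁻¹ ^ (a * s) •
      ∑ t ∈ range C.l, (z ^ a) ^ t • ((A t - B t) * C.hp z h t) = 0 := by
    simp only [h1, smul_zero, sum_const_zero]
  simp only [smul_sum, smul_smul] at h2
  rw [sum_comm, sum_congr rfl fun t ht => by
    rw [← sum_smul, int_geom hz hs (mem_range.1 ht)]] at h2
  simp only [ite_smul, zero_smul, sum_ite_eq', mem_range, hs, if_true] at h2
  have h3 : C.hp z h s ≠ 0 := prod_ne_zero_iff.2 fun u _ => (_root_.map_ne_zero _).2 h0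
  exact sub_eq_zero.1 ((mul_eq_zero.1 ((smul_eq_zero.1 h2).resolve_left C.hc)).resolve_right h3)

theorem h90 {z : F} (hz : IsPrimitiveRoot z C.l) {h : C.L} (hn : C.nrm h = 1) :
    ∃ w, w ≠ 0 ∧ h * (C.sg z).1 w = w := by
  have h0 : h ≠ 0 := by
    rintro rfl
    simp [nrm, int_card, C.hl.ne_zero] at hn
  by_cases e : ∀ w, C.op z h 1 w = C.op z h 0 w
  · exact absurd (op_inj hz h0 e 0 C.hl.pos) one_ne_zero
  obtain ⟨w, hw⟩ := not_forall.1 e
  simp only [op, Pi.one_apply, one_mul, Pi.zero_apply, zero_mul, sum_const_zero] at hw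
  refine ⟨_, hw, ?_⟩
  rw [map_sum, mul_sum]
  simp only [hp_succ hz.pow_eq_one]
  have h1 := sum_range_succ' (fun t => C.hp z h t * (C.sg (z ^ t)).1 w) C.l
  have h2 : C.hp z h C.l = 1 := by rw [hp, ← nrm_eq hz, hn]
  rw [sum_range_succ, h2, hz.pow_eq_one, hp, range_zero, prod_empty, pow_zero] at h1
  exact (add_right_cancel h1).symm

omit [IsAlgClosed F] in
theorem int_hp_add {z : F} (hz : z ^ C.l = 1) (h : C.L) (a b : ℕ) :
    C.hp z h (a + b) = C.hp z h a * (C.sg (z ^ a)).1 (C.hp z h b) := by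
  rw [hp, hp, hp, prod_range_add, map_prod]
  congr 1
  exact prod_congr rfl fun t _ => by
    rw [int_sg_sg (int_pow_rt hz _) (int_pow_rt hz _), ← pow_add]

theorem op_tw {z : F} (hz : IsPrimitiveRoot z C.l) {h : C.L} {U : F[X]} (hn : C.nrm h = C.pl U)
    (A B : ℕ → C.L) (w : C.L) : C.op z h (C.tw z U A B) w = C.op z h A (C.op z h B w) := by
  have hz1 := hz.pow_eq_one
  simp only [op, tw, sum_mul, map_sum, mul_sum]
  rw [sum_comm]
  refine sum_congr rfl fun a ha => ?_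
  rw [mem_range] at ha
  refine sum_nbij' (fun k => if a ≤ k then k - a else k + C.l - a)
    (fun b => if a + b < C.l then a + b else a + b - C.l) ?_ ?_ ?_ ?_ fun k hk => ?_
  · intro k hk
    rw [mem_range] at hk ⊢
    split_ifs <;> omega
  · intro k hk
    rw [mem_range] at hk ⊢
    split_ifs <;> omega
  · intro k hk
    rw [mem_range] at hk
    split_ifs <;> omega
  · intro k hk
    rw [mem_range] at hk
    split_ifs <;> omega
  · rw [mem_range] at hk
    rw [map_mul, map_mul, int_sg_sg (int_pow_rt hz1 _) (int_pow_rt hz1 _), ← pow_add]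
    split_ifs with h1
    · obtain ⟨b, rfl⟩ := Nat.exists_eq_add_of_le h1
      rw [show a + b + C.l - a = b + C.l by omega, Nat.add_mod_right, Nat.mod_eq_of_lt (by omega),
        Nat.add_sub_cancel_left, int_hp_add hz1]
      ring
    · rw [Nat.mod_eq_of_lt (by omega)]
      have h2 := int_hp_add hz1 h a (k + C.l - a)
      rw [show a + (k + C.l - a) = k + C.l by omega] at h2 ⊢
      rw [int_hp_add hz1, show C.hp z h C.l = C.pl U by rw [hp, ← nrm_eq hz, hn], sg_pl] at h2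
      rw [pow_add, hz1, mul_one]
      linear_combination (A a * (C.sg (z ^ a)).1 (B (k + C.l - a)) * (C.sg (z ^ k)).1 w) * h2


end Vale.Agent.P319.A.Crv
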