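import Vale.Agent.P319.A.PT3

/-! Polynomial time: the top level. -/

namespace Vale.Agent.P319.A.Pt

open Vale.Agent.Lib.H23 List Ops

variable {α : Type} [Enc α] {p n l r ro : α → ℕ} {u g a b : α → List ℕ} {tab : α → Tab}

@[fun_prop] theorem pu_bnd (hn : PU n) : PU fun y => bnd (n y) := by unfold bnd; fun_prop
@[fun_prop] theorem pt_bnd (hn : PU n) : PT fun y => bnd (n y) := (pu_bnd hn).pt

@[fun_prop] theorem pu_minF (hn : PU n) : PU fun y => minF (n y) := by
  refine PU.of_le (f := fun y => n y + 1) (by fun_prop) (PT.headD (pt_filtR (by fun_prop)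
    (pt_decAnd (by fun_prop) (by fun_prop))) (PT.const 1)) fun y => ?_
  rcases headD_mem ((range (n y + 1)).filter fun d => decide (2 ≤ d ∧ n y % d = 0)) 1 with h | h
  · rw [minF, h]; omega
  · exact (List.mem_range.1 (List.mem_of_mem_filter h)).le
@[fun_prop] theorem pt_minF (hn : PU n) : PT fun y => minF (n y) := (pu_minF hn).pt

@[fun_prop] theorem pu_valu (hl : PT l) (hn : PU n) : PU fun y => valu (l y) (n y) := by
  unfold valu; simp only [filtR_eq]; fun_prop
@[fun_prop] theorem pt_valu (hl : PT l) (hn : PU n) : PT fun y => valu (l y) (n y) :=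
  (pu_valu hl hn).pt

@[fun_prop] theorem pu_log (hp : PT p) : PU fun y => Nat.log 2 (p y) :=
  (PU.sz hp).of_le (pt_log hp) fun y =>
    (Nat.log_mono_right (lt_two_pow_sz (p y)).le).trans (by rw [Nat.log_pow (by omega)])

@[fun_prop] theorem pu_pw (hr : PU r) (ho : PT ro) (hn : PT n) :
    PU fun y => pw (r y) (ro y) (n y) :=
  hr.of_le (pt_pw hr.pt ho hn) fun y => foldl_inv' (fun s => s ≤ r y) (nm_le _ _)
    fun _ b _ _ => by cases b <;> exact nm_le _ _

@[fun_prop] theorem pt_split {t : α → List ℕ × List ℕ} (hp : PT p) (ht : PT t) (hg : PT g) :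
    PT fun y => split (p y) (t y) (g y) := by
  unfold split; simp only [filtR_eq]; fun_prop

theorem foldMax_filter_le (n : ℕ) (f : ℕ → Bool) : ((range n).filter f).foldl max 0 ≤ n := by
  rcases foldMax_mem ((range n).filter f) 0 with h | h
  · omega
  · exact (List.mem_range.1 (List.mem_of_mem_filter h)).le

@[fun_prop] theorem pt_mnc (hp : PT p) (ha : PT a) : PT fun y => mnc (p y) (a y) := by
  have h : PU fun y => ((range (a y).length).filter fun j =>
      !isZ (p y) (cf (p y) (a y) j)).foldl max 0 :=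
    (PU.length ha).of_le (by fun_prop) fun _ => foldMax_filter_le _ _
  have := h.pt
  unfold mnc; dsimp only; fun_prop

theorem length_mnc (p : ℕ) (a : List ℕ) : (mnc p a).length ≤ a.length := by
  rw [mnc, length_fit]; exact foldMax_filter_le _ _

theorem an_mnc (p : ℕ) (a : List ℕ) : An (mnc p a) (rd p) := an_fit (an_psmul _ _ _) le_rfl _

@[fun_prop] theorem pt_gcdStep {s : α → List ℕ × List ℕ} (hp : PT p) (hs : PT s) :
    PT fun y => gcdStep (p y) (s y) := by unfold gcdStep; fun_prop

def GI (L B : ℕ) (s : List ℕ × List ℕ) : Prop :=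
  s.1.length ≤ L ∧ s.2.length ≤ L ∧ An s.1 B ∧ An s.2 B

theorem gi_step {p L B : ℕ} (hB : rd p ≤ B) {s : List ℕ × List ℕ} (h : GI L B s) :
    GI L B (gcdStep p s) := by
  unfold gcdStep
  cases s.2.all (isZ p)
  · have h1 := (length_mnc p s.2).trans h.2.1
    exact ⟨h1, by simpa using h1, (an_mnc _ _).mono hB, (an_prem _ _ _).mono hB⟩
  · exact h

theorem gi_init {p B : ℕ} (hB : rd p ≤ B) {u : List ℕ} (h : An u B) (b : List ℕ) :
    GI u.length B (u, prem p u b) := ⟨le_rfl, by simp, h, (an_prem _ _ _).mono hB⟩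

@[fun_prop] theorem pt_pgcd (hp : PT p) (hu : PT u) (hb : PT b) :
    PT fun y => pgcd (p y) (u y) (b y) :=
  (pt_foldI (f := fun y s _ => gcdStep (p y) s) (fun y => GI (u y).length (sz (u y) + rd (p y)))
    (fun y => 2 * ((u y).length * (sz (u y) + rd (p y) + 1) + 1) + 1) (by fun_prop) (by fun_prop)
    (by fun_prop) (by fun_prop) (fun _ => gi_init (by omega) ((an_self _).mono (by omega)) _)
    (fun _ _ _ _ h => gi_step (by omega) h) fun _ s h => by
      have := sz_list_le' h.1 h.2.2.1
      have := sz_list_le' h.2.1 h.2.2.2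
      rw [sz_prod]; omega).fst

theorem an_pgcd {p B : ℕ} (hB : rd p ≤ B) {u : List ℕ} (h : An u B) (b : List ℕ) :
    An (pgcd p u b) B :=
  (foldl_inv' (GI u.length B) (gi_init hB h b) fun _ _ _ h => gi_step hB h).2.2.1

@[fun_prop] theorem pt_trySplit {cs : α → List (List ℕ)} (hp : PT p) (hu : PT u) (hc : PT cs) :
    PT fun y => trySplit (p y) (u y) (cs y) := by
  refine (PT.lcase (l := fun y => ((cs y).map (pgcd (p y) (u y))).filter fun d =>
      decide (0 < d.length ∧ d.length < (u y).length)) (g := fun y => [u y]) (h := fun y d _ =>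
      [d, fit (p y) ((u y).length - d.length) (pquo (p y) d (mono (p y) (u y)))])
    (pt_filter (pt_decAnd (by fun_prop) (by fun_prop)) (by fun_prop)) (by fun_prop)
    (by fun_prop)).congr fun y => ?_
  unfold trySplit
  split <;> rename_i e <;> rw [e] <;> rfl

/-- potential of a piece -/
def pot (g : List ℕ) : ℕ := max (2 * g.length - 1) 1

def RI (N B : ℕ) (L : List (List ℕ)) : Prop := (L.map pot).sum ≤ N ∧ ∀ g ∈ L, An g B

theorem ri_trySplit {p B : ℕ} (hB : rd p ≤ B) {u : List ℕ} (h : An u B) (cs : List (List ℕ)) :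
    RI (pot u) B (trySplit p u cs) := by
  unfold trySplit
  split
  · exact ⟨by simp, by simpa using h⟩
  · rename_i d t e
    have h1 : d ∈ (cs.map (pgcd p u)).filter fun d => decide (0 < d.length ∧ d.length < u.length) :=
      e ▸ List.mem_cons_self
    obtain ⟨h2, h3⟩ := List.mem_filter.1 h1
    obtain ⟨b, -, h2⟩ := List.mem_map.1 h2
    rw [decide_eq_true_eq] at h3
    refine ⟨by simp only [pot, List.map_cons, List.map_nil, List.sum_cons, List.sum_nil,
      length_fit]; omega, fun g hg => ?_⟩
    rcases List.mem_pair.1 hg with rfl | rfl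
    · exact h2 ▸ an_pgcd hB h b
    · exact an_fit (an_pquo _ (an_mono h hB) hB) hB _

theorem ri_step {p N B : ℕ} (hB : rd p ≤ B) (cand : List ℕ → List (List ℕ)) {L : List (List ℕ)}
    (h : RI N B L) : RI N B (L.flatMap fun g => trySplit p g (cand g)) := by
  refine ⟨le_trans ?_ h.1, fun g hg => ?_⟩
  · have h2 := h.2
    clear h
    induction L with
    | nil => simp
    | cons a L ih =>
      have h3 := (ri_trySplit hB (h2 a (by simp)) (cand a)).1
      have h4 := ih fun g hg => h2 g (by simp [hg])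
      simp only [List.flatMap_cons, List.map_append, List.sum_append, List.map_cons, List.sum_cons]
      omega
  · obtain ⟨a, ha, hg⟩ := List.mem_flatMap.1 hg
    exact (ri_trySplit hB (h.2 a ha) (cand a)).2 g hg

theorem RI.len {N B : ℕ} {L : List (List ℕ)} (h : RI N B L) {g : List ℕ} (hg : g ∈ L) :
    g.length ≤ N := by
  have := List.single_le_sum (fun _ _ => Nat.zero_le _) _ (List.mem_map_of_mem (f := pot) hg)
  have := h.1
  unfold pot at *
  omega

theorem RI.sz_le {N B : ℕ} {L : List (List ℕ)} (h : RI N B L) :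
    sz L ≤ N * (N * (B + 1) + 1 + 1) + 1 := by
  refine sz_list_le' (le_trans ?_ h.1) fun g hg => sz_list_le' (h.len hg) (h.2 g hg)
  clear h
  induction L with
  | nil => simp
  | cons a L ih => simp only [List.length_cons, List.map_cons, List.sum_cons, pot] at ih ⊢; omega

theorem ri_init {B : ℕ} {u : List ℕ} (h : An u B) : RI (2 * u.length + 1) B [u] :=
  ⟨by simp only [pot, List.map_cons, List.map_nil, List.sum_cons, List.sum_nil]; omega,
    by simpa using h⟩

theorem ri_refine {p B : ℕ} (hB : rd p ≤ B) (cand : List ℕ → List (List ℕ)) {u : List ℕ}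
    (h : An u B) : RI (2 * u.length + 1) B (refine p cand u) :=
  foldl_inv' (RI _ B) (ri_init h) fun _ _ _ h => ri_step hB cand h

@[fun_prop] theorem pt_refine {cand : α → List ℕ → List (List ℕ)} (hp : PT p)
    (hc : PT fun q : α × List ℕ => cand q.1 q.2) (hu : PT u) :
    PT fun y => refine (p y) (cand y) (u y) :=
  pt_foldI (f := fun y (L : List (List ℕ)) (_ : ℕ) => L.flatMap fun g => trySplit (p y) g (cand y g))
    (fun y => RI (2 * (u y).length + 1) (sz (u y) + rd (p y)))
    (fun y => (2 * (u y).length + 1) * ((2 * (u y).length + 1) * (sz (u y) + rd (p y) + 1) + 1 + 1)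
      + 1) (by fun_prop) (by fun_prop) (by fun_prop) (by fun_prop)
    (fun _ => ri_init ((an_self _).mono (by omega))) (fun _ _ _ _ h => ri_step (by omega) _ h)
    fun _ _ h => h.sz_le

@[fun_prop] theorem pt_rootC (hp : PT p) (ht : PT tab) (hg : PT g) :
    PT fun y => rootC (p y) (tab y) (g y) := by unfold rootC; simp only [mapR_eq]; fun_prop

@[fun_prop] theorem pt_roots (hp : PT p) (ht : PT tab) (hu : PT u) :
    PT fun y => roots (p y) (tab y) (u y) := by unfold roots; fun_prop

@[fun_prop] theorem pt_berl (hp : PT p) (ht : PT tab) (hg : PT g) :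
    PT fun y => berl (p y) (tab y) (g y) := by unfold berl; simp only [mapR_eq]; fun_prop

@[fun_prop] theorem pt_fact (hp : PT p) (ht : PT tab) (hu : PT u) :
    PT fun y => fact (p y) (tab y) (u y) := by unfold fact; fun_prop

@[fun_prop] theorem pt_gauss (hp : PT p) (hl : PT l) (hu : PT u) (hr : PU r) (ho : PT ro) :
    PT fun y => gauss (p y) (l y) (u y) (r y) (ro y) := by
  unfold gauss; simp only [mapR_eq]; fun_prop

@[fun_prop] theorem pt_entry (C : ℕ) (hp : PT p) (ht : PT tab) (hl : PU l) :
    PT fun y => entry C (p y) (tab y) (l y) := by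
  have := hl.pt
  unfold entry; simp only [flatR_eq]; fun_prop

theorem entry_bd (C : ℕ) : ∃ Z : ℕ → ℕ → ℕ, PB2 Z ∧
    ∀ p tab l M, l ≤ M → sz (entry C p tab l) ≤ Z p M := by
  obtain ⟨Z, h1, h2⟩ := PB2.mono_bound (Z := fun (p : ℕ) l => (2 * l + 2) * (rd p + 5 + 1) + 1 +
    (8 * sz ((l * (Nat.log 2 p + 1)) ^ C + 1) + 5 + ((2 * l + 2) * (rd p + 1) + 1)) + 1)
    (by unfold PB2; fun_prop)
  refine ⟨Z, h1, fun p tab l M h => le_trans ?_ (h2 p l M h)⟩
  have e0 : sz (0 : ℕ) = 1 := rfl
  have e1 : sz (1 : ℕ) = 5 := rfl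
  unfold entry
  extract_lets md k0 R
  have h3 : md.length ≤ 2 * l + 2 ∧ An md (rd p + 5) := by
    simp only [md]
    split_ifs
    · exact ⟨by simp, fun a ha => by rw [List.mem_singleton.1 ha]; omega⟩
    · exact ⟨by simp, fun a ha => by rcases List.mem_pair.1 ha with rfl | rfl <;> omega⟩
    · have h4 := ri_refine (p := p) (B := rd p + 5) (by omega) (berl p tab)
        (u := replicate (l - 1) 1) fun a ha => by rw [List.eq_of_mem_replicate ha]; omega
      rcases headD_mem (fact p tab (replicate (l - 1) 1)) [] with h | h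
      · rw [h]; exact ⟨by simp, fun a ha => by simp at ha⟩
      · have := h4.len h
        rw [List.length_replicate] at this
        exact ⟨by omega, h4.2 _ h⟩
  rw [sz_pair]
  refine Nat.add_le_add_right (Nat.add_le_add (sz_list_le' h3.1 h3.2) ?_) _
  rcases headD_mem (((range R).flatMap fun a => (range R).flatMap fun b =>
    [[a, b], gauss p l md a b]).filter fun g => !isZ k0 g && !isZ k0 (sub k0 (pw k0 g
      ((p ^ md.length - 1) / l)) (one k0))) [] with h | h
  · rw [h, sz_nil]; omega
  · generalize List.headD _ _ = e at h ⊢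
    obtain ⟨a, ha, h⟩ := List.mem_flatMap.1 (List.mem_of_mem_filter h)
    obtain ⟨b, hb, h⟩ := List.mem_flatMap.1 h
    rcases List.mem_pair.1 h with rfl | rfl
    · have := sz_nat_mono (List.mem_range.1 ha).le
      have := sz_nat_mono (List.mem_range.1 hb).le
      simp only [sz_cons, sz_nil, R] at *
      omega
    · have h4 : sz (gauss p l md a b) ≤ md.length * (rd p + 1) + 1 := sz_prem _ _ _
      have := Nat.mul_le_mul_right (rd p + 1) h3.1
      omega

@[fun_prop] theorem pt_table (C : ℕ) (hp : PT p) (hn : PU n) : PT fun y => table C (p y) (n y) := by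
  obtain ⟨Z, h1, h2⟩ := entry_bd C
  have h3 : PB fun y => Z (p y) (n y + 1) := h1.app hp (by fun_prop)
  refine pt_foldR (f := fun y tab l => tab ++ [entry C (p y) tab l])
    (fun y k s => sz s ≤ 1 + k * (Z (p y) (n y + 1) + 1))
    (fun y => 1 + (n y + 1) * (Z (p y) (n y + 1) + 1)) (by fun_prop) (by fun_prop) (by fun_prop)
    ((PB.const 1).add (PB.mul (by fun_prop) (h3.add (PB.const 1)))) (fun _ => by simp)
    (fun y k s l hl _ h => ?_) fun y k s hk h =>
      h.trans (Nat.add_le_add_left (Nat.mul_le_mul_right _ hk) _)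
  have h4 := sz_append s [entry C (p y) s l]
  have h5 := h2 (p y) s l _ hl.le
  rw [sz_cons, sz_nil] at h4
  rw [Nat.succ_mul]; omega

/-- the factoring program runs in polynomial time -/
theorem _root_.Vale.Agent.P319.A.pt_factor (C : ℕ) : PT (factor C) := by
  unfold factor; dsimp only; fun_prop

end Vale.Agent.P319.A.Pt
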