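import Vale.Agent.P319.A.Top

/-! The field k0(g^(1/l^v)): lifting the exponent. -/

namespace Vale.Agent.P319.A

open Polynomial Finset

variable {p : ℕ} [Fact p.Prime]

theorem tower_pb : (fun a => algebraMap (ZMod p) (Fb p) (pz p a)) = pb p := by
  funext a; simp

theorem tower_lte {q l : ℕ} (hl : l.Prime) (hq : 2 ≤ q) (hd : l ∣ q - 1) (h4 : l = 2 → 4 ∣ q - 1)
    (n k : ℕ) : l ^ k ∣ ∑ i ∈ range n, q ^ i ↔ l ^ k ∣ n := by
  have hx : ¬ l ∣ q := fun h => by
    have := (Nat.dvd_sub h hd)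
    rw [show q - (q - 1) = 1 by omega] at this
    exact hl.one_lt.ne' (Nat.dvd_one.1 this)
  have h1 : emultiplicity l (q ^ n - 1) = emultiplicity l (q - 1) + emultiplicity l n := by
    rcases hl.eq_two_or_odd' with rfl | ho
    · have h5 : (4 : ℤ) ∣ (q : ℤ) - 1 := by
        have := Int.natCast_dvd_natCast.2 (h4 rfl)
        rwa [Int.natCast_sub (by omega)] at this
      have h6 := Int.two_pow_sub_pow' n h5 (by exact_mod_cast hx)
      iterate 3 rw [← Int.natCast_emultiplicity]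
      rw [Int.natCast_sub (Nat.one_le_pow _ _ (by omega)), Int.natCast_sub (by omega)]
      simpa using h6
    · simpa using Nat.emultiplicity_pow_sub_pow hl ho (y := 1) hd hx n
  rw [← geom_sum_mul_of_one_le (by omega : 1 ≤ q), emultiplicity_mul hl.prime, add_comm] at h1
  have hfin : emultiplicity l (q - 1) ≠ ⊤ :=
    finiteMultiplicity_iff_emultiplicity_ne_top.1
      (Nat.finiteMultiplicity_iff.2 ⟨hl.ne_one, by omega⟩)
  have h2 := WithTop.add_left_cancel hfin h1
  rw [pow_dvd_iff_le_emultiplicity, pow_dvd_iff_le_emultiplicity, h2]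

theorem ind_of_irr {md : List ℕ} (h : Irreducible (mon (pz p) md)) {u : Fb p}
    (hu : (mon (pb p) md).eval u = 0) : Ind (pb p) u md.length ∧ u ^ p ^ md.length = u ∧
      0 < md.length := by
  have hm : (mon (pz p) md).map (algebraMap (ZMod p) (Fb p)) = mon (pb p) md := by
    rw [map_mon, tower_pb]
  have ha : aeval u (mon (pz p) md) = 0 := by rw [← eval_map_algebraMap, hm, hu]
  have hmin : mon (pz p) md = minpoly (ZMod p) u :=
    minpoly.eq_of_irreducible_of_monic h ha (mon_monic _)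
  have hdeg : (mon (pz p) md).natDegree = md.length := natDegree_mon _
  refine ⟨fun l hl he => ?_, ?_, hdeg ▸ h.natDegree_pos⟩
  · have hm' : (toP (pz p) l).map (algebraMap (ZMod p) (Fb p)) = toP (pb p) l := by
      rw [map_toP, tower_pb]
    have ha' : aeval u (toP (pz p) l) = 0 := by rw [← eval_map_algebraMap, hm']; exact he
    have h0 : toP (pz p) l = 0 := by
      by_contra hne
      have h1 := minpoly.degree_le_of_ne_zero (ZMod p) u hne ha'
      rw [← hmin, degree_eq_natDegree h.ne_zero, hdeg] at h1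
      have h2 := degree_toP_lt (π := pz p) l
      have h3 : (l.length : WithBot ℕ) ≤ md.length := by exact_mod_cast hl
      exact absurd (h1.trans_lt h2) (not_lt.2 h3)
    rw [← hm', h0, Polynomial.map_zero]
  · have h1 := (h.natDegree_dvd_iff_dvd_X_pow_card_pow_sub_X (n := md.length)).1 (hdeg ▸ dvd_rfl)
    have h2 := aeval_eq_zero_of_dvd_aeval_eq_zero h1 ha
    rw [Nat.card_zmod] at h2
    simpa [sub_eq_zero] using h2
/-- `g` lies in the field with `q` elements and is not an `l`-th power there, `w^(l^v) = g` -/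
theorem tower {F : Type} [Field F] {q l v : ℕ} (hl : l.Prime) (hq : 2 ≤ q) (hd : l ∣ q - 1)
    (h4 : l = 2 → 4 ∣ q - 1) {g w : F} (h0 : g ≠ 0) (hg : g ^ q = g) (hn : g ^ ((q - 1) / l) ≠ 1)
    (hw : w ^ l ^ v = g) : w ^ q ^ l ^ v = w ∧ w ^ ((q ^ l ^ v - 1) / l) ≠ 1 ∧
      l ∣ q ^ l ^ v - 1 ∧ IsPrimitiveRoot (g ^ ((q - 1) / l)) l ∧
      ∀ i j, i < j → j < l ^ v → w ^ q ^ i ≠ w ^ q ^ j := by
  obtain ⟨e, he⟩ := hd
  have hdiv : (q - 1) / l = e := by rw [he, Nat.mul_div_cancel_left _ hl.pos]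
  have hd : l ∣ q - 1 := ⟨e, he⟩
  have hx : ¬ l ∣ q := fun h => by
    have := (Nat.dvd_sub h hd)
    rw [show q - (q - 1) = 1 by omega] at this
    exact hl.one_lt.ne' (Nat.dvd_one.1 this)
  rw [hdiv] at hn ⊢
  have hg1 : g ^ (q - 1) = 1 := by
    apply mul_right_cancel₀ h0
    rw [← pow_succ, one_mul, Nat.sub_add_cancel (by omega), hg]
  have hz : IsPrimitiveRoot (g ^ e) l := by
    have := Fact.mk hl
    have h1 : orderOf (g ^ e) = l :=
      orderOf_eq_prime (by rw [← pow_mul, mul_comm, ← he, hg1]) hn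
    exact h1 ▸ IsPrimitiveRoot.orderOf _
  have hw0 : w ≠ 0 := fun h => h0 (by rw [← hw, h, zero_pow (pow_ne_zero _ hl.ne_zero)])
  have hS : ∀ n, q ^ n - 1 = (∑ i ∈ range n, q ^ i) * (l * e) := fun n => by
    rw [← he, geom_sum_mul_of_one_le (by omega : 1 ≤ q)]
  obtain ⟨c, hc⟩ := (tower_lte hl hq hd h4 (l ^ v) v).2 dvd_rfl
  have hc' : ¬ l ∣ c := fun h => by
    have h1 : l ^ (v + 1) ∣ ∑ i ∈ range (l ^ v), q ^ i := by
      rw [hc, pow_succ]; exact Nat.mul_dvd_mul_left _ h
    have h2 := (tower_lte hl hq hd h4 (l ^ v) (v + 1)).1 h1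
    have := (Nat.pow_dvd_pow_iff_le_right hl.one_lt).1 h2
    omega
  refine ⟨?_, ?_, ?_, hz, ?_⟩
  · have h1 : 1 ≤ q ^ l ^ v := Nat.one_le_pow _ _ (by omega)
    rw [← Nat.sub_add_cancel h1, pow_succ, hS, hc, mul_assoc, pow_mul, hw, ← he, mul_comm c,
      pow_mul, hg1, one_pow, one_mul]
  · have h1 : (q ^ l ^ v - 1) / l = l ^ v * (e * c) := by
      rw [hS, hc, show l ^ v * c * (l * e) = l * (l ^ v * (e * c)) by ring,
        Nat.mul_div_cancel_left _ hl.pos]
    rw [h1, pow_mul, hw, pow_mul]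
    exact fun h => hc' ((hz.pow_eq_one_iff_dvd c).1 h)
  · rw [hS]
    exact Dvd.dvd.mul_left (Dvd.intro _ rfl) _
  · intro i j hij hj heq
    obtain ⟨d, rfl⟩ := Nat.exists_eq_add_of_lt hij
    have hS0 : ∑ t ∈ range (d + 1), q ^ t ≠ 0 := by
      rw [sum_range_succ']; simp
    obtain ⟨a, s, hs, hs'⟩ := Nat.exists_eq_pow_mul_and_not_dvd hS0 l hl.ne_one
    have ha : a < v := by
      by_contra hav
      have h1 : l ^ v ∣ ∑ t ∈ range (d + 1), q ^ t := by
        rw [hs']; exact Dvd.dvd.mul_right (pow_dvd_pow l (by omega)) s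
      have h2 := Nat.le_of_dvd (Nat.succ_pos d) ((tower_lte hl hq hd h4 (d + 1) v).1 h1)
      omega
    obtain ⟨b, rfl⟩ := Nat.exists_eq_add_of_lt ha
    have h1 : 1 ≤ q ^ (d + 1) := Nat.one_le_pow _ _ (by omega)
    have h2 : q ^ (i + d + 1) = q ^ i + q ^ i * (l ^ a * s * (l * e)) := by
      rw [← hs', ← hS, add_assoc, pow_add, ← mul_one_add, Nat.add_sub_cancel' h1]
    have h3 : w ^ (q ^ i * (l ^ a * s * (l * e))) = 1 := by
      apply mul_left_cancel₀ (pow_ne_zero (q ^ i) hw0)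
      rw [← pow_add, ← h2, mul_one, heq]
    have h5 : (g ^ e) ^ (q ^ i * s) = 1 := by
      rw [← hw, ← pow_mul, ← pow_mul,
        show l ^ (a + b + 1) * (e * (q ^ i * s)) = q ^ i * (l ^ a * s * (l * e)) * l ^ b by ring,
        pow_mul, h3, one_pow]
    rcases (Nat.Prime.dvd_mul hl).1 ((hz.pow_eq_one_iff_dvd _).1 h5) with h | h
    · exact hx (hl.dvd_of_dvd_pow h)
    · exact hs h
/-- independence from distinct conjugates -/
theorem ind_of_conj {E F : Type} [Field F] {π : E → F} (r : F →+* F) (hπ : ∀ a, r (π a) = π a)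
    {w : F} {d : ℕ} (h : ∀ i j, i < j → j < d → r^[i] w ≠ r^[j] w) : Ind π w d := by
  intro l hl he
  have hm : (toP π l).map r = toP π l := by
    rw [map_toP]; simp only [hπ]
  have hr : ∀ i, (toP π l).eval (r^[i] w) = 0 := by
    intro i
    induction i with
    | zero => exact he
    | succ i ih =>
      rw [Function.iterate_succ_apply', ← hm, eval_map, eval₂_at_apply, ih, map_zero]
  refine eq_zero_of_degree_lt_of_eval_index_eq_zero (range d) (v := fun i => r^[i] w) ?_ ?_
    fun i _ => hr i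
  · intro i hi j hj hij
    rcases lt_trichotomy i j with hlt | heq | hlt
    · exact absurd hij (h i j hlt (mem_range.1 hj))
    · exact heq
    · exact absurd hij.symm (h j i hlt (mem_range.1 hi))
  · rw [card_range]
    exact (degree_toP_lt l).trans_le (by exact_mod_cast hl)

end Vale.Agent.P319.A
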