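import Vale.Agent.P319.A.Berl
import Vale.Agent.P319.A.Tower

/-! Nonresidues from Gauss sums, the table of fields, the whole algorithm. -/

namespace Vale.Agent.P319.A

open Polynomial Finset

variable {p : ℕ} [Fact p.Prime]

private theorem tab_sum_gen {F : Type} [Field F] {r : ℕ} [Fact r.Prime] {g : (ZMod r)ˣ}
    (hg : ∀ x, x ∈ Subgroup.zpowers g) (χ : MulChar (ZMod r) F) (ψ : AddChar (ZMod r) F) :
    gaussSum χ ψ = ∑ j ∈ range (r - 1), χ g ^ j * ψ ((g : ZMod r) ^ j) := by
  classical
  have ho : orderOf g = r - 1 := by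
    rw [orderOf_eq_card_of_forall_mem_zpowers hg, Nat.card_eq_fintype_card, ZMod.card_units]
  have h1 : gaussSum χ ψ = ∑ a ∈ (univ : Finset (ZMod r)).erase 0, χ a * ψ a := by
    rw [gaussSum, ← Finset.add_sum_erase _ _ (mem_univ (0 : ZMod r)), MulChar.map_zero, zero_mul,
      zero_add]
  rw [h1]
  symm
  refine Finset.sum_bij (fun j _ => (g : ZMod r) ^ j) ?_ ?_ ?_ ?_
  · intro j _
    simp
  · intro i hi j hj e
    have e' : g ^ i = g ^ j := Units.ext (by simpa using e)
    exact pow_injOn_Iio_orderOf (by simpa [ho] using hi) (by simpa [ho] using hj) e'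
  · intro a ha
    have ha0 : a ≠ 0 := (mem_erase.1 ha).1
    have hm := hg (Units.mk0 a ha0)
    rw [← mem_powers_iff_mem_zpowers, mem_powers_iff_mem_range_orderOf] at hm
    obtain ⟨j, hj, e⟩ := mem_image.1 hm
    refine ⟨j, by simpa [ho] using hj, ?_⟩
    have := congrArg (fun x : (ZMod r)ˣ => (x : ZMod r)) e
    simpa using this
  · intro j _
    rw [map_pow χ]

private theorem tab_frob {F : Type} [Field F] [CharP F p] {r : ℕ} [Fact r.Prime]
    (χ : MulChar (ZMod r) F) (ψ : AddChar (ZMod r) F) (d : ℕ) :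
    gaussSum χ ψ ^ p ^ d = gaussSum (χ ^ p ^ d) (ψ ^ p ^ d) := by
  induction d with
  | zero => simp
  | succ d ih => rw [pow_succ, pow_mul, ih, gaussSum_frob p, ← pow_mul, ← pow_mul]

private theorem tab_gauss {F : Type} [Field F] [IsAlgClosed F] [CharP F p] {l r d : ℕ}
    (hl : l.Prime) [hr : Fact r.Prime] (hrp : r ≠ p) (hd : l ∣ r - 1)
    (hn : ¬ ∃ x : ZMod r, x ^ l = (p : ZMod r)) {u : F} (hz : IsPrimitiveRoot u l)
    (hm : ¬ l ∣ d) (hq' : l ∣ p ^ d - 1) :
    ∃ (g : ZMod r) (ξ G : F), IsPrimitiveRoot ξ r ∧ G ≠ 0 ∧ G ^ ((p ^ d - 1) / l) ≠ 1 ∧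
      ∀ a < r, (∑ j ∈ range (r - 1), u ^ j * (ξ ^ a) ^ (g ^ j).val) ^ l =
        if a = 0 then 0 else G := by
  classical
  have hp : p.Prime := Fact.out
  have hr0 : (r : F) ≠ 0 := by
    rw [Ne, CharP.cast_eq_zero_iff F p, Nat.prime_dvd_prime_iff_eq hp hr.out]
    exact hrp.symm
  have : NeZero (r : F) := ⟨hr0⟩
  obtain ⟨ξ, hξ⟩ := HasEnoughRootsOfUnity.exists_primitiveRoot F r
  obtain ⟨g, hg⟩ := IsCyclic.exists_generator (α := (ZMod r)ˣ)
  have hu0 : u ≠ 0 := hz.ne_zero hl.ne_zero
  have hul : u ^ l = 1 := hz.pow_eq_one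
  have hu1 : u ≠ 1 := hz.ne_one hl.one_lt
  have hur : u ^ (r - 1) = 1 := (hz.pow_eq_one_iff_dvd _).2 hd
  have hmem : Units.mk0 u hu0 ∈ rootsOfUnity (Fintype.card (ZMod r)ˣ) F := by
    rw [mem_rootsOfUnity, ZMod.card_units]
    exact Units.ext (by simpa using hur)
  set χ : MulChar (ZMod r) F := MulChar.ofRootOfUnity hmem hg with hχ
  have hχg : χ g = u := MulChar.ofRootOfUnity_spec hmem hg
  have hpow : ∀ a : (ZMod r)ˣ, ∃ j : ℕ, a = g ^ j := fun a => by
    have hm := hg a
    rw [← mem_powers_iff_mem_zpowers] at hm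
    obtain ⟨j, e⟩ := hm
    exact ⟨j, e.symm⟩
  have hχl : ∀ a : (ZMod r)ˣ, χ a ^ l = 1 := fun a => by
    obtain ⟨j, rfl⟩ := hpow a
    rw [Units.val_pow_eq_pow_val, map_pow, hχg, ← pow_mul, mul_comm, pow_mul, hul, one_pow]
  have hχ1 : χ ≠ 1 := fun h => hu1 (by rw [← hχg, h, MulChar.one_apply_coe])
  set ψ : AddChar (ZMod r) F := AddChar.zmodChar r hξ.pow_eq_one with hψ
  have hψp : ψ.IsPrimitive := AddChar.zmodChar_primitive_of_primitive_root r hξ
  have hτ : gaussSum χ ψ ≠ 0 :=
    gaussSum_ne_zero_of_nontrivial (by rw [ZMod.card]; exact hr0) hχ1 hψp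
  have hp0 : (p : ZMod r) ≠ 0 := fun h => hn ⟨0, by rw [h, zero_pow hl.ne_zero]⟩
  refine ⟨g, ξ, gaussSum χ ψ ^ l, hξ, pow_ne_zero _ hτ, ?_, ?_⟩
  · rw [← pow_mul, Nat.mul_div_cancel' hq']
    intro h1
    have hq1 : 1 ≤ p ^ d := Nat.one_le_pow _ _ hp.pos
    have h2 : gaussSum χ ψ ^ p ^ d = gaussSum χ ψ := by
      rw [← Nat.sub_add_cancel hq1, pow_succ, h1, one_mul]
    have hχq : χ ^ p ^ d = χ := by
      ext a
      rw [MulChar.pow_apply_coe, ← Nat.sub_add_cancel hq1, pow_succ]
      obtain ⟨k, hk⟩ := hq'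
      rw [hk, pow_mul, hχl, one_pow, one_mul]
    rw [tab_frob, hχq, AddChar.pow_mulShift] at h2
    have h3 := gaussSum_mulShift χ ψ (Units.mk0 (p : ZMod r) hp0 ^ d)
    have e : ((Units.mk0 (p : ZMod r) hp0 ^ d : (ZMod r)ˣ) : ZMod r) = ((p ^ d : ℕ) : ZMod r) := by
      simp
    rw [e, h2] at h3
    have h4 : χ ((p ^ d : ℕ) : ZMod r) = 1 := mul_right_cancel₀ hτ (by rw [h3, one_mul])
    obtain ⟨j, hj⟩ := hpow (Units.mk0 (p : ZMod r) hp0)
    have hj' : (p : ZMod r) = (g : ZMod r) ^ j := by
      have := congrArg (fun x : (ZMod r)ˣ => (x : ZMod r)) hj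
      simpa using this
    rw [Nat.cast_pow, hj', ← pow_mul, map_pow, hχg, hz.pow_eq_one_iff_dvd] at h4
    obtain ⟨k, hk⟩ := (hl.dvd_mul.1 h4).resolve_right hm
    exact hn ⟨(g : ZMod r) ^ k, by rw [hj', hk, ← pow_mul, mul_comm]⟩
  · intro a ha
    have e : ∑ j ∈ range (r - 1), u ^ j * (ξ ^ a) ^ ((g : ZMod r) ^ j).val =
        gaussSum χ (ψ.mulShift (a : ZMod r)) := by
      rw [tab_sum_gen hg, hχg]
      refine sum_congr rfl fun j _ => ?_
      rw [AddChar.mulShift_apply, ← pow_mul, ← AddChar.zmodChar_apply' hξ.pow_eq_one]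
      simp [hψ]
    rw [e]
    split_ifs with h0
    · rw [h0, Nat.cast_zero, AddChar.mulShift_zero, gaussSum_one_right hχ1, zero_pow hl.ne_zero]
    · have ha0 : (a : ZMod r) ≠ 0 := by
        rw [Ne, ZMod.natCast_eq_zero_iff]
        exact Nat.not_dvd_of_pos_of_lt (Nat.pos_of_ne_zero h0) ha
      have h3 := gaussSum_mulShift χ ψ (Units.mk0 (a : ZMod r) ha0)
      have h4 := hχl (Units.mk0 (a : ZMod r) ha0)
      rw [← h3, mul_pow, h4, one_mul, Units.val_mk0]

private theorem tab_coeff {F : Type} [Field F] {r : ℕ} (hr : 2 ≤ r) (hr0 : (r : F) ≠ 0) {ξ G : F}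
    (hξ : IsPrimitiveRoot ξ r) {P : F[X]} (hP : P.degree < r)
    (h : ∀ a < r, P.eval (ξ ^ a) = if a = 0 then 0 else G) : P.coeff 0 - P.coeff 1 = G := by
  have hs : (∑ i ∈ range r, (X : F[X]) ^ i).degree < r := by
    refine lt_of_le_of_lt (degree_sum_le _ _) ?_
    refine (Finset.sup_lt_iff (WithBot.bot_lt_coe r)).2 fun i hi => ?_
    rw [degree_X_pow]
    exact WithBot.coe_lt_coe.2 (mem_range.1 hi)
  have e : P = Polynomial.C G - Polynomial.C (G / r) * ∑ i ∈ range r, X ^ i := by
    refine eq_of_degrees_lt_of_eval_index_eq (range r) (v := fun a => ξ ^ a) ?_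
      (by simpa using hP) ?_ ?_
    · intro i hi j hj e
      exact hξ.pow_inj (by simpa using hi) (by simpa using hj) e
    · rw [card_range]
      refine lt_of_le_of_lt (degree_sub_le _ _) (max_lt ?_ ?_)
      · exact lt_of_le_of_lt degree_C_le (by exact_mod_cast (by omega : 0 < r))
      · rw [← smul_eq_C_mul]
        exact lt_of_le_of_lt (degree_smul_le _ _) hs
    · intro a ha
      have ha' := mem_range.1 ha
      rw [h a ha']
      simp only [eval_sub, eval_C, eval_mul, eval_finsetSum, eval_pow, eval_X]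
      split_ifs with h0
      · subst h0
        simp only [pow_zero, one_pow, sum_const, card_range, nsmul_eq_mul, mul_one]
        field_simp
        ring
      · have h1 : ξ ^ a ≠ 1 := hξ.pow_ne_one_of_pos_of_lt h0 ha'
        have h2 : (ξ ^ a) ^ r = 1 := by rw [← pow_mul, mul_comm, pow_mul, hξ.pow_eq_one, one_pow]
        have h3 := geom_sum_eq h1 r
        rw [h3, h2]
        simp
  rw [e]
  simp only [coeff_sub, coeff_C_mul, finsetSum_coeff, coeff_X_pow, coeff_C_zero, sum_ite_eq,
    mem_range]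
  rw [if_pos (by omega), if_pos (by omega), coeff_C_succ]
  ring

/-- the `l`-th power of a Gauss sum is not an `l`-th power -/
theorem gauss_spec {l r : ℕ} (hl : l.Prime) (hr : r.Prime) (hrp : r ≠ p) (hd : l ∣ r - 1)
    (hn : ¬ ∃ x : ZMod r, x ^ l = (p : ZMod r)) {md : List ℕ} {u : Fb p}
    (hu : (mon (pb p) md).eval u = 0) (hz : IsPrimitiveRoot u l) (hq : u ^ p ^ md.length = u)
    (hm : ¬ l ∣ md.length) (hq' : l ∣ p ^ md.length - 1) : ∃ ro < r,
      evq (pb p) u (gauss p l md r ro) ≠ 0 ∧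
      evq (pb p) u (gauss p l md r ro) ^ ((p ^ md.length - 1) / l) ≠ 1 := by
  have : Fact r.Prime := ⟨hr⟩
  have hp : p.Prime := Fact.out
  obtain ⟨g, ξ, G, hξ, hG0, hG1, hG⟩ := tab_gauss hl hrp hd hn hz hm hq'
  have hr0 : (r : Fb p) ≠ 0 := by
    rw [Ne, CharP.cast_eq_zero_iff (Fb p) p, Nat.prime_dvd_prime_iff_eq hp hr]
    exact hrp.symm
  have h0 : Hom (Quo.mk p md) (evq (pb p) u) := (hom_nat (Fb p) hp.pos).quo hu
  refine ⟨g.val, ZMod.val_lt g, ?_⟩
  suffices e : evq (pb p) u (gauss p l md r g.val) = G by rw [e]; exact ⟨hG0, hG1⟩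
  unfold gauss
  simp only []
  set k0 := Quo.mk p md with hk0
  set M : List (List ℕ) := Ops.neg k0 (one k0) :: List.replicate (r - 1) [] with hM
  have hlen : M.length = r := by
    rw [hM, List.length_cons, List.length_replicate]
    have := hr.pos
    omega
  have hmon : mon (evq (pb p) u) M = X ^ r - 1 := by
    rw [mon, hlen, hM, toP_cons, toP_replicate (evq_nil u), h0.neg, h0.one]
    simp [sub_eq_add_neg]
  rw [h0.sub, ← h0.coeff, ← h0.coeff]
  refine tab_coeff hr.two_le hr0 hξ ?_ ?_
  · have := degree_toP_lt (π := evq (pb p) u) (pw (Quo.mk k0 M) (sumL (Quo.mk k0 M)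
      ((List.range (r - 1)).map fun j => psmul k0 (pw k0 [0, 1] j) (xp k0 (pw r g.val j)))) l)
    rwa [length_quo_pw, hlen] at this
  · intro a ha
    have h1 : Hom (Quo.mk k0 M) (evq (evq (pb p) u) (ξ ^ a)) := h0.quo (by
      rw [hmon, eval_sub, eval_pow, eval_X, eval_one, ← pow_mul, mul_comm, pow_mul,
        hξ.pow_eq_one, one_pow, sub_self])
    rw [← hG a ha]
    change evq (evq (pb p) u) (ξ ^ a) _ = _
    rw [h1.pw, h1.sumL_range]
    congr 1
    refine sum_congr rfl fun j _ => ?_
    have hx : evq (pb p) u [0, 1] = u := by simp [evq_cons, evq_nil]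
    have hw : ((pw r g.val j : ℕ) : ZMod r) = g ^ j := by
      rw [(hom_nat (ZMod r) hr.pos).pw, ZMod.natCast_zmod_val]
    have h2 : (ξ ^ a) ^ r = 1 := by rw [← pow_mul, mul_comm, pow_mul, hξ.pow_eq_one, one_pow]
    rw [evq, h0.psmul, h0.xp, h0.pw, hx, eval_mul, eval_C, eval_pow, eval_X, ← hw,
      ZMod.val_natCast, ← pow_eq_pow_mod _ h2]

private theorem tab_head {α : Type} {L : List α} {P : α → Bool} {g : α} (d : α) (hg : g ∈ L)
    (h : P g = true) : P ((L.filter P).headD d) = true := by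
  have hm := List.mem_filter.2 ⟨hg, h⟩
  have hall : ∀ a ∈ L.filter P, P a = true := fun a ha => (List.mem_filter.1 ha).2
  generalize L.filter P = L' at hm hall
  cases L' with
  | nil => simp at hm
  | cons a L'' => exact hall a List.mem_cons_self

/-- the test of `entry` selects a nonresidue if the list contains one -/
private theorem tab_pick {md : List ℕ} (h : Irreducible (mon (pz p) md)) {u : Fb p}
    (hu : (mon (pb p) md).eval u = 0) (e : ℕ) {L : List (List ℕ)} {g : List ℕ} (hg : g ∈ L)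
    (h0 : evq (pb p) u g ≠ 0) (h1 : evq (pb p) u g ^ e ≠ 1) :
    evq (pb p) u ((L.filter fun g => !Ops.isZ (Quo.mk p md) g && !Ops.isZ (Quo.mk p md)
      (sub (Quo.mk p md) (pw (Quo.mk p md) g e) (one (Quo.mk p md)))).headD []) ≠ 0 ∧
    evq (pb p) u ((L.filter fun g => !Ops.isZ (Quo.mk p md) g && !Ops.isZ (Quo.mk p md)
      (sub (Quo.mk p md) (pw (Quo.mk p md) g e) (one (Quo.mk p md)))).headD []) ^ e ≠ 1 := by
  have hp : p.Prime := Fact.out
  have hh : Hom (Quo.mk p md) (evq (pb p) u) := (hom_nat (Fb p) hp.pos).quo hu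
  have hf : Faith (Quo.mk p md) (evq (pb p) u) :=
    Faith.quo (hom_nat (Fb p) hp.pos) (faith_nat (Fb p) hp.pos) hu (ind_of_irr h hu).1
  generalize Quo.mk p md = k0 at hh hf ⊢
  generalize evq (pb p) u = ρ at hh hf h0 h1 ⊢
  have key : ∀ g, (!Ops.isZ k0 g && !Ops.isZ k0 (sub k0 (pw k0 g e) (one k0))) = true ↔
      ρ g ≠ 0 ∧ ρ g ^ e ≠ 1 := fun g => by
    rw [Bool.and_eq_true, Bool.not_eq_true', Bool.not_eq_true', ← Bool.not_eq_true,
      ← Bool.not_eq_true, hf, hf, hh.sub, hh.pw, hh.one, sub_eq_zero]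
  exact (key _).1 (tab_head
    (P := fun g => !Ops.isZ k0 g && !Ops.isZ k0 (sub k0 (pw k0 g e) (one k0))) [] hg
    ((key g).2 ⟨h0, h1⟩))

private theorem tab_mem {R a b : ℕ} (ha : a < R) (hb : b < R) (G : ℕ → ℕ → List ℕ) :
    [a, b] ∈ ((List.range R).flatMap fun a => (List.range R).flatMap fun b => [[a, b], G a b]) ∧
    G a b ∈ ((List.range R).flatMap fun a => (List.range R).flatMap fun b => [[a, b], G a b]) := by
  constructor
  · exact List.mem_flatMap.2 ⟨a, List.mem_range.2 ha, List.mem_flatMap.2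
      ⟨b, List.mem_range.2 hb, by simp⟩⟩
  · exact List.mem_flatMap.2 ⟨a, List.mem_range.2 ha, List.mem_flatMap.2
      ⟨b, List.mem_range.2 hb, by simp⟩⟩

/-- a prime `r = 1 mod 4` modulo which `p` is a nonsquare is a nonsquare modulo `p` -/
private theorem tab_nonres {r : ℕ} (hr : r.Prime) (h4 : r % 4 = 1) (hp : p ≠ 2)
    (hn : ¬ ∃ x : ZMod r, x ^ 2 = (p : ZMod r)) :
    (r : Fb p) ≠ 0 ∧ (r : Fb p) ^ (p / 2) ≠ 1 := by
  have : Fact r.Prime := ⟨hr⟩
  have h1 : ¬ IsSquare (r : ZMod p) := by
    rw [← ZMod.exists_sq_eq_prime_iff_of_mod_four_eq_one h4 hp]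
    rintro ⟨x, hx⟩
    exact hn ⟨x, by rw [hx, sq]⟩
  have h0 : (r : ZMod p) ≠ 0 := fun h => h1 (by rw [h]; exact IsSquare.zero)
  rw [ZMod.euler_criterion p h0] at h1
  have hi := (algebraMap (ZMod p) (Fb p)).injective
  refine ⟨fun h => h0 (hi (by rw [map_natCast, h, map_zero])), fun h => h1 (hi ?_)⟩
  rw [map_pow, map_natCast, h, map_one]

private theorem tab_map (md : List ℕ) :
    (mon (pz p) md).map (algebraMap (ZMod p) (Fb p)) = mon (pb p) md := by
  rw [map_mon]
  exact congrArg (fun π => mon π md) (funext fun a => map_natCast _ a)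

theorem entry_spec (hS : SplitOK p) {C : ℕ} (hC : NT C) {tab : Tab} {l : ℕ} (hl : l.Prime)
    (hp : bnd l < p) (ht : TabOK p tab (l - 1)) : FieldOK p l (entry C p tab l) := by
  have hpp : p.Prime := Fact.out
  have hl2 := hl.two_le
  have hb : l + 2 < p := lt_of_le_of_lt (Nat.le_self_pow (by norm_num) _) hp
  obtain ⟨r, hr, hrd, hrl, hrn⟩ := hC l p hl hpp (by omega) (by omega)
  have hrR : r < (l * (Nat.log 2 p + 1)) ^ C + 1 := by omega
  have hodd : p % 2 = 1 := hpp.eq_two_or_odd.resolve_left (by omega)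
  unfold entry FieldOK
  simp only []
  by_cases h2 : l = 2
  · subst h2
    have hr4 : r % 4 = 1 := by
      have := hr.two_le
      omega
    obtain ⟨hr0, hr1⟩ := tab_nonres hr hr4 (by omega : p ≠ 2) hrn
    rw [if_pos rfl]
    by_cases h4 : p % 4 = 1
    · rw [if_pos h4]
      have hm : ∀ (R : Type) [CommRing R], mon (Nat.cast : ℕ → R) [0] = X := fun R _ => by
        simp [mon, toP_single]
      have hi : Irreducible (mon (pz p) [0]) := by rw [hm]; exact irreducible_X
      have hu : (mon (pb p) [0]).eval 0 = 0 := by rw [hm, eval_X]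
      refine ⟨hi, by simp only [List.length_singleton, pow_one]; omega,
        fun _ => by simp only [List.length_singleton, pow_one]; omega, 0, hu, ?_⟩
      have he : evq (pb p) 0 [r, 0] = r := by simp [evq_cons, evq_nil]
      refine tab_pick hi hu _ (tab_mem hrR (Nat.succ_pos _) _).1 (by rwa [he]) ?_
      rw [he, List.length_singleton, pow_one, show (p - 1) / 2 = p / 2 by omega]
      exact hr1
    · rw [if_neg h4]
      have h3 : p % 4 = 3 := by omega
      have hm : ∀ (R : Type) [CommRing R], mon (Nat.cast : ℕ → R) [1, 0] = X ^ 2 + 1 :=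
        fun R _ => by simp [mon, toP_cons, toP_nil]
      have hi : Irreducible (mon (pz p) [1, 0]) := by
        have hd : (mon (pz p) [1, 0]).natDegree = 2 := natDegree_mon _
        refine irreducible_of_degree_le_three_of_not_isRoot (by rw [hd]; decide) fun x hx => ?_
        rw [hm, IsRoot, eval_add, eval_pow, eval_X, eval_one] at hx
        exact ZMod.mod_four_ne_three_of_sq_eq_neg_one (eq_neg_of_add_eq_zero_left hx) h3
      obtain ⟨u, hu2⟩ := IsAlgClosed.exists_pow_nat_eq (-1 : Fb p) two_pos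
      have hu : (mon (pb p) [1, 0]).eval u = 0 := by
        rw [hm, eval_add, eval_pow, eval_X, eval_one, hu2, neg_add_cancel]
      obtain ⟨k, hk⟩ : ∃ k, p = 4 * k + 3 := ⟨p / 4, by omega⟩
      have hsq : p ^ [1, 0].length - 1 = 4 * ((k + 1) * (p - 1)) := by
        have : p - 1 = 4 * k + 2 := by omega
        rw [this, show [1, 0].length = 2 from rfl, hk]
        apply Nat.sub_eq_of_eq_add
        ring
      refine ⟨hi, by rw [hsq]; omega, fun _ => by rw [hsq]; omega, u, hu, ?_⟩
      have : Fact r.Prime := ⟨hr⟩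
      obtain ⟨a, b, hab⟩ := Nat.Prime.sq_add_sq (p := r) (by omega)
      have ha : a < (2 * (Nat.log 2 p + 1)) ^ C + 1 := by nlinarith [Nat.le_self_pow two_ne_zero a]
      have hb : b < (2 * (Nat.log 2 p + 1)) ^ C + 1 := by nlinarith [Nat.le_self_pow two_ne_zero b]
      have he : evq (pb p) u [a, b] = a + u * b := by simp [evq_cons, evq_nil]
      have hup : u ^ p = -u := by
        rw [congrArg (u ^ ·) hk, pow_add, pow_mul, show u ^ 4 = (u ^ 2) ^ 2 by ring,
          show u ^ 3 = u ^ 2 * u by ring, hu2]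
        simp
      have hfix : ∀ n : ℕ, (n : Fb p) ^ p = n := fun n => by
        rw [← frobenius_def, map_natCast]
      have hN : ((a : Fb p) + u * b) ^ (p + 1) = r := by
        rw [pow_succ, add_pow_char, mul_pow, hfix, hfix, hup, ← hab]
        push_cast
        linear_combination (-(b : Fb p) ^ 2) * hu2
      refine tab_pick hi hu _ (tab_mem ha hb _).1 ?_ ?_
      · rw [he]
        intro h
        rw [h, zero_pow (Nat.succ_ne_zero p)] at hN
        exact hr0 hN.symm
      · have : (p ^ [1, 0].length - 1) / 2 = (p + 1) * (p / 2) := by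
          rw [hsq, show p - 1 = 4 * k + 2 by omega, show p / 2 = 2 * k + 1 by omega,
            show p + 1 = 4 * k + 4 by omega]
          apply Nat.div_eq_of_eq_mul_left two_pos
          ring
        rw [he, this, pow_mul, hN]
        exact hr1
  · rw [if_neg h2]
    obtain ⟨hprod, hirr⟩ := fact_spec hS ht (u := List.replicate (l - 1) 1) (by simp)
      (by simp only [List.length_replicate]; omega)
    have hcyc : ∀ (R : Type) [CommRing R], (X - 1) * mon (Nat.cast : ℕ → R)
        (List.replicate (l - 1) 1) = X ^ l - 1 := fun R _ => by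
      have : mon (Nat.cast : ℕ → R) (List.replicate (l - 1) 1) = ∑ i ∈ range l, X ^ i := by
        rw [mon, toP_eq_sum (d := 1), List.length_replicate]
        conv_rhs => rw [← Nat.sub_add_cancel hl.one_le, sum_range_succ, add_comm]
        congr 1
        refine sum_congr rfl fun j hj => ?_
        rw [List.getD_replicate _ (mem_range.1 hj)]
        simp
      rw [this, mul_geom_sum]
    have hdeg : (mon (pz p) (List.replicate (l - 1) 1)).natDegree = l - 1 := by
      rw [natDegree_mon, List.length_replicate]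
    generalize fact p tab (List.replicate (l - 1) 1) = L at hprod hirr ⊢
    cases L with
    | nil =>
      rw [← hprod] at hdeg
      simp at hdeg
      omega
    | cons md L =>
      rw [List.headD_cons]
      have hi := hirr md List.mem_cons_self
      have hdv : mon (pz p) md ∣ mon (pz p) (List.replicate (l - 1) 1) := by
        rw [← hprod, List.map_cons, List.prod_cons]
        exact dvd_mul_right _ _
      have hle : md.length ≤ l - 1 := by
        have := natDegree_le_of_dvd hdv (mon_monic _).ne_zero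
        rwa [hdeg, natDegree_mon] at this
      have hpos : 0 < md.length := by
        have := hi.natDegree_pos
        rwa [natDegree_mon] at this
      obtain ⟨u, hu⟩ := IsAlgClosed.exists_root (mon (pb p) md) (by
        rw [degree_eq_natDegree (mon_monic _).ne_zero, natDegree_mon]
        exact_mod_cast hpos.ne')
      have hu' : (mon (pb p) (List.replicate (l - 1) 1)).eval u = 0 := by
        have := map_dvd (mapRingHom (algebraMap (ZMod p) (Fb p))) hdv
        rw [coe_mapRingHom, tab_map, tab_map] at this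
        exact eval_eq_zero_of_dvd_of_eval_eq_zero this hu
      have hul : u ^ l = 1 := by
        have := congrArg (eval u) (hcyc (Fb p))
        rw [eval_mul, hu', mul_zero, eval_sub, eval_pow, eval_X, eval_one] at this
        exact sub_eq_zero.1 this.symm
      have hu1 : u ≠ 1 := by
        rintro rfl
        have hl0 : (l : Fb p) ≠ 0 := by
          rw [Ne, CharP.cast_eq_zero_iff (Fb p) p]
          exact Nat.not_dvd_of_pos_of_lt hl.pos (by omega)
        apply hl0
        rw [mon, toP_eq_sum (d := 1), List.length_replicate] at hu'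
        rw [← hu', eval_add, eval_finsetSum, sum_congr rfl (g := fun _ => (1 : Fb p))
          fun j hj => by rw [List.getD_replicate _ (mem_range.1 hj)]; simp]
        conv_lhs => rw [← Nat.sub_add_cancel hl.one_le]
        simp [add_comm]
      have : Fact l.Prime := ⟨hl⟩
      have hz : IsPrimitiveRoot u l := by
        have := orderOf_eq_prime hul hu1
        rw [← this]
        exact IsPrimitiveRoot.orderOf u
      have hq := (ind_of_irr hi hu).2.1
      have hq' : l ∣ p ^ md.length - 1 := by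
        rw [← hz.pow_eq_one_iff_dvd]
        have h1 : 1 ≤ p ^ md.length := Nat.one_le_pow _ _ hpp.pos
        rw [← Nat.sub_add_cancel h1, pow_succ] at hq
        exact mul_right_cancel₀ (hz.ne_zero hl.ne_zero) (by rw [hq, one_mul])
      have hrp : r ≠ p := by
        rintro rfl
        exact hrn ⟨0, by rw [zero_pow hl.ne_zero, ZMod.natCast_self]⟩
      obtain ⟨ro, hro, hg0, hg1⟩ := gauss_spec hl hr hrp ((dvd_mul_left l 12).trans hrd) hrn hu hz
        hq (Nat.not_dvd_of_pos_of_lt hpos (by omega)) hq'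
      exact ⟨hi, hq', fun h => absurd h h2, u, hu,
        tab_pick hi hu _ (tab_mem hrR (hro.trans hrR) _).2 hg0 hg1⟩

private theorem tab_loop (hS : SplitOK p) {C : ℕ} (hC : NT C) (n : ℕ) :
    ((List.range n).foldl (fun tab l => tab ++ [entry C p tab l]) ([] : Tab)).length = n ∧
    ∀ l, l.Prime → l < n → bnd l < p → FieldOK p l
      (((List.range n).foldl (fun tab l => tab ++ [entry C p tab l]) ([] : Tab)).getD l
        ([], [])) := by
  induction n with
  | zero => exact ⟨rfl, fun l _ h => absurd h (Nat.not_lt_zero l)⟩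
  | succ n ih =>
    rw [List.range_succ, List.foldl_append, List.foldl_cons, List.foldl_nil]
    generalize (List.range n).foldl (fun tab l => tab ++ [entry C p tab l]) ([] : Tab) = tab
      at ih ⊢
    obtain ⟨h1, h2⟩ := ih
    refine ⟨by simp [h1], fun l hl hn hb => ?_⟩
    rcases Nat.lt_succ_iff_lt_or_eq.1 hn with h | h
    · rw [List.getD_append _ _ _ _ (by omega)]
      exact h2 l hl h hb
    · subst h
      rw [List.getD_append_right _ _ _ _ h1.le, h1, Nat.sub_self, List.getD_cons_zero]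
      refine entry_spec hS hC hl hb fun l' hl' hle hb' => h2 l' hl' ?_ hb'
      have := hl.two_le
      omega

theorem table_spec (hS : SplitOK p) {C : ℕ} (hC : NT C) (N : ℕ) : TabOK p (table C p N) N :=
  fun l hl hN hb => (tab_loop hS hC (N + 1)).2 l hl (Nat.lt_succ_of_le hN) hb

theorem factor_spec (hS : SplitOK p) {C : ℕ} (hC : NT C) {f : List ℕ} (h : toP (pz p) f ≠ 0) :
    toP (pz p) f = Polynomial.C ((factor C (p, f)).1 : ZMod p) *
      ((factor C (p, f)).2.map (toP (pz p))).prod ∧
    ∀ g ∈ (factor C (p, f)).2, (toP (pz p) g).Monic ∧ Irreducible (toP (pz p) g) := by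
  have hp : p.Prime := Fact.out
  have hh : Hom p (pz p) := hom_nat (ZMod p) hp.pos
  obtain ⟨hlen, hmul⟩ := mnc_spec h
  unfold factor
  simp only []
  have hc : ((nm p (cf p f (mnc p f).length) : ℕ) : ZMod p) = (toP (pz p) f).leadingCoeff := by
    rw [nm, max_eq_left hp.one_le, ZMod.natCast_mod, hlen, leadingCoeff, hh.coeff]
  have hmap : ∀ L : List (List ℕ), (L.map (mono p)).map (toP (pz p)) = L.map (mon (pz p)) :=
    fun L => by
      rw [List.map_map]
      exact List.map_congr_left fun g _ => hh.mono g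
  rw [hc, hmap]
  rcases Nat.eq_zero_or_pos (mnc p f).length with h0 | h0
  · have e := List.length_eq_zero_iff.1 h0
    rw [e] at hmul ⊢
    rw [fact, refine_nil]
    refine ⟨?_, by simp⟩
    simpa [mon, toP_nil] using hmul.symm
  · obtain ⟨hprod, hirr⟩ := fact_spec hS (table_spec hS hC (mnc p f).length) le_rfl h0
    have hall : (fact p (table C p (mnc p f).length) (mnc p f)).filter (fun g => !g.isEmpty) =
        fact p (table C p (mnc p f).length) (mnc p f) := by
      refine List.filter_eq_self.2 fun g hg => ?_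
      have := (hirr g hg).natDegree_pos
      rw [natDegree_mon] at this
      cases g with
      | nil => simp at this
      | cons a g => rfl
    rw [hall, hprod]
    refine ⟨hmul.symm, fun g hg => ?_⟩
    obtain ⟨g', hg', rfl⟩ := List.mem_map.1 hg
    rw [hh.mono]
    exact ⟨mon_monic _, hirr g' hg'⟩

end Vale.Agent.P319.A
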