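import Vale.Agent.P319.Stmt
import Vale.Agent.P319.A.CSplit
import Vale.Agent.P319.A.Tab
import Vale.Agent.P319.A.PTTop

/-! The factoring machine, given small primes with nonresidues. -/

namespace Vale.Agent.P319.A

open Polynomial Turing Vale.Agent.Lib.H23 Enc St

theorem ser_list {α : Type} [Enc α] {f : α → List Bool} (h : ∀ a, ser (enc a) = f a)
    (l : List α) : ser (enc l) = bList f l := by
  induction l with
  | nil => rfl
  | cons a l ih => rw [enc_cons, ser, h, ih, bList]

theorem ser_bool (b : Bool) : ser (enc b) = bBool b := by cases b <;> rfl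

theorem ser_nat (n : ℕ) : ser (enc n) = bNat n := ser_list ser_bool n.bits

theorem poly_eq (p : ℕ) (l : List ℕ) : poly p l = toP (pz p) l := by
  rw [toP_eq_sum (d := 0), poly, Finset.sum_range]
  exact Finset.sum_congr rfl fun i _ => by simp

theorem machine {C : ℕ} (hC : NT C) : ∃ (fac : ℕ × List ℕ → ℕ × List (List ℕ))
    (M : TM2ComputableInPolyTime (bPair bNat (bList bNat)) (bPair bNat (bList (bList bNat))) fac),
    (∀ k, Finite (M.tm.Γ k)) ∧ ∀ (p : ℕ) (f : List ℕ), p.Prime → poly p f ≠ 0 →
      poly p f = Polynomial.C ((fac (p, f)).1 : ZMod p) * ((fac (p, f)).2.map (poly p)).prod ∧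
      ∀ g ∈ (fac (p, f)).2, (poly p g).Monic ∧ Irreducible (poly p g) := by
  obtain ⟨c, P, h⟩ := pt_factor C
  have key : ∀ x : ℕ × List ℕ, TM2OutputsInTime (compile c)
      (List.map (id : Bool → Bool) (bPair bNat (bList bNat) x))
      (some (List.map (id : Bool → Bool) (bPair bNat (bList (bList bNat)) (factor C x))))
      ((P + 1).eval (bPair bNat (bList bNat) x).length) := by
    intro x
    have e : ser (enc x) = bPair bNat (bList bNat) x := by
      obtain ⟨T, adj⟩ := x
      rw [enc_pair, ser, ser_nat, ser_list ser_nat]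
      rfl
    have e' : ser (enc (factor C x)) = bPair bNat (bList (bList bNat)) (factor C x) := by
      obtain ⟨T, adj⟩ := factor C x
      rw [enc_pair, ser, ser_nat, ser_list (ser_list ser_nat)]
      rfl
    have h1 := (h x).outputs
    rw [sz, Tr.size, e, e'] at h1
    rw [← List.map_id (bPair bNat (bList bNat) x),
      ← List.map_id (bPair bNat (bList (bList bNat)) (factor C x)), List.length_map] at h1
    rw [Polynomial.eval_add, Polynomial.eval_one]
    exact Classical.choice h1
  refine ⟨factor C, ⟨⟨compile c, Equiv.refl _, Equiv.refl _⟩, P + 1, key⟩,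
    fun _ => (inferInstance : Finite Bool), fun p f hp h0 => ?_⟩
  have : Fact p.Prime := ⟨hp⟩
  have e : poly p = toP (pz p) := funext (poly_eq p)
  rw [e] at h0 ⊢
  exact factor_spec (fun h2 h3 h4 h5 _ h6 => split_spec h2 h3 h4 h5 h6) hC h0

end Vale.Agent.P319.A
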