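import Vale.Agent.P319.A.PTk

/-! Polynomial time: the ring layer and the three kinds of contexts. -/

namespace Vale.Agent.P319.A.Pt

open Vale.Agent.Lib.H23 List

/-- polynomial time ring operations with a weight; `le c a n` reads: `a` has weight at most `n` -/
class OpsPT (C : Type) (E : outParam Type) [Enc C] [Enc E] [Ops C E] where
  add : PT fun p : C × E × E => Ops.add p.1 p.2.1 p.2.2
  neg : PT fun p : C × E => Ops.neg p.1 p.2
  mul : PT fun p : C × E × E => Ops.mul p.1 p.2.1 p.2.2
  isZ : PT fun p : C × E => Ops.isZ p.1 p.2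
  ofN : PT fun p : C × ℕ => (Ops.ofN p.1 p.2 : E)
  le : C → E → ℕ → Prop
  w0 : C → ℕ
  wu : C → ℕ → ℕ
  wd : C → ℕ → ℕ
  pb_w0 : PB w0
  pb_wu : PB2 wu
  pb_wd : PB2 wd
  le_mono : ∀ {c a n m}, le c a n → n ≤ m → le c a m
  le_wu : ∀ {c a n}, sz a ≤ n → le c a (wu c n)
  sz_le : ∀ {c a n}, le c a n → sz a ≤ wd c n
  le_add : ∀ {c a b n}, le c a n → le c b n → w0 c ≤ n → le c (Ops.add c a b) n
  le_neg : ∀ {c a n}, le c a n → w0 c ≤ n → le c (Ops.neg c a) n
  le_mul : ∀ {c a b n m}, le c a n → le c b m → le c (Ops.mul c a b) (n + m + w0 c)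
  le_ofN : ∀ c k, le c (Ops.ofN c k) (w0 c)

/-- the results of all operations are short -/
class Red (C : Type) (E : outParam Type) [Enc C] [Enc E] [Ops C E] where
  rd : C → ℕ
  pb_rd : PB rd
  sz_add : ∀ c (a b : E), sz (Ops.add c a b) ≤ rd c
  sz_neg : ∀ c (a : E), sz (Ops.neg c a) ≤ rd c
  sz_mul : ∀ c (a b : E), sz (Ops.mul c a b) ≤ rd c
  sz_ofN : ∀ c k, sz (Ops.ofN c k : E) ≤ rd c

open Ops
export OpsPT (le w0 wu wd le_mono le_wu sz_le le_add le_neg le_mul le_ofN)
export Red (rd sz_add sz_neg sz_mul sz_ofN)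

variable {α C E : Type} [Enc α] [Enc C] [Enc E]

instance : Enc (Pol C) := ⟨fun c => Enc.enc c.c⟩
instance : Enc (Quo C E) := ⟨fun q => Enc.enc (q.c, q.md)⟩

@[fun_prop] theorem pt_Polmk {c : α → C} (hc : PT c) : PT fun x => Pol.mk (c x) :=
  hc.of_enc fun _ => rfl
@[fun_prop] theorem pt_Polc {c : α → Pol C} (hc : PT c) : PT fun x => (c x).c :=
  hc.of_enc fun _ => rfl
@[fun_prop] theorem pt_Quomk {c : α → C} {md : α → List E} (hc : PT c) (hm : PT md) :
    PT fun x => Quo.mk (c x) (md x) := (hc.pair hm).of_enc fun _ => rfl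
theorem pt_Quop {q : α → Quo C E} (hq : PT q) : PT fun x => ((q x).c, (q x).md) :=
  hq.of_enc fun _ => rfl
@[fun_prop] theorem pt_Quoc {q : α → Quo C E} (hq : PT q) : PT fun x => (q x).c := (pt_Quop hq).fst
@[fun_prop] theorem pt_Quomd {q : α → Quo C E} (hq : PT q) : PT fun x => (q x).md :=
  (pt_Quop hq).snd

variable [Ops C E]

section len
omit [Enc C] [Enc E]
@[simp] theorem length_padd (c : C) (a b : List E) :
    (padd c a b).length = max a.length b.length := by simp [padd]
@[simp] theorem length_pneg (c : C) (a : List E) : (pneg c a).length = a.length := by simp [pneg]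
@[simp] theorem length_psmul (c : C) (s : E) (a : List E) : (psmul c s a).length = a.length := by
  simp [psmul]
@[simp] theorem length_pmul (c : C) (a b : List E) :
    (pmul c a b).length = a.length + b.length := by simp [pmul]
@[simp] theorem length_fit (c : C) (d : ℕ) (a : List E) : (fit c d a).length = d := by simp [fit]
theorem dm_cons (c : C) (md a : List E) (x : E) :
    dm c md (x :: a) = dmStep c md (dm c md a) x := by simp [dm]
@[simp] theorem length_prem (c : C) (md a : List E) : (prem c md a).length = md.length := by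
  cases a with
  | nil => simp [prem, dm]
  | cons x a => simp [prem, dm_cons, dmStep]
theorem cf_map_range (c : C) {n j : ℕ} (f : ℕ → E) (h : j < n) :
    cf c ((range n).map f) j = f j := by
  simp [cf, List.getD_eq_getElem?_getD, h]
theorem cf_mem (c : C) {l : List E} {j : ℕ} (h : j < l.length) : cf c l j ∈ l := by
  rw [cf, List.getD_eq_getElem _ _ h]; exact List.getElem_mem h
theorem cf_of_le (c : C) {l : List E} {j : ℕ} (h : l.length ≤ j) : cf c l j = zero c :=
  List.getD_eq_default _ _ h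
end len

section ring
variable [OpsPT C E] {c : α → C} {a b s : α → E} {l u v : α → List E} {k : α → ℕ}

@[fun_prop] theorem pt_add (hc : PT c) (ha : PT a) (hb : PT b) :
    PT fun x => add (c x) (a x) (b x) := PT.comp OpsPT.add (hc.pair (ha.pair hb))
@[fun_prop] theorem pt_neg (hc : PT c) (ha : PT a) : PT fun x => neg (c x) (a x) :=
  PT.comp OpsPT.neg (hc.pair ha)
@[fun_prop] theorem pt_mul (hc : PT c) (ha : PT a) (hb : PT b) :
    PT fun x => mul (c x) (a x) (b x) := PT.comp OpsPT.mul (hc.pair (ha.pair hb))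
@[fun_prop] theorem pt_isZ (hc : PT c) (ha : PT a) : PT fun x => isZ (c x) (a x) :=
  PT.comp OpsPT.isZ (hc.pair ha)
@[fun_prop] theorem pt_ofN (hc : PT c) (hk : PT k) : PT fun x => (ofN (c x) (k x) : E) :=
  PT.comp OpsPT.ofN (hc.pair hk)
@[fun_prop] theorem pb_w0 (hc : PT c) : PB fun x => w0 (c x) := PB.comp OpsPT.pb_w0 hc
@[fun_prop] theorem pb_wu (hc : PT c) (hk : PB k) : PB fun x => wu (c x) (k x) :=
  OpsPT.pb_wu.app hc hk
@[fun_prop] theorem pb_wd (hc : PT c) (hk : PB k) : PB fun x => wd (c x) (k x) :=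
  OpsPT.pb_wd.app hc hk
@[fun_prop] theorem pt_zero (hc : PT c) : PT fun x => (zero (c x) : E) := by unfold zero; fun_prop
@[fun_prop] theorem pt_one (hc : PT c) : PT fun x => (one (c x) : E) := by unfold one; fun_prop
@[fun_prop] theorem pt_sub (hc : PT c) (ha : PT a) (hb : PT b) :
    PT fun x => sub (c x) (a x) (b x) := by unfold sub; fun_prop

theorem le_zero (c : C) : le c (zero c) (w0 c) := le_ofN c 0
theorem le_one (c : C) : le c (one c) (w0 c) := le_ofN c 1
theorem le_sub {c : C} {a b : E} {n : ℕ} (ha : le c a n) (hb : le c b n) (h : w0 c ≤ n) :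
    le c (sub c a b) n := le_add ha (le_neg hb h) h
theorem le_self (c : C) (a : E) : le c a (wu c (sz a)) := le_wu le_rfl
theorem le_of_mem (c : C) {a : E} {l : List E} (h : a ∈ l) : le c a (wu c (sz l)) :=
  le_wu (sz_lt_of_mem h).le

theorem le_foldAdd {c : C} {l : List E} {i : E} {n : ℕ} (hi : le c i n) (hl : ∀ a ∈ l, le c a n)
    (h : w0 c ≤ n) : le c (l.foldl (add c) i) n :=
  foldl_inv' (fun s => le c s n) hi fun _ a ha hs => le_add hs (hl a ha) h
theorem le_sumL {c : C} {l : List E} {n : ℕ} (hl : ∀ a ∈ l, le c a n) (h : w0 c ≤ n) :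
    le c (sumL c l) n := le_foldAdd (le_mono (le_zero c) h) hl h

theorem pt_foldAdd (hc : PT c) (hl : PT l) (ha : PT a) :
    PT fun x => (l x).foldl (add (c x)) (a x) :=
  pt_foldI (fun x s => le (c x) s (wu (c x) (sz (l x) + sz (a x)) + w0 (c x)))
    (fun x => wd (c x) (wu (c x) (sz (l x) + sz (a x)) + w0 (c x))) (by fun_prop) hl ha
    (by fun_prop) (fun _ => le_mono (le_wu (by omega)) (Nat.le_add_right _ _))
    (fun _ _ _ h1 h2 => le_add h2 (le_mono (le_wu (by have := sz_lt_of_mem h1; omega))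
      (Nat.le_add_right _ _)) (Nat.le_add_left _ _)) fun _ _ h => sz_le h

@[fun_prop] theorem pt_sumL (hc : PT c) (hl : PT l) : PT fun x => sumL (c x) (l x) :=
  pt_foldAdd hc hl (pt_zero hc)

@[fun_prop] theorem pt_prodL (hc : PT c) (hl : PT l) : PT fun x => prodL (c x) (l x) :=
  pt_foldK (fun x k s => le (c x) s (w0 (c x) + k * (wu (c x) (sz (l x)) + w0 (c x))))
    (fun x => wd (c x) (w0 (c x) + (l x).length * (wu (c x) (sz (l x)) + w0 (c x)))) (by fun_prop)
    hl (pt_one hc) (by fun_prop) (fun _ => le_mono (le_one _) (by omega))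
    (fun _ _ _ _ h1 _ h2 => le_mono (le_mul h2 (le_of_mem _ h1)) (by rw [Nat.succ_mul]; omega))
    fun _ _ _ h1 h => sz_le (le_mono h (Nat.add_le_add_left (Nat.mul_le_mul_right _ h1) _))

@[fun_prop] theorem pt_pwU (hc : PT c) (ha : PT a) (hk : PU k) :
    PT fun x => pwU (c x) (a x) (k x) := by unfold pwU; fun_prop
@[fun_prop] theorem pt_cf (hc : PT c) (hl : PT l) (hk : PT k) :
    PT fun x => cf (c x) (l x) (k x) := by unfold cf; fun_prop
@[fun_prop] theorem pt_padd (hc : PT c) (hu : PT u) (hv : PT v) :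
    PT fun x => padd (c x) (u x) (v x) := by unfold padd; simp only [mapR_eq]; fun_prop
@[fun_prop] theorem pt_pneg (hc : PT c) (hu : PT u) : PT fun x => pneg (c x) (u x) := by
  unfold pneg; fun_prop
@[fun_prop] theorem pt_psmul (hc : PT c) (hs : PT s) (hu : PT u) :
    PT fun x => psmul (c x) (s x) (u x) := by unfold psmul; fun_prop
@[fun_prop] theorem pt_pmul (hc : PT c) (hu : PT u) (hv : PT v) :
    PT fun x => pmul (c x) (u x) (v x) := by unfold pmul; simp only [mapR_eq]; fun_prop
@[fun_prop] theorem pt_fit (hc : PT c) (hk : PU k) (hu : PT u) :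
    PT fun x => fit (c x) (k x) (u x) := by unfold fit; simp only [mapR_eq]; fun_prop
@[fun_prop] theorem pt_mono (hc : PT c) (hu : PT u) : PT fun x => mono (c x) (u x) := by
  unfold mono; fun_prop
@[fun_prop] theorem pt_xp (hc : PT c) (hk : PU k) : PT fun x => (xp (c x) (k x) : List E) := by
  unfold xp; fun_prop
@[fun_prop] theorem pt_dmStep {t : α → List E × List E} (hc : PT c) (hu : PT u) (ht : PT t)
    (ha : PT a) : PT fun x => dmStep (c x) (u x) (t x) (a x) := by
  unfold dmStep; simp only [mapR_eq]; fun_prop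

/-- weight of a list -/
def Lw (c : C) (l : List E) (n : ℕ) : Prop := l.length ≤ n ∧ ∀ a ∈ l, le c a n

theorem Lw.mono {c : C} {l : List E} {n m : ℕ} (h : Lw c l n) (hm : n ≤ m) : Lw c l m :=
  ⟨h.1.trans hm, fun a ha => le_mono (h.2 a ha) hm⟩
theorem Lw.sz_le {c : C} {l : List E} {n : ℕ} (h : Lw c l n) : sz l ≤ n * (wd c n + 1) + 1 :=
  sz_list_le' h.1 fun a ha => OpsPT.sz_le (h.2 a ha)
theorem lw_wu {c : C} {l : List E} {n : ℕ} (h : sz l ≤ n) : Lw c l (n + wu c n) :=
  ⟨by have := length_lt_sz l; omega, fun a ha =>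
    le_mono (le_wu ((sz_lt_of_mem ha).le.trans h)) (by omega)⟩
theorem le_getD {c : C} {l : List E} {d : E} {n : ℕ} (h : ∀ a ∈ l, le c a n) (hd : le c d n)
    (j : ℕ) : le c (l.getD j d) n := by
  by_cases hj : j < l.length
  · rw [List.getD_eq_getElem _ _ hj]; exact h _ (List.getElem_mem hj)
  · rwa [List.getD_eq_default _ _ (by omega)]
theorem le_cf {c : C} {l : List E} {n : ℕ} (h : ∀ a ∈ l, le c a n) (h0 : w0 c ≤ n) (j : ℕ) :
    le c (cf c l j) n := le_getD h (le_mono (le_zero c) h0) j
theorem le_cf' {c : C} {l : List E} {n : ℕ} (h : ∀ a ∈ l, le c a n) (j : ℕ) :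
    le c (cf c l j) (n + w0 c) :=
  le_cf (fun a ha => le_mono (h a ha) (by omega)) (by omega) j
theorem le_cf_wu (c : C) (l : List E) (j : ℕ) : le c (cf c l j) (wu c (sz l) + w0 c) :=
  le_cf' (fun _ ha => le_of_mem c ha) j
theorem lw_map_range {c : C} {f : ℕ → E} {k n : ℕ} (hk : k ≤ n) (h : ∀ j < k, le c (f j) n) :
    Lw c ((range k).map f) n :=
  ⟨by simpa using hk, fun a ha => by
    obtain ⟨j, hj, rfl⟩ := List.mem_map.1 ha
    exact h j (List.mem_range.1 hj)⟩

@[fun_prop] theorem pt_dm (hc : PT c) (hu : PT u) (hv : PT v) :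
    PT fun x => dm (c x) (u x) (v x) := by
  let A : α → ℕ := fun x => wu (c x) (sz (v x)) + w0 (c x) + (u x).length
  let B : α → ℕ := fun x => wu (c x) (sz (u x)) + 2 * w0 (c x) + 1
  have hA : PB A := by fun_prop
  have hB : PB B := by fun_prop
  refine pt_foldK (f := fun x => dmStep (c x) (u x))
    (fun x k s => Lw (c x) s.1 (A x + k * B x) ∧ Lw (c x) s.2 (A x + k * B x))
    (fun x => 2 * ((A x + (v x).length * B x) * (wd (c x) (A x + (v x).length * B x) + 1) + 1) + 1)
    (by fun_prop) (by fun_prop) (by fun_prop) (by fun_prop) (fun x => ⟨⟨by simp, by simp⟩,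
      by simp [A], fun a ha => ?_⟩) (fun x k s a ha _ h => ?_) fun x k s hk h => ?_
  · rw [List.eq_of_mem_replicate ha]; exact le_mono (le_zero _) (by simp only [A]; omega)
  · have h0 : w0 (c x) ≤ A x + k * B x := by simp only [A]; omega
    have h1 : ∀ j, le (c x) (cf (c x) (a :: s.2) j) (A x + k * B x) := le_cf (fun b hb => by
      rcases List.mem_cons.1 hb with rfl | hb
      · exact le_mono (le_of_mem _ (List.mem_reverse.1 ha)) (by simp only [A]; omega)
      · exact h.2.2 b hb) h0
    have h2 : A x + (k + 1) * B x = A x + k * B x + wu (c x) (sz (u x)) + 2 * w0 (c x) + 1 := by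
      simp only [B]; ring
    rw [h2]
    refine ⟨⟨by have := h.1.1; simp only [dmStep, List.length_cons]; omega, fun b hb => ?_⟩,
      lw_map_range (by simp only [A]; omega) fun j _ => le_sub (le_mono (h1 j) (by omega))
        (le_mono (le_mul (h1 _) (le_cf_wu _ _ j)) (by omega)) (by omega)⟩
    rcases List.mem_cons.1 hb with rfl | hb
    · exact le_mono (h1 _) (by omega)
    · exact le_mono (h.1.2 b hb) (by omega)
  · rw [List.length_reverse] at hk
    have h1 : A x + k * B x ≤ A x + (v x).length * B x :=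
      Nat.add_le_add_left (Nat.mul_le_mul_right _ hk) _
    have h2 := (h.1.mono h1).sz_le
    have h3 := (h.2.mono h1).sz_le
    rw [sz_prod]; omega

@[fun_prop] theorem pt_pquo (hc : PT c) (hu : PT u) (hv : PT v) :
    PT fun x => pquo (c x) (u x) (v x) := by unfold pquo; fun_prop
@[fun_prop] theorem pt_prem (hc : PT c) (hu : PT u) (hv : PT v) :
    PT fun x => prem (c x) (u x) (v x) := by unfold prem; fun_prop
@[fun_prop] theorem pt_pev (hc : PT c) (hu : PT u) (ha : PT a) :
    PT fun x => pev (c x) (u x) (a x) := by unfold pev; fun_prop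
@[fun_prop] theorem pt_pder (hc : PT c) (hu : PT u) : PT fun x => pder (c x) (u x) := by
  unfold pder; simp only [mapR_eq]; fun_prop
@[fun_prop] theorem pt_cst {q : α → Quo C E} (hq : PT q) (hu : PT u) :
    PT fun x => cst (q x) (u x) := by unfold cst; fun_prop
end ring

/-! ### the contexts -/

@[fun_prop] theorem pt_nm {p a : α → ℕ} (hp : PT p) (ha : PT a) : PT fun x => nm (p x) (a x) := by
  unfold nm; fun_prop

theorem nm_le (p a : ℕ) : nm p a ≤ p := by
  have := Nat.mod_lt a (show 0 < max p 1 by omega)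
  unfold nm; omega

theorem sz_nm (p a : ℕ) : sz (nm p a) ≤ 4 * sz p + 1 := sz_nat_mono (nm_le p a)

instance ptNat : OpsPT ℕ ℕ where
  add := by simp only [Ops.add]; fun_prop
  neg := by simp only [Ops.neg]; fun_prop
  mul := by simp only [Ops.mul]; fun_prop
  isZ := by simp only [Ops.isZ]; fun_prop
  ofN := by simp only [Ops.ofN]; fun_prop
  le _ a n := sz a ≤ n
  w0 p := 4 * sz p + 1
  wu _ n := n
  wd _ n := n
  pb_w0 := by fun_prop
  pb_wu := by unfold PB2; fun_prop
  pb_wd := by unfold PB2; fun_prop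
  le_mono := le_trans
  le_wu h := h
  sz_le h := h
  le_add _ _ h := (sz_nm _ _).trans h
  le_neg _ h := (sz_nm _ _).trans h
  le_mul _ _ := (sz_nm _ _).trans (by omega)
  le_ofN _ _ := sz_nm _ _

instance redNat : Red ℕ ℕ where
  rd p := 4 * sz p + 1
  pb_rd := by fun_prop
  sz_add _ _ _ := sz_nm _ _
  sz_neg _ _ := sz_nm _ _
  sz_mul _ _ _ := sz_nm _ _
  sz_ofN _ _ := sz_nm _ _

instance ptPol [OpsPT C E] : OpsPT (Pol C) (List E) where
  add := by simp only [Ops.add]; fun_prop
  neg := by simp only [Ops.neg]; fun_prop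
  mul := by simp only [Ops.mul]; fun_prop
  isZ := by simp only [Ops.isZ]; fun_prop
  ofN := by simp only [Ops.ofN]; fun_prop
  le c l n := Lw c.c l n
  w0 c := 3 * w0 c.c + 1
  wu c n := n + wu c.c n
  wd c n := n * (wd c.c n + 1) + 1
  pb_w0 := by fun_prop
  pb_wu := by unfold PB2; fun_prop
  pb_wd := by unfold PB2; fun_prop
  le_mono := Lw.mono
  le_wu := lw_wu
  sz_le := Lw.sz_le
  le_add ha hb h := lw_map_range (max_le ha.1 hb.1) fun j _ =>
    le_add (le_cf ha.2 (by omega) j) (le_cf hb.2 (by omega) j) (by omega)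
  le_neg ha h := ⟨by simpa [Ops.neg] using ha.1, fun b hb => by
    obtain ⟨a, h1, rfl⟩ := List.mem_map.1 hb
    exact le_neg (ha.2 a h1) (by omega)⟩
  le_mul ha hb := lw_map_range (by have := ha.1; have := hb.1; omega) fun k _ =>
    le_sumL (fun b hb' => by
      obtain ⟨i, -, rfl⟩ := List.mem_map.1 hb'
      exact le_mono (le_mul (le_cf' ha.2 _) (le_cf' hb.2 _)) (by omega)) (by omega)
  le_ofN c k := ⟨by simp [Ops.ofN], fun b hb => by
    rw [List.mem_singleton.1 hb]; exact le_mono (le_ofN _ _) (by omega)⟩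

section quo
variable [OpsPT C E]

/-- graded weight -/
def Gw (c : C) (K : ℕ) (l : List E) (o W : ℕ) : Prop :=
  ∀ j < l.length, ∃ m, le c (cf c l j) m ∧ m + (j + o) * K ≤ W

theorem Gw.cf {c : C} {K : ℕ} {l : List E} {o W j : ℕ} (h : Gw c K l o W)
    (h0 : w0 c + (j + o) * K ≤ W) : ∃ m, le c (cf c l j) m ∧ m + (j + o) * K ≤ W := by
  by_cases hj : j < l.length
  · exact h j hj
  · exact ⟨_, by rw [cf_of_le c (by omega)]; exact le_zero c, h0⟩

theorem Gw.mono {c : C} {K : ℕ} {l : List E} {o W o' W' : ℕ} (h : Gw c K l o W) (ho : o' ≤ o)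
    (hW : W ≤ W') : Gw c K l o' W' := fun j hj =>
  let ⟨m, h1, h2⟩ := h j hj
  ⟨m, h1, le_trans (Nat.add_le_add_left (Nat.mul_le_mul_right _ (by omega)) _) (h2.trans hW)⟩

theorem gw_prem {c : C} {md : List E} {K W : ℕ} (hK : wu c (sz md) + w0 c ≤ K) (a : List E) :
    ∀ o, Gw c K a o W → w0 c + (a.length + o + md.length) * K ≤ W → Gw c K (prem c md a) o W := by
  induction a with
  | nil =>
    intro o _ h j hj
    rw [length_prem] at hj
    refine ⟨w0 c, le_cf (fun b hb => ?_) le_rfl j,
      le_trans (Nat.add_le_add_left (Nat.mul_le_mul_right _ (by omega)) _) h⟩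
    rw [List.eq_of_mem_replicate hb]; exact le_zero c
  | cons x a ih =>
    intro o h1 h2 j hj
    rw [length_prem] at hj
    rw [List.length_cons] at h2
    have h3 := ih (o + 1) (fun i hi => by
      obtain ⟨m, h4, h5⟩ := h1 (i + 1) (by simpa using hi)
      exact ⟨m, h4, by rwa [show i + (o + 1) = i + 1 + o by omega]⟩)
      (by rwa [show a.length + (o + 1) = a.length + 1 + o by omega])
    have h4 : Gw c K (x :: prem c md a) o W := fun i hi => by
      cases i with
      | zero => exact h1 0 (by simp)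
      | succ i =>
        obtain ⟨m, h4, h5⟩ := h3 i (by simpa using hi)
        exact ⟨m, h4, by rwa [show i + 1 + o = i + (o + 1) by omega]⟩
    obtain ⟨m, h5, h6⟩ := h4 j (by simp; omega)
    obtain ⟨t, h7, h8⟩ := h4 md.length (by simp)
    have h9 : (j + o) * K + K ≤ (md.length + o) * K := by
      rw [← Nat.succ_mul]; exact Nat.mul_le_mul_right _ (by omega)
    refine ⟨max m (t + K), ?_, by omega⟩
    have e : prem c md (x :: a) = (dmStep c md (dm c md a) x).2 := by rw [prem, dm_cons]
    rw [e, dmStep, cf_map_range c _ hj]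
    exact le_sub (le_mono h5 (by omega)) (le_mono (le_mul h7 (le_of_mem c (cf_mem c hj)))
      (by omega)) (by omega)

def qK (q : Quo C E) : ℕ := wu q.c (sz q.md) + w0 q.c + 1

@[fun_prop] theorem pb_qK {q : α → Quo C E} (hq : PT q) : PB fun x => qK (q x) := by
  unfold qK; fun_prop

def LeQ (q : Quo C E) (l : List E) (n : ℕ) : Prop :=
  Gw q.c (qK q) l (l.length - q.md.length) n ∧
    w0 q.c + (q.md.length + l.length + (l.length - q.md.length)) * qK q ≤ n

theorem leQ_prem {q : Quo C E} {a : List E} {W : ℕ} (h1 : Gw q.c (qK q) a 0 W)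
    (h2 : w0 q.c + (a.length + q.md.length) * qK q ≤ W)
    (h3 : w0 q.c + (2 * q.md.length + 1) * qK q ≤ W) : LeQ q (prem q.c q.md a) W := by
  rw [LeQ, length_prem, Nat.sub_self]
  exact ⟨gw_prem (Nat.le_succ _) a 0 h1 h2,
    le_trans (Nat.add_le_add_left (Nat.mul_le_mul_right _ (by omega)) _) h3⟩

theorem LeQ.len {q : Quo C E} {l : List E} {n k : ℕ} (h : LeQ q l n)
    (hk : k ≤ l.length + q.md.length) : w0 q.c + k * qK q ≤ n :=
  le_trans (Nat.add_le_add_left (Nat.mul_le_mul_right _ (by omega)) _) h.2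

theorem LeQ.cf {q : Quo C E} {l : List E} {n : ℕ} (h : LeQ q l n) (i : ℕ) :
    ∃ m, le q.c (cf q.c l i) m ∧ m + (i + (l.length - q.md.length)) * qK q ≤
      n + (i - (q.md.length + l.length)) * qK q := by
  by_cases hi : i < l.length
  · obtain ⟨m, h1, h2⟩ := h.1 i hi
    exact ⟨m, h1, by omega⟩
  · refine ⟨_, by rw [cf_of_le _ (by omega)]; exact le_zero _, ?_⟩
    have h1 := h.2
    have h2 : (i + (l.length - q.md.length)) * qK q ≤ (q.md.length + l.length +
        (l.length - q.md.length)) * qK q + (i - (q.md.length + l.length)) * qK q := by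
      rw [← Nat.add_mul]; exact Nat.mul_le_mul_right _ (by omega)
    omega

instance ptQuo : OpsPT (Quo C E) (List E) where
  add := by simp only [Ops.add]; fun_prop
  neg := by simp only [Ops.neg]; fun_prop
  mul := by simp only [Ops.mul]; fun_prop
  isZ := by simp only [Ops.isZ]; fun_prop
  ofN := by simp only [Ops.ofN]; fun_prop
  le := LeQ
  w0 q := w0 q.c + (2 * q.md.length + 1) * qK q
  wu q n := wu q.c n + w0 q.c + (q.md.length + 2 * n) * qK q
  wd q n := n * (wd q.c n + 1) + 1
  pb_w0 := by fun_prop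
  pb_wu := by unfold PB2; fun_prop
  pb_wd := by unfold PB2; fun_prop
  le_mono h hm := ⟨h.1.mono le_rfl hm, h.2.trans hm⟩
  le_wu {q l n} h := by
    have h1 := length_lt_sz l
    refine ⟨fun j hj => ⟨_, le_wu ((sz_lt_of_mem (cf_mem q.c hj)).le.trans h), ?_⟩, ?_⟩
    · have := Nat.mul_le_mul_right (qK q)
        (show j + (l.length - q.md.length) ≤ q.md.length + 2 * n by omega)
      omega
    · have := Nat.mul_le_mul_right (qK q)
        (show q.md.length + l.length + (l.length - q.md.length) ≤ q.md.length + 2 * n by omega)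
      omega
  sz_le {q l n} h := by
    refine Lw.sz_le ⟨?_, fun a ha => ?_⟩
    · have h1 := h.len (k := l.length) (by omega)
      have h2 : l.length * 1 ≤ l.length * qK q := Nat.mul_le_mul_left _ (Nat.succ_pos _)
      omega
    · obtain ⟨j, hj, rfl⟩ := List.getElem_of_mem ha
      obtain ⟨m, h1, h2⟩ := h.1 j hj
      rw [cf, List.getD_eq_getElem _ _ hj] at h1
      exact le_mono h1 (by omega)
  le_add {q a b n} ha hb h := by
    have h0 : ∀ k, k ≤ max a.length b.length + q.md.length → w0 q.c + k * qK q ≤ n := fun k hk => by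
      rcases le_total a.length b.length with h1 | h1
      · exact hb.len (by omega)
      · exact ha.len (by omega)
    refine leQ_prem (fun j hj => ?_) (h0 _ (by simp)) h
    rw [length_padd] at hj
    have h1 := h0 (j + 0) (by omega)
    obtain ⟨m, h2, h3⟩ := (ha.1.mono (Nat.zero_le _) le_rfl).cf h1
    obtain ⟨t, h4, h5⟩ := (hb.1.mono (Nat.zero_le _) le_rfl).cf h1
    refine ⟨max (max m t) (w0 q.c), ?_, by omega⟩
    rw [padd, cf_map_range _ _ hj]
    exact le_add (le_mono h2 (by omega)) (le_mono h4 (by omega)) (by omega)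
  le_neg {q a n} ha h := by
    refine leQ_prem (fun j hj => ?_) (ha.len (by simp)) h
    rw [length_pneg] at hj
    have h1 := ha.len (k := j + 0) (by omega)
    obtain ⟨m, h2, h3⟩ := ha.1.mono (Nat.zero_le _) le_rfl j hj
    refine ⟨max m (w0 q.c), ?_, by omega⟩
    have e : cf q.c (pneg q.c a) j = neg q.c (cf q.c a j) := by
      simp [cf, pneg, List.getD_eq_getElem?_getD, hj]
    rw [e]
    exact le_neg (le_mono h2 (by omega)) (by omega)
  le_mul {q a b n m} ha hb := by
    have h1 := ha.len (k := a.length + q.md.length) le_rfl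
    have h2 := hb.len (k := b.length) (by omega)
    have h3 : (a.length + b.length + q.md.length) * qK q =
        (a.length + q.md.length) * qK q + b.length * qK q := by ring
    refine leQ_prem (fun k hk => ?_) (by rw [length_pmul]; omega) (by omega)
    rw [length_pmul] at hk
    have h4 : (k + 0) * qK q ≤ (a.length + b.length + q.md.length) * qK q :=
      Nat.mul_le_mul_right _ (by omega)
    refine ⟨n + m + w0 q.c - (k + 0) * qK q, ?_, by omega⟩
    rw [pmul, cf_map_range _ _ hk]
    refine le_sumL (fun e he => ?_) (by omega)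
    obtain ⟨i, hi, rfl⟩ := List.mem_map.1 he
    rw [List.mem_range] at hi
    obtain ⟨s, h5, h6⟩ := ha.cf i
    obtain ⟨t, h7, h8⟩ := hb.cf (k - i)
    refine le_mono (le_mul h5 h7) ?_
    have h9 : (i - (q.md.length + a.length)) * qK q ≤ (b.length - q.md.length) * qK q :=
      Nat.mul_le_mul_right _ (by omega)
    have h10 : (k - i - (q.md.length + b.length)) * qK q ≤ (a.length - q.md.length) * qK q :=
      Nat.mul_le_mul_right _ (by omega)
    have h11 : (k + 0) * qK q = i * qK q + (k - i) * qK q := by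
      rw [← Nat.add_mul]; congr 1; omega
    rw [Nat.add_mul] at h6 h8
    omega
  le_ofN q k := by
    refine leQ_prem (fun j hj => ⟨w0 q.c, le_cf (fun a ha => ?_) le_rfl j, ?_⟩) ?_ le_rfl
    · rw [List.mem_singleton.1 ha]; exact le_ofN _ _
    · have : j = 0 := by simpa using hj
      simp [this]
    · exact Nat.add_le_add_left (Nat.mul_le_mul_right _ (by simp; omega)) _

/-- an entrywise change raises the weight by at most the entrywise bound -/
theorem le_quo_of_entry {q : Quo C E} {g g' : List E} {n r : ℕ} (hl : g'.length = g.length)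
    (h : ∀ j < g.length, ∀ m, le q.c (cf q.c g j) m → le q.c (cf q.c g' j) (m + r))
    (hg : le q g n) : le q g' (n + r) := by
  refine ⟨fun j hj => ?_, hl ▸ le_trans hg.2 (Nat.le_add_right _ _)⟩
  rw [hl] at hj ⊢
  obtain ⟨m, h1, h2⟩ := hg.1 j hj
  exact ⟨_, h j hj m h1, by omega⟩
end quo

section red
variable [Red C E]

@[fun_prop] theorem pb_rd {c : α → C} (hc : PT c) : PB fun x => rd (c x) := PB.comp Red.pb_rd hc

theorem sz_zero (c : C) : sz (zero c : E) ≤ rd c := sz_ofN c 0
theorem sz_one (c : C) : sz (one c : E) ≤ rd c := sz_ofN c 1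

/-- all entries have size at most `B` -/
def An (l : List E) (B : ℕ) : Prop := ∀ a ∈ l, sz a ≤ B

omit [Enc C] [Ops C E] [Red C E] in
theorem An.mono {l : List E} {B B' : ℕ} (h : An l B) (hB : B ≤ B') : An l B' :=
  fun a ha => (h a ha).trans hB
omit [Enc C] [Ops C E] [Red C E] in
theorem an_self (l : List E) : An l (sz l) := fun _ ha => (sz_lt_of_mem ha).le
omit [Enc C] [Ops C E] [Red C E] in
theorem an_map {δ : Type} {l : List δ} {f : δ → E} {B : ℕ} (h : ∀ j, sz (f j) ≤ B) :
    An (l.map f) B := fun a ha => by obtain ⟨j, -, rfl⟩ := List.mem_map.1 ha; exact h j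
theorem sz_cf {c : C} {l : List E} {B : ℕ} (h : An l B) (hB : rd c ≤ B) (j : ℕ) :
    sz (cf c l j) ≤ B := by
  by_cases hj : j < l.length
  · exact h _ (cf_mem c hj)
  · rw [cf_of_le c (by omega)]; exact (sz_zero c).trans hB
theorem an_padd (c : C) (a b : List E) : An (padd c a b) (rd c) := an_map fun _ => sz_add _ _ _
theorem an_psmul (c : C) (s : E) (a : List E) : An (psmul c s a) (rd c) :=
  an_map fun _ => sz_mul _ _ _
theorem an_fit {c : C} {l : List E} {B : ℕ} (h : An l B) (hB : rd c ≤ B) (d : ℕ) :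
    An (fit c d l) B := an_map (sz_cf h hB)
theorem an_mono {c : C} {l : List E} {B : ℕ} (h : An l B) (hB : rd c ≤ B) : An (mono c l) B :=
  fun a ha => by
    rcases List.mem_append.1 ha with ha | ha
    · exact h a ha
    · rw [List.mem_singleton.1 ha]; exact (sz_one c).trans hB
theorem an_prem (c : C) (md a : List E) : An (prem c md a) (rd c) := by
  cases a with
  | nil => intro b hb; rw [List.eq_of_mem_replicate hb]; exact sz_zero c
  | cons x a => rw [prem, dm_cons]; exact an_map fun _ => sz_add _ _ _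
theorem an_pquo {c : C} (md : List E) {a : List E} {B : ℕ} (h : An a B) (hB : rd c ≤ B) :
    An (pquo c md a) B := by
  induction a with
  | nil => intro b hb; simp [pquo, dm] at hb
  | cons x a ih =>
    rw [pquo, dm_cons]
    intro b hb
    rcases List.mem_cons.1 hb with rfl | hb
    · refine sz_cf (fun e he => ?_) hB _
      rcases List.mem_cons.1 he with rfl | he
      · exact h _ (by simp)
      · exact (an_prem c md a e he).trans hB
    · exact ih (fun e he => h e (by simp [he])) b hb
theorem sz_fit {c : C} {l : List E} {B d n : ℕ} (h : An l B) (hB : rd c ≤ B) (hd : d ≤ n) :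
    sz (fit c d l) ≤ n * (B + 1) + 1 := sz_list_le' (by simpa using hd) (an_fit h hB d)
theorem sz_prem (c : C) (md a : List E) : sz (prem c md a) ≤ md.length * (rd c + 1) + 1 :=
  sz_list_le' (by simp) (an_prem c md a)
theorem an_combP (c : C) (lam : List E) (ps : List (List E)) : An (combP c lam ps) (rd c) :=
  foldl_inv' (fun s => An s (rd c)) (fun _ h => by simp at h) fun _ _ _ _ => an_padd _ _ _

instance redQuo : Red (Quo C E) (List E) where
  rd q := q.md.length * (rd q.c + 1) + 1
  pb_rd := by fun_prop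
  sz_add _ _ _ := sz_prem _ _ _
  sz_neg _ _ := sz_prem _ _ _
  sz_mul _ _ _ := sz_prem _ _ _
  sz_ofN _ _ := sz_prem _ _ _
end red

@[fun_prop] theorem pt_foldPadd [OpsPT C E] {c : α → C} {l : α → List (List E)} (hc : PT c)
    (hl : PT l) : PT fun x => (l x).foldl (padd (c x)) [] :=
  pt_foldAdd (c := fun x => Pol.mk (c x)) (pt_Polmk hc) hl (PT.const [])

@[fun_prop] theorem pt_combP [OpsPT C E] {c : α → C} {lam : α → List E} {ps : α → List (List E)}
    (hc : PT c) (hl : PT lam) (hp : PT ps) : PT fun x => combP (c x) (lam x) (ps x) := by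
  unfold combP; simp only [mapR_eq]; fun_prop

end Vale.Agent.P319.A.Pt
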