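import Vale.Agent.P319.A.PT0

/-! Polynomial time: powers, linear algebra, roots, Newton identities. -/

namespace Vale.Agent.P319.A.Pt

open Vale.Agent.Lib.H23 List Ops

variable {α C E : Type} [Enc α] [Enc C] [Enc E] [Ops C E]
variable {c : α → C} {a b w : α → E} {l u v : α → List E} {k Q : α → ℕ}
  {rows : α → List (List E)}

theorem sz_pw [Red C E] (c : C) (a : E) (k : ℕ) : sz (pw c a k) ≤ rd c :=
  foldl_inv' (fun s => sz s ≤ rd c) (sz_one c) fun _ b _ _ => by cases b <;> exact sz_mul _ _ _

omit [Enc C] [Enc E] in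
theorem length_piv {c : C} (Q : ℕ) {rows : List (List E)} {L : ℕ} (h : ∀ r ∈ rows, r.length ≤ L)
    (j : ℕ) : (piv c Q rows j).length ≤ L :=
  foldl_inv' (fun s : List E => s.length ≤ L) (by simp) fun s r hr hs => by
    have := h r hr
    simp only [length_padd, length_psmul]; omega

omit [Enc C] [Enc E] in
theorem length_kerC (c : C) (Q w : ℕ) (rows : List (List E)) :
    (kerC c Q w rows).length = rows.length := by
  rw [kerC, List.length_map]
  exact foldl_inv' (fun s : List (List E) => s.length = rows.length) (by simp)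
    fun s j _ hs => by simpa [kill] using hs

variable [OpsPT C E]

@[fun_prop] theorem pt_newton (hc : PT c) (hu : PT u) (hv : PT v) (hk : PU k) :
    PT fun x => newton (c x) (u x) (v x) (k x) := by
  let B : α → ℕ := fun x => wu (c x) (sz (u x)) + wu (c x) (sz (v x)) + 4 * w0 (c x) + 1
  have hB : PB B := by fun_prop
  unfold newton
  refine pt_foldR (fun x j s => Lw (c x) s (B x + j * B x))
    (fun x => (B x + k x * B x) * (wd (c x) (B x + k x * B x) + 1) + 1)
    (by simp only [mapR_eq]; fun_prop) hk (by fun_prop) (by fun_prop) (fun x => ⟨by simp [B],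
      fun e he => ?_⟩) (fun x j s i _ _ h => ?_) fun x j s hj h =>
      (h.mono (Nat.add_le_add_left (Nat.mul_le_mul_right _ hj) _)).sz_le
  · rw [List.mem_singleton.1 he]; exact le_mono (le_one _) (by simp only [B]; omega)
  · have h0 : w0 (c x) ≤ B x + j * B x := by simp only [B]; omega
    have h1 : B x + (j + 1) * B x = B x + j * B x + wu (c x) (sz (u x)) + wu (c x) (sz (v x)) +
        4 * w0 (c x) + 1 := by simp only [B]; ring
    rw [h1]
    refine ⟨by have := h.1; simp only [List.length_append, List.length_singleton]; omega,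
      fun e he => ?_⟩
    rcases List.mem_append.1 he with he | he
    · exact le_mono (h.2 e he) (by omega)
    · rw [List.mem_singleton.1 he]
      refine le_mono (le_mul (le_cf_wu _ _ _) (le_sumL (n := B x + j * B x + wu (c x) (sz (v x)) +
        2 * w0 (c x)) (fun e he => ?_) (by omega))) (by omega)
      obtain ⟨t, -, rfl⟩ := List.mem_map.1 he
      have h2 := le_mul (le_cf h.2 h0 (i - t)) (le_cf_wu (c x) (v x) t)
      split_ifs
      · exact le_mono h2 (by omega)
      · exact le_neg (le_mono h2 (by omega)) (by omega)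

variable [Red C E]

@[fun_prop] theorem pt_pw (hc : PT c) (ha : PT a) (hk : PT k) :
    PT fun x => pw (c x) (a x) (k x) :=
  pt_foldI (fun x s => sz s ≤ rd (c x)) (fun x => rd (c x)) (by fun_prop) (by fun_prop)
    (by fun_prop) (by fun_prop) (fun _ => sz_one _)
    (fun _ _ b _ _ => by cases b <;> exact sz_mul _ _ _) fun _ _ h => h

@[fun_prop] theorem pt_eps (hc : PT c) (hQ : PT Q) (ha : PT a) :
    PT fun x => eps (c x) (Q x) (a x) := by unfold eps; fun_prop
@[fun_prop] theorem pt_pinv (hc : PT c) (hQ : PT Q) (ha : PT a) :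
    PT fun x => pinv (c x) (Q x) (a x) := by unfold pinv; fun_prop
@[fun_prop] theorem pt_ind (hc : PT c) (hQ : PT Q) (ha : PT a) :
    PT fun x => ind (c x) (Q x) (a x) := by unfold ind; fun_prop

@[fun_prop] theorem pt_piv (hc : PT c) (hQ : PT Q) (hr : PT rows) (hk : PT k) :
    PT fun x => piv (c x) (Q x) (rows x) (k x) :=
  pt_foldI (fun x s => s.length ≤ sz (rows x) ∧ An s (rd (c x)))
    (fun x => sz (rows x) * (rd (c x) + 1) + 1) (by fun_prop) hr (by fun_prop) (by fun_prop)
    (fun _ => ⟨by simp, fun _ h => by simp at h⟩)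
    (fun _ s r hr h => ⟨by
      have := sz_lt_of_mem hr
      have := length_lt_sz r
      have := h.1
      simp only [length_padd, length_psmul]; omega, an_padd _ _ _⟩)
    fun _ _ h => sz_list_le' h.1 h.2

@[fun_prop] theorem pt_kill (hc : PT c) (hQ : PT Q) (hr : PT rows) (hk : PT k) :
    PT fun x => kill (c x) (Q x) (rows x) (k x) := by unfold kill; fun_prop

@[fun_prop] theorem pt_elim (hc : PT c) (hQ : PT Q) (hr : PT rows) (hk : PU k) :
    PT fun x => elim (c x) (Q x) (rows x) (k x) := by
  refine pt_foldI (f := fun x => kill (c x) (Q x)) (fun x s => s.length ≤ sz (rows x) ∧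
      ∀ r ∈ s, r.length ≤ sz (rows x) ∧ An r (sz (rows x) + rd (c x)))
    (fun x => sz (rows x) * (sz (rows x) * (sz (rows x) + rd (c x) + 1) + 1 + 1) + 1)
    (by fun_prop) (by fun_prop) hr (by fun_prop) (fun x => ⟨(length_lt_sz _).le, fun r hr => ?_⟩)
    (fun x s j _ h => ⟨by simpa [kill] using h.1, fun r hr => ?_⟩)
    fun x s h => sz_list_le' h.1 fun r hr => sz_list_le' (h.2 r hr).1 (h.2 r hr).2
  · have := sz_lt_of_mem hr
    have := length_lt_sz r
    exact ⟨by omega, (an_self r).mono (by omega)⟩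
  · obtain ⟨r', hr', rfl⟩ := List.mem_map.1 hr
    have h1 := length_piv (c := c x) (Q x) (fun r hr => (h.2 r hr).1) j
    have h2 := (h.2 r' hr').1
    exact ⟨by simp only [length_padd, length_psmul]; omega, (an_padd _ _ _).mono (by omega)⟩

@[fun_prop] theorem pt_rk (hc : PT c) (hQ : PT Q) (hk : PU k) (hr : PT rows) :
    PT fun x => rk (c x) (Q x) (k x) (rows x) := by unfold rk; simp only [mapR_eq]; fun_prop
@[fun_prop] theorem pt_kerC (hc : PT c) (hQ : PT Q) (hk : PU k) (hr : PT rows) :
    PT fun x => kerC (c x) (Q x) (k x) (rows x) := by unfold kerC; simp only [mapR_eq]; fun_prop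
@[fun_prop] theorem pt_solC (hc : PT c) (hQ : PT Q) (hk : PU k) (hr : PT rows) (hu : PT u) :
    PT fun x => solC (c x) (Q x) (k x) (rows x) (u x) := by unfold solC; fun_prop

@[fun_prop] theorem pt_ammStep {s : α → E × E × E × ℕ} (hc : PT c) (hQ : PT Q) (hk : PU k)
    (hs : PT s) : PT fun x => ammStep (c x) (Q x) (k x) (s x) := by
  unfold ammStep; simp only [mapR_eq]; fun_prop

@[fun_prop] theorem pt_amm (hc : PT c) (hQ : PT Q) (hk : PU k) (hw : PT w) (ha : PT a) :
    PT fun x => amm (c x) (Q x) (k x) (w x) (a x) := by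
  let B : α → ℕ := fun x => sz (a x) + sz (w x) + rd (c x)
  have hB : PB B := by fun_prop
  have h : PT fun x => (Q x).bits.foldl (fun s _ => ammStep (c x) (Q x) (k x) s)
      (a x, pw (c x) (a x) (k x - 1), w x, (Q x - 1) / k x) := by
    refine pt_foldI (fun x s => sz s.1 ≤ B x ∧ sz s.2.1 ≤ B x ∧ sz s.2.2.1 ≤ B x ∧ s.2.2.2 ≤ Q x)
      (fun x => 3 * B x + 4 * sz (Q x) + 4) (by fun_prop) (by fun_prop) (by fun_prop)
      (by fun_prop) (fun x => ⟨by simp only [B]; omega,
        (sz_pw _ _ _).trans (Nat.le_add_left _ _), by simp only [B]; omega,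
        (Nat.div_le_self _ _).trans (Nat.sub_le _ _)⟩) (fun x s _ _ h => ?_) fun x s h => ?_
    · unfold ammStep
      split_ifs
      · exact ⟨(sz_mul _ _ _).trans (Nat.le_add_left _ _), (sz_mul _ _ _).trans
          (Nat.le_add_left _ _), (sz_pw _ _ _).trans (Nat.le_add_left _ _),
          (Nat.div_le_self _ _).trans h.2.2.2⟩
      · exact h
    · have := sz_nat_mono h.2.2.2
      rw [sz_prod, sz_prod s.2, sz_prod s.2.2]; omega
  unfold amm; simp -zeta only [filtR_eq]; fun_prop

end Vale.Agent.P319.A.Pt
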