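import Vale.Agent.P319.A.PT1

/-! Polynomial time: the ring `O`, linear systems over it, ideals. -/

namespace Vale.Agent.P319.A.Pt

open Vale.Agent.Lib.H23 List Ops

variable {α C E : Type} [Enc α] [Enc C] [Enc E]

instance : Enc (Cx C E) := ⟨fun x => Enc.enc (x.c, x.Q, x.f, x.2.2.2)⟩

variable {x : α → Cx C E} {z s : α → E} {u D lam : α → List E} {g : α → Oe E} {k L t : α → ℕ}
  {gs : α → List (Oe E)} {ths : α → List ℕ} {cs : α → List (List (Oe E))} {I : α → Idl E}
  {src : α → List (List (Oe E) × List (Oe E))}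

@[fun_prop] theorem pt_Cxmk {c : α → C} {Q : α → ℕ} {lu : α → List Unit} (hc : PT c) (hQ : PT Q)
    (hu : PT u) (hl : PT lu) : PT fun y => Cx.mk (c y) (Q y) (u y) (lu y) :=
  (hc.pair (hQ.pair (hu.pair hl))).of_enc fun _ => rfl
theorem pt_Cxt (hx : PT x) : PT fun y => ((x y).c, (x y).Q, (x y).f, (x y).2.2.2) :=
  hx.of_enc fun _ => rfl
@[fun_prop] theorem pt_Cxc (hx : PT x) : PT fun y => (x y).c := (pt_Cxt hx).fst
@[fun_prop] theorem pt_CxQ (hx : PT x) : PT fun y => (x y).Q := (pt_Cxt hx).snd.fst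
@[fun_prop] theorem pt_Cxf (hx : PT x) : PT fun y => (x y).f := (pt_Cxt hx).snd.snd.fst
theorem pt_Cxlu (hx : PT x) : PT fun y => ((x y).2.2.2 : List Unit) := (pt_Cxt hx).snd.snd.snd
@[fun_prop] theorem pu_l (hx : PT x) : PU fun y => (x y).l := PU.length (pt_Cxlu hx)
@[fun_prop] theorem pu_n (hx : PT x) : PU fun y => (x y).n := PU.length (pt_Cxf hx)
@[fun_prop] theorem pt_l (hx : PT x) : PT fun y => (x y).l := (pu_l hx).pt
@[fun_prop] theorem pt_n (hx : PT x) : PT fun y => (x y).n := (pu_n hx).pt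
@[fun_prop] theorem pu_m (hx : PT x) : PU fun y => (x y).m := by unfold Cx.m; fun_prop
@[fun_prop] theorem pu_e (hx : PT x) : PU fun y => (x y).e := by unfold Cx.e; fun_prop
@[fun_prop] theorem pu_ds (hx : PT x) : PU fun y => (x y).ds := by unfold Cx.ds; fun_prop
@[fun_prop] theorem pu_nu (hx : PT x) : PU fun y => (x y).nu := by unfold Cx.nu; fun_prop
@[fun_prop] theorem pu_dD (hx : PT x) : PU fun y => dD (x y) := by unfold dD; fun_prop
@[fun_prop] theorem pt_m (hx : PT x) : PT fun y => (x y).m := (pu_m hx).pt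
@[fun_prop] theorem pt_e (hx : PT x) : PT fun y => (x y).e := (pu_e hx).pt
@[fun_prop] theorem pt_ds (hx : PT x) : PT fun y => (x y).ds := (pu_ds hx).pt
@[fun_prop] theorem pt_nu (hx : PT x) : PT fun y => (x y).nu := (pu_nu hx).pt
@[fun_prop] theorem pt_dD (hx : PT x) : PT fun y => dD (x y) := (pu_dD hx).pt
@[fun_prop] theorem pb_l (hx : PT x) : PB fun y => (x y).l := (pu_l hx).pb
@[fun_prop] theorem pb_ds (hx : PT x) : PB fun y => (x y).ds := (pu_ds hx).pb
@[fun_prop] theorem pb_dD (hx : PT x) : PB fun y => dD (x y) := (pu_dD hx).pb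
@[fun_prop] theorem pt_Cxp (hx : PT x) : PT fun y => (x y).p := by unfold Cx.p; fun_prop
@[fun_prop] theorem pt_py (hk : PU k) (hu : PT u) : PT fun y => py (k y) (u y) := by
  unfold py; fun_prop

@[fun_prop] theorem pu_wid (hc : PT cs) : PU fun y => wid (cs y) := by
  refine PU.of_pb (by unfold wid; fun_prop) (PB.of_le (g := fun y => sz (cs y).flatten.flatten)
    (by fun_prop) fun y => ?_)
  rcases foldMax_mem ((cs y).flatten.flatten.map length) 0 with h | h
  · rw [wid, h]; exact Nat.zero_le _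
  · obtain ⟨a, ha, h⟩ := List.mem_map.1 h
    rw [wid, ← h]
    exact (length_lt_sz a).le.trans (sz_lt_of_mem ha).le

theorem PB2.mono_bound {β : Type} [Enc β] {Z : β → ℕ → ℕ} (h : PB2 Z) :
    ∃ Z' : β → ℕ → ℕ, PB2 Z' ∧ ∀ y n m, n ≤ m → Z y n ≤ Z' y m := by
  obtain ⟨Q, hQ⟩ := h
  refine ⟨fun y m => Q.eval (sz y + 2 * m + 2), ⟨Q, fun p => eval_mono Q ?_⟩, fun y n m h => ?_⟩
  · have h1 : p.2 = List.replicate p.2.length () := List.eq_replicate_of_mem fun _ _ => rfl
    have h2 := sz_replicate_unit p.2.length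
    rw [← h1] at h2
    rw [sz_prod]; omega
  · have h1 := hQ (y, List.replicate n ())
    simp only [List.length_replicate, sz_pair, sz_replicate_unit] at h1
    exact h1.trans (eval_mono Q (by omega))

variable [Ops C E] [OpsPT C E]

@[fun_prop] theorem pt_Cxo (hx : PT x) : PT fun y => (x y).o := by unfold Cx.o; fun_prop
@[fun_prop] theorem pt_Cxoo (hx : PT x) : PT fun y => (x y).oo := by unfold Cx.oo; fun_prop
@[fun_prop] theorem pt_smO (hx : PT x) (hs : PT s) (hg : PT g) :
    PT fun y => smO (x y) (s y) (g y) := by unfold smO; fun_prop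
@[fun_prop] theorem pt_nrmz (hx : PT x) (hg : PT g) : PT fun y => nrmz (x y) (g y) := by
  unfold nrmz; fun_prop
@[fun_prop] theorem pt_c0 (hx : PT x) (hg : PT g) : PT fun y => c0 (x y) (g y) := by
  unfold c0; fun_prop
@[fun_prop] theorem pt_redO (hx : PT x) (hD : PT D) (hg : PT g) :
    PT fun y => redO (x y) (D y) (g y) := by unfold redO; fun_prop
@[fun_prop] theorem pt_mons (hx : PT x) (hL : PU L) : PT fun y => mons (x y) (L y) := by
  unfold mons; simp only [mapR_eq, flatR_eq]; fun_prop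
@[fun_prop] theorem pt_combO (hx : PT x) (hl : PT lam) (hc : PT cs) :
    PT fun y => combO (x y) (lam y) (cs y) := by unfold combO; simp only [mapR_eq]; fun_prop
@[fun_prop] theorem pt_cnd (hx : PT x) (hD : PT D) (ht : PT t) (hg : PT g) :
    PT fun y => cnd (x y) (D y) (t y) (g y) := by unfold cnd; fun_prop
@[fun_prop] theorem pt_flat (hx : PT x) (hL : PU L) (ht : PT t) (hg : PT g) :
    PT fun y => flat (x y) (L y) (t y) (g y) := by
  unfold flat; simp only [mapR_eq, flatR_eq]; fun_prop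
@[fun_prop] theorem pt_cnds (hx : PT x) (ht : PT ths) (hD : PT D) (hg : PT gs) :
    PT fun y => cnds (x y) (ths y) (D y) (gs y) := by
  unfold cnds; simp only [mapR_eq]; fun_prop
@[fun_prop] theorem pt_row (hx : PT x) (hL : PU L) (ht : PT ths) (hg : PT gs) :
    PT fun y => row (x y) (L y) (ths y) (gs y) := by
  unfold row; simp only [flatR_eq]; fun_prop
@[fun_prop] theorem pt_rows (hx : PT x) (ht : PT ths) (hD : PT D) (hc : PT cs) :
    PT fun y => rows (x y) (ths y) (D y) (cs y) := by unfold rows; fun_prop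
@[fun_prop] theorem pt_gen (hx : PT x) (hI : PT I) : PT fun y => gen (x y) (I y) := by
  unfold gen; fun_prop
@[fun_prop] theorem pt_mem (hx : PT x) (hI : PT I) (hL : PU L) :
    PT fun y => mem (x y) (I y) (L y) := by unfold mem; fun_prop
@[fun_prop] theorem pt_mkI (hx : PT x) (hu : PT u) (hg : PT gs) :
    PT fun y => mkI (x y) (u y) (gs y) := by unfold mkI; fun_prop
@[fun_prop] theorem pt_prodI {Is : α → List (Idl E)} (hx : PT x) (hI : PT Is) :
    PT fun y => prodI (x y) (Is y) := by unfold prodI; fun_prop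
@[fun_prop] theorem pt_colS (hx : PT x) (hL : PU L) (hg : PT gs) :
    PT fun y => colS (x y) (L y) (gs y) := by unfold colS; fun_prop

variable [Red C E]

@[fun_prop] theorem pt_sgO (hx : PT x) (hz : PT z) (hg : PT g) :
    PT fun y => sgO (x y) (z y) (g y) := by unfold sgO; simp only [mapR_eq]; fun_prop
@[fun_prop] theorem pt_star (hx : PT x) (hz : PT z) (hg : PT g) :
    PT fun y => star (x y) (z y) (g y) := by unfold star; simp only [mapR_eq]; fun_prop
@[fun_prop] theorem pt_nrmO (hx : PT x) (hz : PT z) (hg : PT g) :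
    PT fun y => nrmO (x y) (z y) (g y) := by unfold nrmO; fun_prop
@[fun_prop] theorem pt_kerO (hx : PT x) (ht : PT ths) (hD : PT D) (hs : PT src) :
    PT fun y => kerO (x y) (ths y) (D y) (src y) := by unfold kerO; fun_prop
@[fun_prop] theorem pt_rkO (hx : PT x) (ht : PT ths) (hD : PT D) (hc : PT cs) :
    PT fun y => rkO (x y) (ths y) (D y) (cs y) := by unfold rkO; fun_prop
@[fun_prop] theorem pt_solO (hx : PT x) (ht : PT ths) (hD : PT D) (hs : PT src) (hg : PT gs) :
    PT fun y => solO (x y) (ths y) (D y) (src y) (gs y) := by unfold solO; fun_prop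
@[fun_prop] theorem pt_sgI (hx : PT x) (hz : PT z) (hI : PT I) :
    PT fun y => sgI (x y) (z y) (I y) := by unfold sgI; fun_prop
@[fun_prop] theorem pt_colon (hx : PT x) (hL : PU L) (hD : PT D) (hg : PT gs) :
    PT fun y => colon (x y) (L y) (D y) (gs y) := by unfold colon; fun_prop
@[fun_prop] theorem pt_colonRk (hx : PT x) (hL : PU L) (hD : PT D) (hg : PT gs) :
    PT fun y => colonRk (x y) (L y) (D y) (gs y) := by unfold colonRk; fun_prop

/-! ### sizes -/

theorem lw_psmul {c : C} (s : E) {a : List E} {m : ℕ} (h : Lw c a m) :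
    Lw c (psmul c s a) (m + wu c (rd c)) :=
  ⟨by have := h.1; simp only [length_psmul]; omega, fun b hb =>
    le_mono (le_wu (an_psmul c s a b hb)) (Nat.le_add_left _ _)⟩

theorem le_smO {x : Cx C E} (s : E) {g : Oe E} {n : ℕ} (h : le x.o g n) :
    le x.o (smO x s g) (n + wu x.c (rd x.c)) := by
  refine le_quo_of_entry (by simp [smO]) (fun j hj m hm => ?_) h
  have e : cf x.o.c (smO x s g) j = psmul x.c s (cf x.o.c g j) := by
    simp [cf, smO, List.getD_eq_getElem?_getD, hj]
  rw [e]; exact lw_psmul s hm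

theorem le_sgO {x : Cx C E} (z : E) {g : Oe E} {n : ℕ} (h : le x.o g n) :
    le x.o (sgO x z g) (n + wu x.c (rd x.c)) := by
  refine le_quo_of_entry (by simp [sgO]) (fun j hj m hm => ?_) h
  have e : cf x.o.c (sgO x z g) j = psmul x.c (pw x.c z j) (cf x.o.c g j) := by
    simp [cf, sgO, List.getD_eq_getElem?_getD, hj]
  rw [e]; exact lw_psmul _ hm

/-- size of a combination of lists of total size at most `N` -/
def zc (x : Cx C E) (N : ℕ) : ℕ := wd x.oo (N + 1 + wu x.o (N + 1) + wu x.c (rd x.c) + w0 x.oo)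

@[fun_prop] theorem pb_zc (hx : PT x) (hk : PB k) : PB fun y => zc (x y) (k y) := by
  unfold zc; fun_prop

theorem sz_combO (x : Cx C E) (lam : List E) {ps : List (List (Oe E))} {N : ℕ} (h : sz ps ≤ N) :
    sz (combO x lam ps) ≤ zc x N := by
  refine sz_le (c := x.oo) (le_foldAdd (c := x.oo) ⟨by simp, by simp⟩ (fun a ha => ?_) (by omega))
  obtain ⟨i, -, rfl⟩ := List.mem_map.1 ha
  have h1 : sz (ps.getD i []) ≤ N + 1 := (sz_getD_le _ _ _).trans (by simpa using h)
  have h2 := lw_wu (c := x.o) h1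
  refine ⟨by have := h2.1; simp only [List.length_map]; omega, fun b hb => ?_⟩
  obtain ⟨e, he, rfl⟩ := List.mem_map.1 hb
  exact le_mono (le_smO _ (h2.2 e he)) (Nat.le_add_right _ _)

theorem colon_bd : ∃ Z : Cx C E → ℕ → ℕ, PB2 Z ∧
    ∀ x L M D rs, L ≤ M → sz (colon x L D rs) ≤ Z x M := by
  obtain ⟨Z, h1, h2⟩ := PB2.mono_bound (Z := fun (x : Cx C E) L => (mons x L).length *
    (zc x (sz ((mons x L).map fun b => [b])) + 1 + 1) + 1) (by unfold PB2; fun_prop)
  refine ⟨Z, h1, fun x L M D rs h => le_trans (sz_list_le' ?_ fun a ha => ?_) (h2 x L M h)⟩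
  · simp [colon, kerO, length_kerC, rows, colS]
  · obtain ⟨g, hg, rfl⟩ := List.mem_map.1 ha
    obtain ⟨lam, -, rfl⟩ := List.mem_map.1 hg
    refine (sz_getD_le _ _ _).trans (Nat.add_le_add_right (sz_combO _ _ (le_of_eq ?_)) _)
    rw [colS, List.map_map]; rfl

end Vale.Agent.P319.A.Pt
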