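import Vale.Agent.P319.A.PT2

/-! Polynomial time: class group operations and the splitting routine. -/

namespace Vale.Agent.P319.A.Pt

open Vale.Agent.Lib.H23 List Ops

variable {α C E : Type} [Enc α] [Enc C] [Enc E] [Ops C E] [OpsPT C E] [Red C E]
variable {x : α → Cx C E} {z w cc ai b : α → E} {u : α → List E} {k t v a : α → ℕ}
  {A B : α → List (Oe E)} {I J : α → Idl E}

theorem sz_snd_le {β γ : Type} [Enc β] [Enc γ] (p : β × γ) : sz p.2 ≤ sz p := by
  rw [sz_prod]; omega

@[fun_prop] theorem pt_cyc (hk : PU k) (hv : PU v) : PT fun y => cyc (k y) (v y) := by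
  unfold cyc; simp only [mapR_eq, flatR_eq]; fun_prop

@[fun_prop] theorem pt_lead (hx : PT x) (hc : PT cc) (ht : PU t) :
    PT fun y => lead (x y) (cc y) (t y) := by unfold lead; simp only [mapR_eq]; fun_prop

@[fun_prop] theorem pt_negI (hx : PT x) (hz : PT z) (hc : PT cc) (hI : PT I) :
    PT fun y => negI (x y) (z y) (cc y) (I y) := by unfold negI; dsimp only; fun_prop

@[fun_prop] theorem pt_redI (hx : PT x) (hz : PT z) (ha : PT ai) (hI : PT I) :
    PT fun y => redI (x y) (z y) (ai y) (I y) := by unfold redI; fun_prop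

@[fun_prop] theorem pt_tw (hx : PT x) (hz : PT z) (hu : PT u) (hA : PT A) (hB : PT B) :
    PT fun y => tw (x y) (z y) (u y) (A y) (B y) := by unfold tw; simp only [mapR_eq]; fun_prop

omit [Red C E] in
@[fun_prop] theorem pt_phi (hx : PT x) (hA : PT A) : PT fun y => phi (x y) (A y) := by
  unfold phi; simp only [mapR_eq]; fun_prop

@[fun_prop] theorem pt_Ip (hx : PT x) (hz : PT z) (hI : PT I) (ht : PT t) :
    PT fun y => Ip (x y) (z y) (I y) (t y) := by unfold Ip; simp only [mapR_eq]; fun_prop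

omit [Ops C E] [OpsPT C E] [Red C E] in
@[fun_prop] theorem pt_divTh (hx : PT x) : PT fun y => divTh (x y) := by
  unfold divTh; simp only [mapR_eq]; fun_prop

@[fun_prop] theorem pt_divSrc (hx : PT x) (hz : PT z) (hI : PT I) (hu : PT u) :
    PT fun y => divSrc (x y) (z y) (I y) (u y) := by
  unfold divSrc; simp only [mapR_eq, flatR_eq]; fun_prop

@[fun_prop] theorem pt_divR (hx : PT x) (hz : PT z) (hI : PT I) (hu : PT u) :
    PT fun y => divR (x y) (z y) (I y) (u y) := by unfold divR; fun_prop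

theorem lw_tw {x : Cx C E} (z : E) (U : List E) (R : List (Oe E)) {S : List (Oe E)} {n : ℕ}
    (h : Lw x.o S n) (h0 : wu x.o 1 ≤ n) : Lw x.o (tw x z U R S) (n + (wu x.o (sz R + 1) +
      wu x.o (sz U + 2) + wu x.c (rd x.c) + 3 * w0 x.o + x.l)) := by
  refine lw_map_range (by omega) fun k _ => le_sumL (fun e he => ?_) (by omega)
  obtain ⟨a, -, rfl⟩ := List.mem_map.1 he
  have h1 : le x.o (R.getD a []) (wu x.o (sz R + 1)) := le_wu (sz_getD_le _ _ _)
  have h2 : le x.o (S.getD ((k + x.l - a) % x.l) []) n :=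
    le_getD h.2 (le_mono (le_wu (by simp)) h0) _
  have h3 : le x.o (if a ≤ k then one x.o else [U]) (wu x.o (sz U + 2) + w0 x.o) := by
    split_ifs
    · exact le_mono (le_one _) (by omega)
    · exact le_mono (le_wu (n := sz U + 2) (by simp)) (by omega)
  exact le_mono (le_mul (le_mul h1 (le_sgO _ h2)) h3) (by omega)

@[fun_prop] theorem pt_divE (hx : PT x) (hz : PT z) (hu : PT u) (hA : PT A) :
    PT fun y => divE (x y) (z y) (u y) (A y) := by
  let P : α → ℕ := fun y => wu (x y).o 1 + w0 (x y).o + 1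
  let B : α → ℕ := fun y => wu (x y).o (sz (A y) + 1) + wu (x y).o (sz (u y) + 2) +
    wu (x y).c (rd (x y).c) + 3 * w0 (x y).o + (x y).l
  have hP : PB P := by fun_prop
  have hB : PB B := by fun_prop
  have h : PT fun y => (range ((x y).l - 1)).foldl (fun S _ => tw (x y) (z y) (u y) (A y) S)
      [one (x y).o] := by
    refine pt_foldK (fun y j s => Lw (x y).o s (P y + j * B y))
      (fun y => (P y + (x y).l * B y) * (wd (x y).o (P y + (x y).l * B y) + 1) + 1) (by fun_prop)
      (by fun_prop) (by fun_prop) (by fun_prop) (fun y => ⟨by simp [P], fun e he => ?_⟩)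
      (fun y j s _ _ _ h => ?_) fun y j s hj h => (h.mono (Nat.add_le_add_left
        (Nat.mul_le_mul_right _ (by rw [List.length_range] at hj; omega)) _)).sz_le
    · rw [List.mem_singleton.1 he]; exact le_mono (le_one _) (by simp only [P]; omega)
    · rw [Nat.succ_mul, ← Nat.add_assoc]
      exact lw_tw _ _ _ h (by simp only [P]; omega)
  unfold divE; simp -zeta only [mapR_eq]; fun_prop

@[fun_prop] theorem pt_divI (hx : PT x) (hz : PT z) (hI : PT I) (hu : PT u) :
    PT fun y => divI (x y) (z y) (I y) (u y) := by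
  unfold divI; simp -zeta only [flatR_eq]; fun_prop

@[fun_prop] theorem pt_nrmS (hx : PT x) (hz : PT z) (hI : PT I) :
    PT fun y => nrmS (x y) (z y) (I y) := by unfold nrmS; simp only [mapR_eq]; fun_prop

@[fun_prop] theorem pt_nrmI {S : α → List (List E)} (hx : PT x) (hI : PT I) (hS : PT S)
    (hk : PU k) : PT fun y => nrmI (x y) (I y) (S y) (k y) := by unfold nrmI; fun_prop

@[fun_prop] theorem pt_step (hx : PT x) (hz : PT z) (hw : PT w) (hi : PT ai) (hJ : PT J)
    (hI : PT I) (ha : PT a) : PT fun y => step (x y) (z y) (w y) (ai y) (J y) (I y) (a y) := by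
  unfold step; simp only [mapR_eq]; fun_prop

@[fun_prop] theorem pt_idJ (hx : PT x) (hz : PT z) (hi : PT ai) :
    PT fun y => idJ (x y) (z y) (ai y) := by unfold idJ; fun_prop

@[fun_prop] theorem pt_idB (hx : PT x) (hz : PT z) (hb : PT b) :
    PT fun y => idB (x y) (z y) (b y) := by unfold idB; dsimp only; fun_prop

theorem negI_bd : ∃ B : Cx C E → ℕ, PB B ∧ ∀ x z cc I, sz (negI x z cc I) ≤ B x := by
  obtain ⟨Z, h1, h2⟩ := colon_bd (C := C)
  refine ⟨fun x => x.ds * (rd x.c + 1) + 1 + Z x x.ds + 1,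
    (PB.add (by fun_prop) (h1.app PT.id (pb_ds PT.id))).add (PB.const 1), fun x z cc I => ?_⟩
  have h3 : x.l * ((x.ds + I.1.length) / x.l) - I.1.length ≤ x.ds := by
    have := Nat.mul_div_le (x.ds + I.1.length) x.l
    omega
  unfold negI
  rw [sz_pair]
  exact Nat.add_le_add_right (Nat.add_le_add (sz_fit (an_pquo _ (an_mono (an_fit (an_psmul _ _ _)
    le_rfl _) le_rfl) le_rfl) le_rfl h3) (h2 _ _ _ _ _ h3)) _

theorem step_bd : ∃ B : Cx C E → ℕ, PB B ∧ ∀ x z w ai J I a, sz (step x z w ai J I a) ≤ B x := by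
  obtain ⟨B, h1, h2⟩ := negI_bd (C := C)
  refine ⟨fun x => x.ds * (rd x.c + 1) + 1 + zc x ((x.l * dD x + 1) * (B x + 1) + 1) + 1,
    by fun_prop, fun x z w ai J I a => ?_⟩
  unfold step
  rw [sz_pair]
  refine Nat.add_le_add_right (Nat.add_le_add (sz_fit (an_combP _ _ _) le_rfl le_rfl)
    (sz_combO _ _ (sz_list_le' (by simp) fun g hg => ?_))) _
  obtain ⟨K, hK, rfl⟩ := List.mem_map.1 hg
  obtain ⟨k, -, rfl⟩ := List.mem_map.1 hK
  exact le_trans (sz_snd_le _) (h2 _ _ _ _)

@[fun_prop] theorem pt_climb (hx : PT x) (hz : PT z) (hw : PT w) (hi : PT ai) (hb : PT b)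
    (hv : PU v) : PT fun y => climb (x y) (z y) (w y) (ai y) (b y) (v y) := by
  obtain ⟨B, h1, h2⟩ := negI_bd (C := C)
  obtain ⟨B', h3, h4⟩ := step_bd (C := C)
  exact pt_foldI (fun y s => sz s ≤ B (x y) + B' (x y)) (fun y => B (x y) + B' (x y))
    (by fun_prop) (by fun_prop) (by fun_prop) (by fun_prop)
    (fun _ => (h2 _ _ _ _).trans (Nat.le_add_right _ _))
    (fun _ _ _ _ _ => (h4 _ _ _ _ _ _ _).trans (Nat.le_add_left _ _)) fun _ _ h => h

omit [Red C E] in
@[fun_prop] theorem pt_trA (hx : PT x) (hu : PT u) : PT fun y => trA (x y) (u y) := by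
  unfold trA; fun_prop

omit [Ops C E] [OpsPT C E] [Red C E] in
@[fun_prop] theorem pt_up (hx : PT x) : PT fun y => up (x y) :=
  pt_Cxmk (by fun_prop) (by fun_prop) (by fun_prop) (pt_Cxlu hx)

@[fun_prop] theorem pt_nrmA {g : α → List (Oe (List E))} (hx : PT x) (hg : PT g) :
    PT fun y => nrmA (x y) (g y) := by unfold nrmA; simp only [mapR_eq]; fun_prop

@[fun_prop] theorem pt_nrmAI {K : α → Idl (List E)} (hx : PT x) (hK : PT K) :
    PT fun y => nrmAI (x y) (K y) := by unfold nrmAI; fun_prop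

@[fun_prop] theorem pt_cands (hx : PT x) (hz : PT z) (hw : PT w) (hI : PT I) (ha : PT a) :
    PT fun y => cands (x y) (z y) (w y) (I y) (a y) := by
  unfold cands; simp only [mapR_eq, filtR_eq]; fun_prop

@[fun_prop] theorem pt_fstep {s : α → Idl E × List (List E)} (hx : PT x) (hz : PT z) (hw : PT w)
    (hs : PT s) (ha : PT a) : PT fun y => fstep (x y) (z y) (w y) (s y) (a y) := by
  unfold fstep; fun_prop

theorem pt_foldFstep {l : α → List ℕ} (hx : PT x) (hz : PT z) (hw : PT w) (hI : PT I)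
    (hl : PT l) : PT fun y => (l y).foldl (fstep (x y) (z y) (w y))
      (negI (x y) (z y) (one (x y).c) (I y), []) := by
  obtain ⟨B, h1, h2⟩ := negI_bd (C := C)
  obtain ⟨Q, hQ⟩ := PT.size_le (f := fun p : α × Idl E × ℕ =>
    cands (x p.1) (z p.1) (w p.1) p.2.1 p.2.2) (by fun_prop)
  let Z : α → ℕ := fun y => Q.eval (sz y + B (x y) + sz (l y) + 2)
  have hZ : PB Z := by
    obtain ⟨R, hR⟩ : PB fun y => sz y + B (x y) + sz (l y) + 2 := by fun_prop
    exact ⟨Q.comp R, fun y => by rw [Polynomial.eval_comp]; exact eval_mono Q (hR y)⟩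
  refine pt_foldK (fun y j s => sz s.1 ≤ B (x y) ∧ sz s.2 ≤ 1 + j * Z y)
    (fun y => B (x y) + (1 + (l y).length * Z y) + 1) (by fun_prop) hl (by fun_prop) (by fun_prop)
    (fun y => ⟨h2 _ _ _ _, by simp⟩) (fun y j s a ha _ h => ⟨h2 _ _ _ _, ?_⟩) fun y j s hj h => ?_
  · have h3 := sz_append s.2 (cands (x y) (z y) (w y) s.1 a)
    have h4 : sz (cands (x y) (z y) (w y) s.1 a) ≤ Z y := (hQ (y, s.1, a)).trans (eval_mono Q (by
      have := sz_lt_of_mem ha
      have := h.1
      simp only [sz_pair]; omega))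
    have h5 := h.2
    rw [Nat.succ_mul]
    simp only [fstep]; omega
  · have := Nat.mul_le_mul_right (Z y) hj
    have := h.1
    have := h.2
    rw [sz_prod]; omega

@[fun_prop] theorem pt_split0 (hx : PT x) (hz : PT z) (hw : PT w) (hb : PT b) (hv : PU v)
    (hk : PU k) : PT fun y => split0 (x y) (z y) (w y) (b y) (v y) (k y) :=
  (pt_foldFstep hx hz hw (by fun_prop) (by fun_prop)).snd

end Vale.Agent.P319.A.Pt
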