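import Vale.Agent.P333.PTa
import Vale.Agent.P319.A.Code

/-! Polynomial time kit: unary numbers, polynomially bounded functions, folds with invariants. -/

namespace Vale.Agent.P319.A.Pt

open Vale.Agent.Lib.H23 Polynomial

export Vale.Agent.P333 (sz_append sz_sublist pt_take pt_flatten pt_flatMap pt_filter pt_mod
  sz_getD_le headD_mem)

variable {α β γ σ : Type} [Enc α] [Enc β] [Enc γ] [Enc σ]

@[fun_prop] theorem pt_ite {p : α → Prop} {i : ∀ x, Decidable (p x)} {f g : α → β}
    (hp : PT fun x => @decide (p x) (i x)) (hf : PT f) (hg : PT g) :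
    PT fun x => @ite β (p x) (i x) (f x) (g x) :=
  (PT.cond hp hf hg).congr fun x => by by_cases h : p x <;> simp [h]

@[fun_prop] theorem pt_decEq {f g : α → ℕ} {i : ∀ x, Decidable (f x = g x)} (hf : PT f)
    (hg : PT g) : PT fun x => @decide (f x = g x) (i x) :=
  (PT.eqb hf hg).congr fun x => by simp

@[fun_prop] theorem pt_decLt {f g : α → ℕ} {i : ∀ x, Decidable (f x < g x)} (hf : PT f)
    (hg : PT g) : PT fun x => @decide (f x < g x) (i x) :=
  (PT.ltb hf hg).congr fun x => by simp

@[fun_prop] theorem pt_decLe {f g : α → ℕ} {i : ∀ x, Decidable (f x ≤ g x)} (hf : PT f)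
    (hg : PT g) : PT fun x => @decide (f x ≤ g x) (i x) :=
  (PT.not (PT.ltb hg hf)).congr fun x => by by_cases h : f x ≤ g x <;> simp [h] <;> omega

@[fun_prop] theorem pt_decNe {f g : α → ℕ} {i : ∀ x, Decidable (f x ≠ g x)} (hf : PT f)
    (hg : PT g) : PT fun x => @decide (f x ≠ g x) (i x) :=
  (PT.not (PT.eqb hf hg)).congr fun x => by simp

theorem pt_decAnd {p q : α → Prop} [DecidablePred p] [DecidablePred q]
    {i : ∀ x, Decidable (p x ∧ q x)} (hp : PT fun x => decide (p x))
    (hq : PT fun x => decide (q x)) : PT fun x => @decide (p x ∧ q x) (i x) :=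
  (PT.and hp hq).congr fun x => by simp

@[fun_prop] theorem pt_min {f g : α → ℕ} (hf : PT f) (hg : PT g) : PT fun x => min (f x) (g x) :=
  (pt_ite (pt_decLe hf hg) hf hg).congr fun _ => min_def _ _

@[fun_prop] theorem pt_max {f g : α → ℕ} (hf : PT f) (hg : PT g) : PT fun x => max (f x) (g x) :=
  (pt_ite (pt_decLe hf hg) hg hf).congr fun _ => max_def _ _

@[fun_prop] theorem pt_foldMax {l : α → List ℕ} (hl : PT l) : PT fun x => (l x).foldl max 0 :=
  Vale.Agent.P333.pt_maxL hl

theorem foldMax_mem (l : List ℕ) (s : ℕ) : l.foldl max s = s ∨ l.foldl max s ∈ l := by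
  induction l generalizing s with
  | nil => simp
  | cons a l ih =>
    rw [List.foldl_cons]
    rcases ih (max s a) with h | h
    · rw [h]; rcases le_total s a with h' | h' <;> simp [h']
    · exact Or.inr (List.mem_cons_of_mem _ h)

@[fun_prop] theorem pt_log {f : α → ℕ} (hf : PT f) : PT fun x => Nat.log 2 (f x) :=
  (PT.sub hf.size (PT.const 1)).congr fun x => by
    rcases Nat.eq_zero_or_pos (f x) with h | h
    · simp [h]
    · have h1 : 0 < (f x).size := Nat.size_pos.2 h
      refine Nat.log_eq_of_pow_le_of_lt_pow (Nat.lt_size.1 (by omega)) ?_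
      rw [Nat.sub_add_cancel h1]; exact Nat.lt_size_self _

/-! ### polynomially bounded functions -/

@[fun_prop] def PB (f : α → ℕ) : Prop := ∃ Q : ℕ[X], ∀ x, f x ≤ Q.eval (sz x)

theorem PB.of_le {f g : α → ℕ} (hg : PB g) (h : ∀ x, f x ≤ g x) : PB f :=
  let ⟨Q, hQ⟩ := hg; ⟨Q, fun x => (h x).trans (hQ x)⟩

@[fun_prop] theorem PB.const (c : ℕ) : PB fun _ : α => c := ⟨C c, fun _ => by simp⟩

@[fun_prop] theorem PB.comp {f : β → ℕ} {g : α → β} (hf : PB f) (hg : PT g) :
    PB fun x => f (g x) := by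
  obtain ⟨Q, hQ⟩ := hf
  obtain ⟨R, hR⟩ := hg.size_le
  exact ⟨Q.comp R, fun x => (hQ _).trans (by rw [eval_comp]; exact eval_mono Q (hR x))⟩

@[fun_prop] theorem PB.add {f g : α → ℕ} (hf : PB f) (hg : PB g) : PB fun x => f x + g x := by
  obtain ⟨Q, hQ⟩ := hf
  obtain ⟨R, hR⟩ := hg
  exact ⟨Q + R, fun x => by rw [eval_add]; exact Nat.add_le_add (hQ x) (hR x)⟩

@[fun_prop] theorem PB.mul {f g : α → ℕ} (hf : PB f) (hg : PB g) : PB fun x => f x * g x := by
  obtain ⟨Q, hQ⟩ := hf
  obtain ⟨R, hR⟩ := hg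
  exact ⟨Q * R, fun x => by rw [eval_mul]; exact Nat.mul_le_mul (hQ x) (hR x)⟩

@[fun_prop] theorem PB.sz {f : α → β} (hf : PT f) : PB fun x => sz (f x) := hf.size_le

@[fun_prop] theorem PB.length {l : α → List β} (hl : PT l) : PB fun x => (l x).length :=
  (PB.sz hl).of_le fun _ => (length_lt_sz _).le

/-- bounded by a polynomial in the size of the first argument and in the second argument -/
def PB2 (Z : α → ℕ → ℕ) : Prop := PB fun p : α × List Unit => Z p.1 p.2.length

theorem PB2.app {Z : β → ℕ → ℕ} (hZ : PB2 Z) {c : α → β} {n : α → ℕ} (hc : PT c) (hn : PB n) :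
    PB fun x => Z (c x) (n x) := by
  obtain ⟨Q, hQ⟩ := hZ
  obtain ⟨R, hR⟩ := hc.size_le
  obtain ⟨S, hS⟩ := hn
  refine ⟨Q.comp (R + 2 * S + 2), fun x => ?_⟩
  have h1 := hQ (c x, List.replicate (n x) ())
  simp only [List.length_replicate, sz_pair, sz_replicate_unit] at h1
  refine h1.trans ?_
  rw [eval_comp]
  apply eval_mono
  have := hR x
  have := hS x
  simp only [eval_add, eval_mul, eval_ofNat]
  omega

/-! ### numbers in unary -/

@[fun_prop] def PU (f : α → ℕ) : Prop := PT fun x => List.replicate (f x) ()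

theorem PU.of_len {l : α → List β} (hl : PT l) {f : α → ℕ} (h : ∀ x, (l x).length = f x) :
    PU f := (PT.map (f := fun _ _ => ()) (PT.const ()) hl).congr fun x => by
  rw [List.map_const', h]

@[fun_prop] theorem PU.pt {f : α → ℕ} (h : PU f) : PT f :=
  (PT.length h).congr fun _ => by simp

@[fun_prop] theorem PU.pb {f : α → ℕ} (h : PU f) : PB f :=
  (PB.length h).of_le fun _ => by simp

@[fun_prop] theorem PU.const (c : ℕ) : PU fun _ : α => c := PT.const _

@[fun_prop] theorem PU.comp {f : β → ℕ} {g : α → β} (hf : PU f) (hg : PT g) :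
    PU fun x => f (g x) := PT.comp (f := fun y => List.replicate (f y) ()) hf hg

@[fun_prop] theorem PU.length {l : α → List β} (hl : PT l) : PU fun x => (l x).length :=
  PU.of_len hl fun _ => rfl

@[fun_prop] theorem PU.add {f g : α → ℕ} (hf : PU f) (hg : PU g) : PU fun x => f x + g x :=
  PU.of_len (PT.append hf hg) fun _ => by simp

@[fun_prop] theorem PU.mul {f g : α → ℕ} (hf : PU f) (hg : PU g) : PU fun x => f x * g x :=
  PU.of_len (pt_flatMap (f := fun x _ => List.replicate (g x) ()) (hg.comp PT.fst') hf)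
    fun _ => by simp

theorem PU.of_le {f g : α → ℕ} (hf : PU f) (hg : PT g) (h : ∀ x, g x ≤ f x) : PU g :=
  PU.of_len (pt_take hg hf) fun x => by simp [h x]

@[fun_prop] theorem PU.pow {f : α → ℕ} (hf : PU f) (k : ℕ) : PU fun x => f x ^ k := by
  induction k with
  | zero => exact PU.const 1
  | succ k ih => exact ih.mul hf

@[fun_prop] theorem PU.sub {f g : α → ℕ} (hf : PU f) (hg : PT g) : PU fun x => f x - g x :=
  hf.of_le (PT.sub hf.pt hg) fun _ => Nat.sub_le _ _

@[fun_prop] theorem PU.div {f g : α → ℕ} (hf : PU f) (hg : PT g) : PU fun x => f x / g x :=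
  hf.of_le (PT.div hf.pt hg) fun _ => Nat.div_le_self _ _

@[fun_prop] theorem PU.mod {f g : α → ℕ} (hf : PU f) (hg : PT g) : PU fun x => f x % g x :=
  hf.of_le (pt_mod hf.pt hg) fun _ => Nat.mod_le _ _

@[fun_prop] theorem PU.min {f g : α → ℕ} (hf : PT f) (hg : PU g) : PU fun x => min (f x) (g x) :=
  hg.of_le (pt_min hf hg.pt) fun _ => min_le_right _ _

@[fun_prop] theorem PU.max {f g : α → ℕ} (hf : PU f) (hg : PU g) : PU fun x => max (f x) (g x) :=
  (hf.add hg).of_le (pt_max hf.pt hg.pt) fun _ => by omega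

theorem PU.sz {f : α → β} (hf : PT f) : PU fun x => sz (f x) :=
  PT.comp PT.szUnary (PT.comp (PT.retag (f := fun y : β => (Enc.enc y : Tr)) fun _ => rfl) hf)

theorem PU.of_pb {g : α → ℕ} (h1 : PT g) (h2 : PB g) : PU g := by
  obtain ⟨Q, hQ⟩ := h2
  refine PU.of_le ?_ h1 hQ
  clear hQ
  induction Q using Polynomial.induction_on' with
  | add p q hp hq => simpa only [eval_add] using hp.add hq
  | monomial k a => simpa only [eval_monomial] using (PU.const a).mul ((PU.sz PT.id).pow k)

@[fun_prop] theorem PU.sumLen {l : α → List β} {f : α → β → List γ}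
    (hf : PT fun p : α × β => f p.1 p.2) (hl : PT l) :
    PU fun x => ((l x).map fun a => (f x a).length).sum :=
  PU.of_len (pt_flatMap hf hl) fun _ => by rw [List.length_flatMap]

@[fun_prop] theorem pt_range {n : α → ℕ} (hn : PU n) : PT fun x => List.range (n x) :=
  (Vale.Agent.P333.pt_rg hn).congr fun _ => by simp [Vale.Agent.P333.rg]

@[fun_prop] theorem pt_replicate {n : α → ℕ} {a : α → β} (hn : PU n) (ha : PT a) :
    PT fun x => List.replicate (n x) (a x) :=
  (PT.map (f := fun x _ => a x) (PT.comp ha PT.fst') hn).congr fun _ => by simp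

/-- the numbers below `n`, in unary -/
def uns (n : ℕ) : List (List Unit) := (List.range n).map fun k => List.replicate k ()

@[fun_prop] theorem pt_uns {n : α → ℕ} (hn : PU n) : PT fun x => uns (n x) :=
  (PT.map (f := fun x k => (List.replicate (n x) ()).take k)
    (pt_take PT.snd' (PT.comp hn PT.fst')) (pt_range hn)).congr fun x =>
      List.map_congr_left fun k hk => by
        rw [List.take_replicate, min_eq_left (List.mem_range.1 hk).le]

theorem range_eq_uns (n : ℕ) : List.range n = (uns n).map List.length := by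
  simp [uns, Function.comp_def]

def mapR {δ : Type} (n : ℕ) (f : ℕ → δ) : List δ := (List.range n).map f
def flatR {δ : Type} (n : ℕ) (f : ℕ → List δ) : List δ := (List.range n).flatMap f
def filtR (n : ℕ) (f : ℕ → Bool) : List ℕ := (List.range n).filter f

theorem mapR_eq {δ : Type} (n : ℕ) (f : ℕ → δ) : (List.range n).map f = mapR n f := rfl
theorem flatR_eq {δ : Type} (n : ℕ) (f : ℕ → List δ) : (List.range n).flatMap f = flatR n f := rfl
theorem filtR_eq (n : ℕ) (f : ℕ → Bool) : (List.range n).filter f = filtR n f := rfl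

@[fun_prop] theorem pt_mapR {n : α → ℕ} {f : α → ℕ → β} (hn : PU n)
    (hf : PT fun p : α × List Unit => f p.1 p.2.length) : PT fun x => mapR (n x) (f x) :=
  (PT.map (f := fun x (u : List Unit) => f x u.length) hf (pt_uns hn)).congr fun x => by
    rw [mapR, range_eq_uns, List.map_map]; rfl

@[fun_prop] theorem pt_flatR {n : α → ℕ} {f : α → ℕ → List β} (hn : PU n)
    (hf : PT fun p : α × List Unit => f p.1 p.2.length) : PT fun x => flatR (n x) (f x) :=
  (pt_flatten (pt_mapR hn hf)).congr fun _ => List.flatMap_def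

@[fun_prop] theorem pt_filtR {n : α → ℕ} {f : α → ℕ → Bool} (hn : PU n)
    (hf : PT fun p : α × List Unit => f p.1 p.2.length) : PT fun x => filtR (n x) (f x) :=
  (PT.map (f := fun _ (u : List Unit) => u.length) (by fun_prop)
    (pt_filter (f := fun x (u : List Unit) => f x u.length) hf (pt_uns hn))).congr fun x => by
      rw [filtR, range_eq_uns, List.filter_map]; rfl

/-! ### folds -/

theorem foldl_inv {δ τ : Type} {f : τ → δ → τ} {l : List δ} {i : τ} (R : ℕ → τ → Prop)
    (h0 : R 0 i) (hs : ∀ k s a, a ∈ l → k < l.length → R k s → R (k + 1) (f s a)) :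
    R l.length (l.foldl f i) := by
  have key : ∀ k, k ≤ l.length → R k ((l.take k).foldl f i) := by
    intro k
    induction k with
    | zero => intro _; simpa using h0
    | succ k ih =>
      intro hk
      rw [List.take_succ_eq_append_getElem hk, List.foldl_append]
      exact hs k _ _ (List.getElem_mem _) hk (ih (by omega))
  simpa using key l.length le_rfl

theorem foldl_inv' {δ τ : Type} {f : τ → δ → τ} {l : List δ} {i : τ} (R : τ → Prop)
    (h0 : R i) (hs : ∀ s a, a ∈ l → R s → R (f s a)) : R (l.foldl f i) :=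
  foldl_inv (fun _ => R) h0 fun _ s a ha _ h => hs s a ha h

/-- a fold with an invariant depending on the number of rounds -/
theorem pt_foldK {f : α → σ → β → σ} {l : α → List β} {i : α → σ} (R : α → ℕ → σ → Prop)
    (Z : α → ℕ) (hf : PT fun p : α × σ × β => f p.1 p.2.1 p.2.2) (hl : PT l) (hi : PT i)
    (hZ : PB Z) (h0 : ∀ x, R x 0 (i x))
    (hs : ∀ x k s a, a ∈ l x → k < (l x).length → R x k s → R x (k + 1) (f x s a))
    (hz : ∀ x k s, k ≤ (l x).length → R x k s → sz s ≤ Z x) :
    PT fun x => (l x).foldl (f x) (i x) := by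
  obtain ⟨Q, hQ⟩ := hZ
  refine PT.foldl hf hl hi ⟨Q, fun x k => le_trans ?_ (hQ x)⟩
  have h1 : ((l x).take k).length ≤ (l x).length := by simp
  exact hz x _ _ h1 (foldl_inv (R x) (h0 x) fun j s a ha hj h =>
    hs x j s a (List.mem_of_mem_take ha) (by omega) h)

/-- a fold with an invariant -/
theorem pt_foldI {f : α → σ → β → σ} {l : α → List β} {i : α → σ} (R : α → σ → Prop)
    (Z : α → ℕ) (hf : PT fun p : α × σ × β => f p.1 p.2.1 p.2.2) (hl : PT l) (hi : PT i)
    (hZ : PB Z) (h0 : ∀ x, R x (i x)) (hs : ∀ x s a, a ∈ l x → R x s → R x (f x s a))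
    (hz : ∀ x s, R x s → sz s ≤ Z x) : PT fun x => (l x).foldl (f x) (i x) :=
  pt_foldK (fun x _ => R x) Z hf hl hi hZ h0 (fun x _ s a ha _ h => hs x s a ha h)
    fun x _ s _ h => hz x s h

/-- a fold over a range, with the index in unary -/
theorem pt_foldR {f : α → σ → ℕ → σ} {n : α → ℕ} {i : α → σ} (R : α → ℕ → σ → Prop)
    (Z : α → ℕ) (hf : PT fun p : α × σ × List Unit => f p.1 p.2.1 p.2.2.length) (hn : PU n)
    (hi : PT i) (hZ : PB Z) (h0 : ∀ x, R x 0 (i x))
    (hs : ∀ x k s a, a < n x → k < n x → R x k s → R x (k + 1) (f x s a))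
    (hz : ∀ x k s, k ≤ n x → R x k s → sz s ≤ Z x) :
    PT fun x => (List.range (n x)).foldl (f x) (i x) := by
  have hl : ∀ x, (uns (n x)).length = n x := fun x => by simp [uns]
  refine (pt_foldK (f := fun x s (u : List Unit) => f x s u.length) R Z hf (pt_uns hn) hi hZ h0
    (fun x k s a ha hk => hs x k s _ ?_ (hl x ▸ hk)) fun x k s hk => hz x k s (hl x ▸ hk)).congr
      fun x => by rw [range_eq_uns, List.foldl_map]
  obtain ⟨j, hj, rfl⟩ := List.mem_map.1 ha
  simpa using hj

@[fun_prop] theorem pt_powU {a k : α → ℕ} (ha : PT a) (hk : PU k) : PT fun x => a x ^ k x := by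
  have e : ∀ (b : ℕ) (l : List Unit) (s : ℕ), l.foldl (fun s _ => s * b) s = s * b ^ l.length := by
    intro b l
    induction l with
    | nil => simp
    | cons u l ih => intro s; rw [List.foldl_cons, ih, List.length_cons, pow_succ]; ring
  refine (pt_foldK (f := fun x s (_ : Unit) => s * a x) (fun x j s => s ≤ 2 ^ (j * sz (a x)))
    (fun x => 4 * (k x * sz (a x) + 1) + 1) (by fun_prop) hk (PT.const 1) (by fun_prop)
    (fun x => by simp) (fun x j s _ _ _ h => ?_) fun x j s hj h => ?_).congr fun x => by simp [e]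
  · rw [Nat.succ_mul, pow_add]
    exact Nat.mul_le_mul h (lt_two_pow_sz _).le
  · rw [List.length_replicate] at hj
    refine sz_nat_le (h.trans_lt (Nat.pow_lt_pow_right (by omega) ?_))
    exact Nat.lt_succ_of_le (Nat.mul_le_mul_right _ hj)

theorem sz_nat_mono {a b : ℕ} (h : a ≤ b) : sz a ≤ 4 * sz b + 1 :=
  sz_nat_le (h.trans_lt (lt_two_pow_sz b))

theorem sz_list_le' {l : List β} {n B : ℕ} (hn : l.length ≤ n) (h : ∀ a ∈ l, sz a ≤ B) :
    sz l ≤ n * (B + 1) + 1 :=
  (sz_list_le h).trans (Nat.add_le_add_right (Nat.mul_le_mul_right _ hn) 1)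

end Vale.Agent.P319.A.Pt
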