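import Mathlib
import Vale.Agent.P319.A.Code

/-! Meaning of codes: ring layer. -/

namespace Vale.Agent.P319.A

open Polynomial Finset

section defs
variable {C E R : Type} [Ops C E] [CommRing R]

/-- `π` respects the operations -/
structure Hom (c : C) (π : E → R) : Prop where
  add : ∀ a b, π (Ops.add c a b) = π a + π b
  neg : ∀ a, π (Ops.neg c a) = -π a
  mul : ∀ a b, π (Ops.mul c a b) = π a * π b
  ofN : ∀ n : ℕ, π (Ops.ofN c n) = n
def Faith (c : C) (π : E → R) : Prop := ∀ a, Ops.isZ c a = true ↔ π a = 0
/-- a point with values in the field with `Q` elements -/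
structure Pt {F : Type} [Field F] (c : C) (Q : ℕ) (π : E → F) : Prop extends Hom c π where
  fix : ∀ a, π a ^ Q = π a
  two : 2 ≤ Q
  frob : ∃ r : F →+* F, ∀ a, r a = a ^ Q
noncomputable def toP (π : E → R) (l : List E) : R[X] :=
  l.foldr (fun a s => Polynomial.C (π a) + X * s) 0
noncomputable def evq (π : E → R) (t : R) (l : List E) : R := (toP π l).eval t
noncomputable def mon (π : E → R) (u : List E) : R[X] := X ^ u.length + toP π u
/-- `1, t, .., t^(d-1)` are independent over the values of `π` -/
def Ind (π : E → R) (t : R) (d : ℕ) : Prop :=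
  ∀ l : List E, l.length ≤ d → evq π t l = 0 → toP π l = 0
/-- span of the values of a list -/
noncomputable def spn (F : Type) [Field F] {M V : Type} [AddCommGroup V] [Module F V] (ρ : M → V)
    (l : List M) : Submodule F V := Submodule.span F (ρ '' {a | a ∈ l})
end defs

variable {C E R S : Type} [Ops C E] [CommRing R] [CommRing S] {c : C} {π : E → R}

theorem toP_nil : toP π [] = 0 := rfl
theorem toP_cons (a : E) (l : List E) : toP π (a :: l) = Polynomial.C (π a) + X * toP π l := rfl
theorem toP_single (a : E) : toP π [a] = Polynomial.C (π a) := by simp [toP]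
theorem toP_append (a b : List E) : toP π (a ++ b) = toP π a + X ^ a.length * toP π b := by
  induction a with
  | nil => simp [toP_nil]
  | cons x a ih => rw [List.cons_append, toP_cons, toP_cons, ih, List.length_cons]; ring
theorem coeff_toP' {d : E} (hd : π d = 0) (l : List E) (j : ℕ) :
    (toP π l).coeff j = π (l.getD j d) := by
  induction l generalizing j with
  | nil => simp [toP_nil, hd]
  | cons x a ih =>
    cases j with
    | zero => simp [toP_cons]
    | succ j => rw [toP_cons, coeff_add, coeff_C_succ, coeff_X_mul, ih, zero_add, List.getD_cons_succ]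
theorem toP_eq_sum {d : E} (l : List E) :
    toP π l = ∑ j ∈ range l.length, Polynomial.C (π (l.getD j d)) * X ^ j := by
  induction l with
  | nil => simp [toP_nil]
  | cons x a ih =>
    rw [toP_cons, List.length_cons, sum_range_succ', ih, mul_sum, add_comm]
    simp only [List.getD_cons_succ, List.getD_cons_zero, pow_zero, mul_one]
    congr 1
    exact sum_congr rfl fun j _ => by ring
theorem toP_range (g : ℕ → E) (n : ℕ) :
    toP π ((List.range n).map g) = ∑ j ∈ range n, Polynomial.C (π (g j)) * X ^ j := by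
  induction n with
  | zero => simp [toP_nil]
  | succ n ih =>
    rw [List.range_succ, List.map_append, toP_append, ih, sum_range_succ, List.map_singleton,
      toP_single, List.length_map, List.length_range, mul_comm]
theorem coeff_toP_range (g : ℕ → E) (n j : ℕ) :
    (toP π ((List.range n).map g)).coeff j = if j < n then π (g j) else 0 := by
  rw [toP_range, finset_sum_coeff]
  simp only [coeff_C_mul_X_pow]
  rw [sum_ite_eq]
  simp only [mem_range]
theorem toP_replicate {d : E} (hd : π d = 0) (k : ℕ) : toP π (List.replicate k d) = 0 := by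
  induction k with
  | zero => rfl
  | succ k ih => rw [List.replicate_succ, toP_cons, ih, hd]; simp
theorem toP_eq_zero {l : List E} : toP π l = 0 ↔ ∀ a ∈ l, π a = 0 := by
  induction l with
  | nil => simp [toP_nil]
  | cons x a ih =>
    rw [toP_cons, List.forall_mem_cons, ← ih]
    refine ⟨fun h => ?_, fun h => by simp [h.1, h.2]⟩
    have h0 : π x = 0 := by simpa using congrArg (coeff · 0) h
    refine ⟨h0, Polynomial.ext fun j => ?_⟩
    simpa [h0, coeff_X_mul] using congrArg (coeff · (j + 1)) h
theorem toP_map {E' : Type} (g : E' → E) (l : List E') : toP π (l.map g) = toP (π ∘ g) l := by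
  induction l with
  | nil => rfl
  | cons x a ih => rw [List.map_cons, toP_cons, toP_cons, ih]; rfl
theorem map_toP (r : R →+* S) (l : List E) : (toP π l).map r = toP (fun a => r (π a)) l := by
  induction l with
  | nil => simp [toP_nil]
  | cons x a ih => simp [toP_cons, ih]
theorem map_mon (r : R →+* S) (l : List E) : (mon π l).map r = mon (fun a => r (π a)) l := by
  simp [mon, map_toP]
theorem sem_deg (n : ℕ) (g : ℕ → R) :
    (∑ j ∈ range n, Polynomial.C (g j) * X ^ j).degree < (n : WithBot ℕ) := by
  rw [degree_lt_iff_coeff_zero]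
  intro m hm
  rw [finset_sum_coeff]
  simp only [coeff_C_mul_X_pow]
  rw [sum_ite_eq, if_neg (by simpa using hm)]
theorem degree_toP_lt (l : List E) : (toP π l).degree < l.length := by
  cases l with
  | nil => simp [toP_nil]
  | cons x a => rw [toP_eq_sum (d := x)]; exact sem_deg _ _
theorem coeff_toP_drop (l : List E) (k j : ℕ) :
    (toP π (l.drop k)).coeff j = (toP π l).coeff (k + j) := by
  induction k generalizing l with
  | zero => simp
  | succ k ih =>
    cases l with
    | nil => simp [toP_nil]
    | cons x a =>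
      rw [List.drop_succ_cons, ih, toP_cons, Nat.add_right_comm, coeff_add, coeff_C_succ,
        coeff_X_mul, zero_add]
theorem mon_monic (u : List E) : (mon π u).Monic := monic_X_pow_add (degree_toP_lt u)
theorem sem_coeff_zero (l : List E) {j : ℕ} (hj : l.length ≤ j) : (toP π l).coeff j = 0 :=
  coeff_eq_zero_of_degree_lt ((degree_toP_lt l).trans_le (by exact_mod_cast hj))
theorem sem_degree_mon [Nontrivial R] (u : List E) : (mon π u).degree = u.length := by
  rw [mon, degree_add_eq_left_of_degree_lt (by rw [degree_X_pow]; exact degree_toP_lt u),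
    degree_X_pow]
theorem natDegree_mon [Nontrivial R] (u : List E) : (mon π u).natDegree = u.length := natDegree_eq_of_degree_eq_some (sem_degree_mon u)
theorem evq_nil (t : R) : evq π t [] = 0 := by simp [evq, toP_nil]
theorem evq_single (t : R) (a : E) : evq π t [a] = π a := by simp [evq, toP_single]
theorem evq_cons (t : R) (a : E) (l : List E) : evq π t (a :: l) = π a + t * evq π t l := by
  simp [evq, toP_cons]

theorem Hom.comp (h : Hom c π) (r : R →+* S) : Hom c fun a => r (π a) :=   ⟨fun a b => by rw [h.add, map_add], fun a => by rw [h.neg, map_neg],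
    fun a b => by rw [h.mul, map_mul], fun n => by rw [h.ofN, map_natCast]⟩
theorem Hom.zero (h : Hom c π) : π (zero c) = 0 := (h.ofN 0).trans Nat.cast_zero
theorem Hom.one (h : Hom c π) : π (one c) = 1 := (h.ofN 1).trans Nat.cast_one
theorem Hom.sub (h : Hom c π) (a b : E) : π (sub c a b) = π a - π b := by
  rw [A.sub, h.add, h.neg, sub_eq_add_neg]
theorem sem_foldl_add {f : E → E → E} (hf : ∀ a b, π (f a b) = π a + π b) (l : List E) (s : E) :
    π (l.foldl f s) = π s + (l.map π).sum := by
  induction l generalizing s with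
  | nil => simp
  | cons x a ih => rw [List.foldl_cons, ih, hf, List.map_cons, List.sum_cons, add_assoc]
theorem Hom.sumL (h : Hom c π) (l : List E) : π (sumL c l) = (l.map π).sum := by
  rw [A.sumL, sem_foldl_add h.add, h.zero, zero_add]
theorem Hom.prodL (h : Hom c π) (l : List E) : π (prodL c l) = (l.map π).prod := by
  have : ∀ s, π (l.foldl (Ops.mul c) s) = π s * (l.map π).prod := by
    induction l with
    | nil => simp
    | cons x a ih =>
      intro s
      rw [List.foldl_cons, ih, h.mul, List.map_cons, List.prod_cons, mul_assoc]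
  rw [A.prodL, this, h.one, one_mul]
theorem sum_list_map_range {M : Type} [AddCommMonoid M] (g : ℕ → M) (n : ℕ) :
    ((List.range n).map g).sum = ∑ j ∈ range n, g j := by
  induction n with
  | zero => simp
  | succ n ih => simp [List.range_succ, sum_range_succ, ih]
theorem prod_list_map_range {M : Type} [CommMonoid M] (g : ℕ → M) (n : ℕ) :
    ((List.range n).map g).prod = ∏ j ∈ range n, g j := by
  induction n with
  | zero => simp
  | succ n ih => simp [List.range_succ, prod_range_succ, ih]
theorem Hom.sumL_range (h : Hom c π) (g : ℕ → E) (n : ℕ) :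
    π (A.sumL c ((List.range n).map g)) = ∑ j ∈ range n, π (g j) := by
  rw [h.sumL, List.map_map, ← sum_list_map_range]; rfl
theorem Hom.prodL_range (h : Hom c π) (g : ℕ → E) (n : ℕ) :
    π (A.prodL c ((List.range n).map g)) = ∏ j ∈ range n, π (g j) := by
  rw [h.prodL, List.map_map, ← prod_list_map_range]; rfl
theorem Hom.pwU (h : Hom c π) (a : E) (k : ℕ) : π (pwU c a k) = π a ^ k := by
  rw [A.pwU, h.prodL]; simp
theorem pw_ind {a : E} {P : E → ℕ → Prop} (h0 : P (A.one c) 0)
    (h1 : ∀ s k, P s k → P (Ops.mul c s s) (2 * k))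
    (h2 : ∀ s k, P s k → P (Ops.mul c s a) (k + 1)) (k : ℕ) : P (A.pw c a k) k := by
  rw [A.pw, List.foldl_reverse]
  induction k using Nat.binaryRec' with
  | zero => simpa using h0
  | bit b n hn ih =>
    rw [Nat.bits_append_bit n b hn, List.foldr_cons, Nat.bit_val]
    cases b
    · exact h1 _ _ ih
    · exact h2 _ _ (h1 _ _ ih)
theorem Hom.pw (h : Hom c π) (a : E) (k : ℕ) : π (pw c a k) = π a ^ k :=   pw_ind (P := fun s k => π s = π a ^ k) (by rw [h.one, pow_zero])
    (fun s k e => by rw [h.mul, e]; ring) (fun s k e => by rw [h.mul, e]; ring) k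
theorem Hom.coeff (h : Hom c π) (l : List E) (j : ℕ) : (toP π l).coeff j = π (cf c l j) := coeff_toP' h.zero l j
theorem Hom.padd (h : Hom c π) (a b : List E) : toP π (padd c a b) = toP π a + toP π b := by
  ext j
  rw [A.padd, coeff_toP_range, coeff_add]
  split_ifs with hj
  · rw [h.add, h.coeff, h.coeff]
  · rw [sem_coeff_zero a (by omega), sem_coeff_zero b (by omega), add_zero]
theorem Hom.pneg (h : Hom c π) (a : List E) : toP π (pneg c a) = -toP π a := by
  induction a with
  | nil => simp [A.pneg, toP_nil]
  | cons x a ih =>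
    rw [A.pneg] at ih ⊢
    rw [List.map_cons, toP_cons, toP_cons, ih, h.neg, map_neg]; ring
theorem Hom.psmul (h : Hom c π) (s : E) (a : List E) :
    toP π (psmul c s a) = Polynomial.C (π s) * toP π a := by
  induction a with
  | nil => simp [A.psmul, toP_nil]
  | cons x a ih =>
    rw [A.psmul] at ih ⊢
    rw [List.map_cons, toP_cons, toP_cons, ih, h.mul, map_mul]; ring
theorem Hom.pmul (h : Hom c π) (a b : List E) : toP π (pmul c a b) = toP π a * toP π b := by
  ext k
  rw [A.pmul, coeff_toP_range, coeff_mul, Finset.Nat.sum_antidiagonal_eq_sum_range_succ_mk]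
  split_ifs with hk
  · rw [h.sumL_range]
    exact sum_congr rfl fun i _ => by rw [h.mul, h.coeff, h.coeff]
  · refine (sum_eq_zero fun i _ => ?_).symm
    by_cases hi : a.length ≤ i
    · rw [sem_coeff_zero a hi, zero_mul]
    · rw [sem_coeff_zero b (j := k - i) (by omega), mul_zero]
theorem length_fit (c : C) (d : ℕ) (a : List E) : (fit c d a).length = d := by simp [fit]
theorem Hom.coeff_fit (h : Hom c π) (d : ℕ) (a : List E) (j : ℕ) :
    (toP π (fit c d a)).coeff j = if j < d then (toP π a).coeff j else 0 := by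
  rw [A.fit, coeff_toP_range, h.coeff]
theorem Hom.fit (h : Hom c π) {d : ℕ} {a : List E} (hd : (toP π a).degree < d) :
    toP π (fit c d a) = toP π a := by
  ext j
  rw [h.coeff_fit]
  split_ifs with hj
  · rfl
  · exact (coeff_eq_zero_of_degree_lt (hd.trans_le (by exact_mod_cast not_lt.1 hj))).symm
theorem Hom.mon_fit (h : Hom c π) {d : ℕ} {a : List E} (hm : (toP π a).Monic)
    (hd : (toP π a).natDegree = d) : mon π (A.fit c d a) = toP π a := by
  ext j
  rw [mon, coeff_add, h.coeff_fit, length_fit, coeff_X_pow]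
  rcases lt_trichotomy j d with hj | rfl | hj
  · rw [if_neg hj.ne, if_pos hj, zero_add]
  · rw [if_pos rfl, if_neg (lt_irrefl _), add_zero, ← hd, hm.coeff_natDegree]
  · rw [if_neg hj.ne', if_neg (by omega), add_zero, coeff_eq_zero_of_natDegree_lt (hd ▸ hj)]
theorem Hom.mono (h : Hom c π) (u : List E) : toP π (mono c u) = mon π u := by
  rw [A.mono, toP_append, toP_single, h.one, mon]; simp [add_comm]
theorem Hom.xp (h : Hom c π) (k : ℕ) : toP π (xp c k) = X ^ k := by
  rw [A.xp, toP_append, toP_single, h.one, toP_replicate h.zero]; simp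
theorem dm_cons (c : C) (md a : List E) (x : E) : dm c md (x :: a) = dmStep c md (dm c md a) x := by
  simp [dm]
theorem length_prem (c : C) (md a : List E) : (prem c md a).length = md.length := by
  cases a with
  | nil => simp [prem, dm]
  | cons x a => rw [prem, dm_cons]; simp [dmStep]
theorem length_pquo (c : C) (md a : List E) : (pquo c md a).length = a.length := by
  induction a with
  | nil => simp [pquo, dm]
  | cons x a ih => rw [pquo, dm_cons, List.length_cons, ← ih]; simp [dmStep, pquo]
theorem Hom.dm (h : Hom c π) (md a : List E) :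
    toP π (prem c md a) + mon π md * toP π (pquo c md a) = toP π a := by
  induction a with
  | nil => simp [A.prem, A.pquo, A.dm, toP_replicate h.zero, toP_nil]
  | cons x a ih =>
    have e : toP π (A.prem c md (x :: a)) = toP π (x :: A.prem c md a) -
        Polynomial.C ((toP π (x :: A.prem c md a)).coeff md.length) * mon π md := by
      ext j
      rw [A.prem, dm_cons, dmStep, coeff_toP_range, coeff_sub, coeff_C_mul, mon, coeff_add,
        coeff_X_pow]
      rcases lt_trichotomy j md.length with hj | rfl | hj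
      · rw [if_pos hj, if_neg hj.ne, zero_add, h.sub, h.mul, h.coeff, h.coeff, h.coeff]; rfl
      · simp [sem_coeff_zero md le_rfl]
      · rw [if_neg (by omega), if_neg hj.ne', sem_coeff_zero md hj.le,
          sem_coeff_zero (j := j) _ (by rw [List.length_cons, length_prem]; omega)]
        simp
    have e' : toP π (A.pquo c md (x :: a)) =
        Polynomial.C ((toP π (x :: A.prem c md a)).coeff md.length) + X * toP π (A.pquo c md a) := by
      rw [A.pquo, dm_cons, dmStep, toP_cons, h.coeff]; rfl
    rw [e, e', toP_cons x a, ← ih, toP_cons]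
    ring
theorem Hom.dm' (h : Hom c π) (md a : List E) :
    toP π a /ₘ mon π md = toP π (pquo c md a) ∧ toP π a %ₘ mon π md = toP π (prem c md a) := by
  nontriviality R
  refine div_modByMonic_unique _ _ (mon_monic md) ⟨h.dm md a, ?_⟩
  rw [sem_degree_mon, ← length_prem c md a]
  exact degree_toP_lt _
theorem Hom.prem (h : Hom c π) (md a : List E) :
    toP π (prem c md a) = toP π a %ₘ mon π md := (h.dm' md a).2.symm
theorem Hom.pquo (h : Hom c π) (md a : List E) :
    toP π (pquo c md a) = toP π a /ₘ mon π md := (h.dm' md a).1.symm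
theorem Hom.pquo_mul (h : Hom c π) {md a : List E} {q : R[X]} (e : toP π a = mon π md * q) :
    toP π (A.pquo c md a) = q := by
  rw [h.pquo, e, mul_divByMonic_cancel_left _ (mon_monic md)]
theorem Hom.pev (h : Hom c π) (a : List E) (t : E) : π (pev c a t) = (toP π a).eval (π t) := by
  have e : mon π [Ops.neg c t] = X - Polynomial.C (π t) := by
    simp [mon, toP_single, h.neg, sub_eq_add_neg]
  rw [A.pev, ← h.coeff, h.prem, e, modByMonic_X_sub_C_eq_C_eval, coeff_C_zero]
theorem Hom.pder (h : Hom c π) (u : List E) : toP π (pder c u) = derivative (mon π u) := by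
  ext j
  rw [A.pder, coeff_toP_range, coeff_derivative, ← h.mono]
  split_ifs with hj
  · rw [h.mul, h.ofN, h.coeff, mul_comm]; simp
  · rw [sem_coeff_zero _ (by simp [A.mono]; omega), zero_mul]
theorem Hom.combP (h : Hom c π) (lam : List E) (ps : List (List E)) : toP π (combP c lam ps) =
    ∑ i ∈ range ps.length, Polynomial.C ((toP π lam).coeff i) * toP π (ps.getD i []) := by
  rw [A.combP, sem_foldl_add h.padd, toP_nil, zero_add, List.map_map, sum_list_map_range]
  exact sum_congr rfl fun i _ => by rw [Function.comp, h.psmul, h.coeff]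

theorem hom_nat (R : Type) [CommRing R] {p : ℕ} [CharP R p] (hp : 0 < p) :
    Hom p (Nat.cast : ℕ → R) := by
  have e : ∀ a, ((nm p a : ℕ) : R) = a := fun a => by
    rw [nm, max_eq_left hp, ← CharP.cast_eq_mod]
  refine ⟨fun a b => (e _).trans (Nat.cast_add _ _), fun a => (e _).trans ?_,
    fun a b => (e _).trans (Nat.cast_mul _ _), e⟩
  rw [Nat.cast_sub (by rw [nm, max_eq_left hp]; exact (Nat.mod_lt _ hp).le), e, CharP.cast_eq_zero,
    zero_sub]
theorem faith_nat (R : Type) [CommRing R] {p : ℕ} [CharP R p] (hp : 0 < p) :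
    Faith p (Nat.cast : ℕ → R) := fun a => by
  rw [CharP.cast_eq_zero_iff R p, Nat.dvd_iff_mod_eq_zero]
  change decide (nm p a = 0) = true ↔ _
  rw [decide_eq_true_iff, nm, max_eq_left hp]
theorem Hom.pol (h : Hom c π) : Hom (Pol.mk c) (toP π) :=   ⟨h.padd, h.pneg, h.pmul, fun n => (toP_single _).trans (by rw [Pol.c, Pol.mk, h.ofN, map_natCast])⟩
theorem Hom.evq_prem (h : Hom c π) {md : List E} {t : R} (ht : (mon π md).eval t = 0)
    (a : List E) : evq π t (A.prem c md a) = evq π t a := by
  rw [evq, evq, ← h.dm md a, eval_add, eval_mul, ht, zero_mul, add_zero]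
theorem Hom.quo (h : Hom c π) {md : List E} {t : R} (ht : (mon π md).eval t = 0) :
    Hom (Quo.mk c md) (evq π t) :=   ⟨fun a b => (h.evq_prem ht (A.padd c a b)).trans (by rw [evq, h.padd, eval_add]; rfl),
    fun a => (h.evq_prem ht (A.pneg c a)).trans (by rw [evq, h.pneg, eval_neg]; rfl),
    fun a b => (h.evq_prem ht (A.pmul c a b)).trans (by rw [evq, h.pmul, eval_mul]; rfl),
    fun n => (h.evq_prem ht _).trans ((evq_single _ _).trans (h.ofN n))⟩
/-- results of the operations of a quotient context, as polynomials -/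
theorem Hom.quo_mul (h : Hom c π) (md a b : List E) :
    toP π (Ops.mul (Quo.mk c md) a b) = (toP π a * toP π b) %ₘ mon π md :=   (h.prem md _).trans (by rw [← h.pmul]; rfl)
theorem sem_mod_mul {m : R[X]} (hm : m.Monic) (p q : R[X]) : (p %ₘ m * q) %ₘ m = (p * q) %ₘ m :=
  modByMonic_eq_of_dvd_sub hm ⟨-(p /ₘ m * q), by
    linear_combination q * modByMonic_add_div p m⟩
theorem sem_mod_mod {m : R[X]} (hm : m.Monic) (p : R[X]) : (p %ₘ m) %ₘ m = p %ₘ m := by
  simpa using sem_mod_mul hm p 1
theorem Hom.quo_sub (h : Hom c π) (md a b : List E) :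
    toP π (A.sub (Quo.mk c md) a b) = (toP π a - toP π b) %ₘ mon π md := by
  refine (h.prem md (A.padd c a (A.prem c md (A.pneg c b)))).trans ?_
  rw [h.padd, h.prem, h.pneg, add_modByMonic, sem_mod_mod (mon_monic md), ← add_modByMonic,
    sub_eq_add_neg]
theorem Hom.quo_neg (h : Hom c π) (md a : List E) :
    toP π (Ops.neg (Quo.mk c md) a) = (-toP π a) %ₘ mon π md :=   (h.prem md _).trans (by rw [← h.pneg]; rfl)
theorem Hom.quo_pw (h : Hom c π) (md a : List E) (k : ℕ) :
    toP π (A.pw (Quo.mk c md) a k) = (toP π a ^ k) %ₘ mon π md :=   pw_ind (c := Quo.mk c md) (a := a) (P := fun s k => toP π s = (toP π a ^ k) %ₘ mon π md)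
    ((h.prem md [Ops.ofN c 1]).trans (by rw [toP_single, h.ofN]; simp))
    (fun s k e => by
      rw [h.quo_mul, e, sem_mod_mul (mon_monic md), mul_comm, sem_mod_mul (mon_monic md), two_mul,
        pow_add])
    (fun s k e => by rw [h.quo_mul, e, sem_mod_mul (mon_monic md), pow_succ]) k
theorem length_quo_pw (c : C) (md a : List E) (k : ℕ) :
    (pw (Quo.mk c md) a k).length = md.length :=   pw_ind (c := Quo.mk c md) (a := a) (P := fun s _ => s.length = md.length) (length_prem c md _)
    (fun _ _ _ => length_prem c md _) (fun _ _ _ => length_prem c md _) k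
theorem Faith.quo (h : Hom c π) (hf : Faith c π) {md : List E} {t : R}
    (ht : (mon π md).eval t = 0) (hi : Ind π t md.length) : Faith (Quo.mk c md) (evq π t) := fun a => by
  change (prem c md a).all (Ops.isZ c) = true ↔ _
  simp only [List.all_eq_true, hf _]
  rw [← toP_eq_zero, ← h.evq_prem ht]
  exact ⟨fun e => by rw [evq, e, eval_zero], hi _ (length_prem c md a).le⟩
theorem Hom.cst (h : Hom c π) {md : List E} {t : R} (ht : (mon π md).eval t = 0)
    (hi : Ind π t md.length) (h0 : 0 < md.length) {a : List E} {b : E} (e : evq π t a = π b) :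
    π (cst (Quo.mk c md) a) = π b := by
  have e1 : toP π (A.padd c (A.prem c md a) [Ops.neg c b]) =
      toP π (A.prem c md a) - Polynomial.C (π b) := by
    rw [h.padd, toP_single, h.neg, map_neg, sub_eq_add_neg]
  have e2 := hi (A.padd c (A.prem c md a) [Ops.neg c b])
    (by simp [A.padd, length_prem]; omega) (by
      rw [evq, e1, eval_sub, eval_C, sub_eq_zero, ← e, ← h.evq_prem ht a, evq])
  rw [e1, sub_eq_zero] at e2
  change π (cf c (A.prem c md a) 0) = _
  rw [← h.coeff, e2, coeff_C_zero]

variable {F : Type} [Field F] {Q : ℕ} {ρ : E → F}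

theorem pt_nat (F : Type) [Field F] {p : ℕ} [Fact p.Prime] [CharP F p] {k : ℕ} (hk : 0 < k) :
    Pt p (p ^ k) (Nat.cast : ℕ → F) :=   ⟨hom_nat F (Fact.out : p.Prime).pos, fun a => map_natCast (iterateFrobenius F p k) a,
    (Fact.out : p.Prime).two_le.trans (Nat.le_self_pow hk.ne' p), iterateFrobenius F p k,
    fun _ => rfl⟩
theorem Pt.quo (h : Pt c Q ρ) {md : List E} {t : F} (ht : (mon ρ md).eval t = 0)
    (hq : t ^ Q = t) : Pt (Quo.mk c md) Q (evq ρ t) := by
  refine ⟨h.toHom.quo ht, fun a => ?_, h.two, h.frob⟩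
  obtain ⟨r, hr⟩ := h.frob
  rw [← hr]
  induction a with
  | nil => rw [evq_nil, map_zero]
  | cons x a ih => rw [evq_cons, map_add, map_mul, ih, hr, hr, hq, h.fix]
theorem Pt.eps (h : Pt c Q ρ) (a : E) [Decidable (ρ a = 0)] :
    ρ (eps c Q a) = if ρ a = 0 then 0 else 1 := by
  have h2 := h.two
  rw [A.eps, h.toHom.pw]
  split_ifs with ha
  · rw [ha, zero_pow (by omega)]
  · refine mul_left_cancel₀ ha ?_
    rw [← pow_succ', Nat.sub_add_cancel (by omega), h.fix, mul_one]
theorem Pt.ind (h : Pt c Q ρ) (a : E) [Decidable (ρ a = 0)] :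
    ρ (ind c Q a) = if ρ a = 0 then 1 else 0 := by
  rw [A.ind, h.toHom.sub, h.toHom.one, h.eps]
  split_ifs <;> simp
theorem Pt.pinv (h : Pt c Q ρ) {a : E} (ha : ρ a ≠ 0) : ρ (pinv c Q a) = (ρ a)⁻¹ := by
  have h2 := h.two
  rw [A.pinv, h.toHom.pw]
  refine eq_inv_of_mul_eq_one_left (mul_left_cancel₀ ha ?_)
  rw [← pow_succ, ← pow_succ', show Q - 2 + 1 + 1 = Q by omega, h.fix, mul_one]

theorem mem_spn {M V : Type} [AddCommGroup V] [Module F V] (g : M → V) (l : List M) (d : M)
    {v : V} : v ∈ spn F g l ↔
      ∃ μ : ℕ → F, v = ∑ i ∈ range l.length, μ i • g (l.getD i d) := by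
  constructor
  · intro hv
    induction hv using Submodule.span_induction with
    | mem x hx =>
      obtain ⟨a, ha, rfl⟩ := hx
      obtain ⟨i, hi, rfl⟩ := List.getElem_of_mem ha
      refine ⟨Pi.single i 1, ?_⟩
      rw [sum_eq_single_of_mem i (mem_range.2 hi) fun j _ hj => by simp [hj]]
      simp [hi]
    | zero => exact ⟨0, by simp⟩
    | add x y _ _ hx hy =>
      obtain ⟨μ, rfl⟩ := hx
      obtain ⟨ν, rfl⟩ := hy
      exact ⟨μ + ν, by simp [add_smul, sum_add_distrib]⟩
    | smul t x _ hx =>
      obtain ⟨μ, rfl⟩ := hx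
      exact ⟨t • μ, by simp [smul_sum, smul_smul]⟩
  · rintro ⟨μ, rfl⟩
    refine Submodule.sum_mem _ fun i hi => Submodule.smul_mem _ _ (Submodule.subset_span ⟨_, ?_, rfl⟩)
    rw [List.getD_eq_getElem _ _ (mem_range.1 hi)]
    exact List.getElem_mem _
theorem spn_mem {M V : Type} [AddCommGroup V] [Module F V] (g : M → V) {l : List M} {a : M}
    (h : a ∈ l) : g a ∈ spn F g l := Submodule.subset_span ⟨a, h, rfl⟩
theorem spn_le {M V : Type} [AddCommGroup V] [Module F V] {g : M → V} {l : List M}
    {W : Submodule F V} : spn F g l ≤ W ↔ ∀ a ∈ l, g a ∈ W := by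
  rw [spn, Submodule.span_le]
  exact ⟨fun h a ha => h ⟨a, ha, rfl⟩, fun h _ ⟨a, ha, e⟩ => e ▸ h a ha⟩
instance spn_fin {M V : Type} [AddCommGroup V] [Module F V] (g : M → V) (l : List M) :
    FiniteDimensional F (spn F g l) := FiniteDimensional.span_of_finite F ((List.finite_toSet l).image g)

end Vale.Agent.P319.A
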