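import Vale.Agent.P319.A.SemSys

/-! Operations on ideals. -/

namespace Vale.Agent.P319.A

open Polynomial Finset

variable {C E F : Type} [Ops C E] [Field F] [IsAlgClosed F] {x : Cx C E} {π : E → F} {V : Crv F}

open Crv

omit [IsAlgClosed F] in
theorem semI_map {M M' A A' : Type} [AddCommGroup A] [Module F A] [AddCommGroup A'] [Module F A']
    {g : M → A} {g' : M' → A'} (φ : A →ₗ[F] A') (f : M → M') {l : List M}
    (h : ∀ a ∈ l, g' (f a) = φ (g a)) : spn F g' (l.map f) = (spn F g l).map φ := by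
  refine le_antisymm (spn_le.2 fun a ha => ?_) (Submodule.map_le_iff_le_comap.2 (spn_le.2 ?_))
  · obtain ⟨b, hb, rfl⟩ := List.mem_map.1 ha
    exact ⟨g b, spn_mem g hb, (h b hb).symm⟩
  · intro a ha
    rw [Submodule.mem_comap, ← h a ha]
    exact spn_mem g' (List.mem_map_of_mem ha)

theorem semI_le_coeff {G : List (Oe E)} {W : Submodule F V.L} :
    spn F (toL V π) G ≤ W ↔ ∀ j, (toLL V π G).coeff j ∈ W := by
  rw [spn_le]
  refine ⟨fun h j => ?_, fun h a ha => ?_⟩
  · rw [coeff_toLL]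
    rcases lt_or_ge j G.length with hj | hj
    · rw [List.getD_eq_getElem _ _ hj]
      exact h _ (List.getElem_mem hj)
    · rw [List.getD_eq_default _ _ hj, toL_nil]
      exact W.zero_mem
  · obtain ⟨j, hj, rfl⟩ := List.getElem_of_mem ha
    have := h j
    rwa [coeff_toLL, List.getD_eq_getElem _ _ hj] at this

theorem semI_le_one (G : List (Oe E)) : spn F (toL V π) G ≤ V.und 1 :=
  spn_le.2 fun a _ => mem_und.2 (toL_mem a)

omit [IsAlgClosed F] in
theorem semI_und_le {I J : V.FI} : V.und I ≤ V.und J ↔ I ≤ J :=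
  ⟨fun h _ hz => mem_und.1 (h (mem_und.2 hz)), fun h _ hz => mem_und.2 (h (mem_und.1 hz))⟩

omit [IsAlgClosed F] in
theorem semI_add_le {I J K : V.FI} : I + J ≤ K ↔ I ≤ K ∧ J ≤ K := by
  rw [← FractionalIdeal.sup_eq_add, sup_le_iff]

omit [IsAlgClosed F] in
theorem semI_iff {I : Idl E} {J : V.FI} : Spn V π I J ↔
    V.und J = spn F (toL V π) I.2 ⊔ V.und (V.sp (V.pl (mon π I.1))) := by
  rw [Submodule.ext_iff]
  refine forall_congr' fun z => iff_congr mem_und.symm ?_
  rw [Submodule.mem_sup]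
  refine ⟨fun ⟨g, hg, hz⟩ => ⟨g, hg, z - g, mem_und.2 hz, add_sub_cancel g z⟩, ?_⟩
  rintro ⟨g, hg, s, hs, rfl⟩
  exact ⟨g, hg, by rw [add_sub_cancel_left]; exact mem_und.1 hs⟩

omit [IsAlgClosed F] in
theorem Spn.spn_le {I : Idl E} {J : V.FI} (h : Spn V π I J) : spn F (toL V π) I.2 ≤ V.und J :=
  semI_iff.1 h ▸ le_sup_left

omit [IsAlgClosed F] in
theorem Spn.sp_le {I : Idl E} {J : V.FI} (h : Spn V π I J) : V.sp (V.pl (mon π I.1)) ≤ J :=
  semI_und_le.1 (semI_iff.1 h ▸ le_sup_right)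

theorem Spn.eq {I : Idl E} {J : V.FI} (h : Spn V π I J) :
    J = V.sp (V.pl (mon π I.1)) + V.gn (toLL V π I.2) := by
  refine le_antisymm (semI_und_le.1 ?_) (semI_add_le.2 ⟨h.sp_le, gn_le.2 fun j =>
    mem_und.1 (semI_le_coeff.1 h.spn_le j)⟩)
  have hl := (semI_add_le (I := V.sp (V.pl (mon π I.1))) (J := V.gn (toLL V π I.2))).1 le_rfl
  rw [semI_iff.1 h]
  exact sup_le (semI_le_coeff.2 fun j => mem_und.2 (hl.2 (coeff_mem_gn _ j))) (semI_und_le.2 hl.1)

theorem Spn.le {I : Idl E} {J : V.FI} (h : Spn V π I J) : J ≤ 1 := by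
  rw [← semI_und_le, semI_iff.1 h]
  exact sup_le (semI_le_one _) (semI_und_le.2 (Crv.sp_le.2 (pl_mem_one _)))
omit [IsAlgClosed F] in
theorem Spn.mem {I : Idl E} {J : V.FI} (h : Spn V π I J) : V.pl (mon π I.1) ∈ J := by
  exact Crv.sp_le.1 h.sp_le
theorem Spn.fr {I : Idl E} {J : V.FI} (h : Spn V π I J) {r : F ≃+* F} (hr : V.f.map r = V.f)
    (hπ : ∀ a, r (π a) = π a) : V.act (V.fr r) J = J := by
  have e1 : (mon π I.1).map (r : F →+* F) = mon π I.1 := by
    rw [map_mon]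
    exact congrArg (fun p => mon p I.1) (funext hπ)
  have e2 : (toLL V π I.2).map ((V.fr r).1 : V.L →+* V.L) = toLL V π I.2 := by
    rw [toLL, map_toP]
    exact congrArg (fun p => toP p I.2) (funext (toL_fr hr hπ))
  rw [h.eq, map_add, act_sp, act_gn, fr_pl hr, e1, e2]
theorem Spn.congr {E' : Type} {π' : E' → F} {I : Idl E} {I' : Idl E'} {J : V.FI}
    (h : Spn V π I J) (e1 : mon π' I'.1 = mon π I.1) (e2 : toLL V π' I'.2 = toLL V π I.2) :
    Spn V π' I' J := by
  have e3 : spn F (toL V π') I'.2 = spn F (toL V π) I.2 :=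
    le_antisymm (semI_le_coeff.2 (e2 ▸ semI_le_coeff.1 le_rfl))
      (semI_le_coeff.2 (e2 ▸ semI_le_coeff.1 le_rfl))
  rw [semI_iff, e1, e3]
  exact semI_iff.1 h
theorem gen_spec (h : Ok x π V) {I : Idl E} {J : V.FI} (hI : Spn V π I J) :
    V.gn (toLL V π (gen x I)) = J := by
  have e : toLL V π (gen x I) = Polynomial.C (V.pl (mon π I.1)) + X * toLL V π I.2 := by
    rw [gen, toLL, toP_cons, toL_single, h.hom.mono]
  rw [e, hI.eq]
  refine eq_of_forall_ge_iff fun K => ?_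
  rw [semI_add_le, gn_le, gn_le, Crv.sp_le]
  refine ⟨fun H => ⟨by simpa using H 0, fun j => by simpa [coeff_C_succ] using H (j + 1)⟩, ?_⟩
  rintro ⟨H0, H⟩ (_ | j)
  · simpa using H0
  · simpa [coeff_C_succ] using H j
theorem semI_mul (h : Ok x π V) (g : Oe E) (l : List (Oe E)) :
    spn F (toL V π) (l.map (Ops.mul x.o g)) =
      (spn F (toL V π) l).map (LinearMap.mulLeft F (toL V π g)) :=
  semI_map _ _ fun a _ => h.o.mul g a

omit [IsAlgClosed F] in
theorem semI_append {M A : Type} [AddCommGroup A] [Module F A] (g : M → A) (a b : List M) :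
    spn F g (a ++ b) = spn F g a ⊔ spn F g b := by
  refine eq_of_forall_ge_iff fun W => ?_
  simp only [sup_le_iff, spn_le, List.mem_append, or_imp, forall_and]

omit [IsAlgClosed F] in
theorem semI_deg {U o p q : F[X]} {L : ℕ} (hU : U.Monic) (e : U * o = p - q) (hp : p.degree < L)
    (hq : q.degree < U.natDegree) : o.degree < L := by
  rcases eq_or_ne o 0 with rfl | h0
  · exact WithBot.bot_lt_coe _
  have h1 : (U * o).degree < (max L U.natDegree : ℕ) := by
    rw [e]
    refine (degree_sub_le _ _).trans_lt (max_lt (hp.trans_le ?_) (hq.trans_le ?_)) <;>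
      exact_mod_cast (by omega)
  rw [← natDegree_lt_iff_degree_lt (mul_ne_zero hU.ne_zero h0), natDegree_mul hU.ne_zero h0] at h1
  rw [← natDegree_lt_iff_degree_lt h0]
  omega

theorem mem_spec (h : Ok x π V) {I : Idl E} {J : V.FI} (hI : Spn V π I J) (L : ℕ) :
    spn F (toL V π) (mem x I L) ≤ V.und J ∧
      ∀ z ∈ J, z ∈ V.Le ((L : ℤ) - 1) → z ∈ spn F (toL V π) (mem x I L) := by
  have e0 : toL V π [mono x.c I.1] = V.pl (mon π I.1) := by rw [toL_single, h.hom.mono]
  rw [mem, semI_append, semI_mul h, e0]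
  have h1 : spn F (toL V π) (I.2.map (redO x I.1)) ≤ V.und J := spn_le.2 fun a ha => by
    obtain ⟨g, hg, rfl⟩ := List.mem_map.1 ha
    have := (V.und J).add_mem (mem_und.2 (hI.sp_le (h.redO I.1 g).1)) (hI.spn_le (spn_mem _ hg))
    rwa [sub_add_cancel] at this
  refine ⟨sup_le h1 ?_, fun z hz hL => ?_⟩
  · rintro _ ⟨o, ho, rfl⟩
    rw [LinearMap.mulLeft_apply, mul_comm]
    exact mem_und.2 (Crv.mul_mem (mem_und.1 (semI_le_one _ ho)) hI.mem)
  have h2 : V.und J ≤ spn F (toL V π) (I.2.map (redO x I.1)) ⊔ V.und (V.sp (V.pl (mon π I.1))) := by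
    rw [semI_iff.1 hI]
    refine sup_le (spn_le.2 fun g hg => ?_) le_sup_right
    have := Submodule.sub_mem _ (Submodule.mem_sup_left (spn_mem (F := F) (toL V π)
      (List.mem_map_of_mem (f := redO x I.1) hg)))
      (Submodule.mem_sup_right (mem_und.2 (h.redO I.1 g).1))
    rwa [sub_sub_cancel] at this
  have h3 : spn F (toL V π) (I.2.map (redO x I.1)) ≤ spn F (toL V π) (mons x I.1.length) :=
    spn_le.2 fun a ha => by
      obtain ⟨g, -, rfl⟩ := List.mem_map.1 ha
      obtain ⟨-, r1, r2⟩ := h.redO I.1 g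
      refine (h.mons _ _).2 fun b hb => ⟨_, ?_, co_toL r1.le b⟩
      rw [List.getD_eq_getElem _ _ (r1 ▸ hb), ← r2 _ (List.getElem_mem (r1 ▸ hb))]
      exact degree_toP_lt _
  obtain ⟨g, hg, s, hs, rfl⟩ := Submodule.mem_sup.1 (h2 (mem_und.2 hz))
  obtain ⟨o, ho, rfl⟩ := mem_sp.1 (mem_und.1 hs)
  refine Submodule.add_mem_sup hg ⟨o, (h.mons _ _).2 fun b hb => ?_, rfl⟩
  obtain ⟨ob, e1⟩ := mem_one_iff.1 ho b hb
  obtain ⟨p, e2⟩ := mem_one_iff.1 (hI.le hz) b hb
  obtain ⟨q, hq, e3⟩ := (h.mons _ _).1 (h3 hg) b hb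
  refine ⟨ob, semI_deg (p := p) (q := q) (mon_monic (π := π) I.1) ?_ ?_ (by rwa [natDegree_mon]), e1⟩
  · apply IsFractionRing.injective F[X] (RatFunc F)
    rw [map_add, ← kl_alg, co_kl, e1, e3] at e2
    rw [map_mul, map_sub, ← e2, add_sub_cancel_left]
  · rcases eq_or_ne p 0 with rfl | h0
    · exact WithBot.bot_lt_coe _
    rcases mem_Le.1 hL b hb with h4 | h4
    · rw [e2] at h4
      exact absurd (IsFractionRing.injective F[X] (RatFunc F) (h4.trans (map_zero _).symm)) h0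
    · rw [e2, RatFunc.intDegree_polynomial] at h4
      rw [← natDegree_lt_iff_degree_lt h0]
      have : (0 : ℤ) ≤ V.m * b := by positivity
      omega
theorem mkI_spec (h : Ok x π V) (u : List E) (gs : List (Oe E)) :
    Spn V π (mkI x u gs) (V.sp (V.pl (mon π u)) + V.gn (toLL V π gs)) := by
  rw [semI_iff]
  have hl := (semI_add_le (I := V.sp (V.pl (mon π u))) (J := V.gn (toLL V π gs))).1 le_rfl
  refine le_antisymm (fun z hz => ?_) (sup_le (spn_le.2 fun a ha => ?_) (semI_und_le.2 hl.1))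
  · obtain ⟨s, hs, t, ht, rfl⟩ := (FractionalIdeal.mem_add _ _ _).1 (mem_und.1 hz)
    refine Submodule.add_mem _ (Submodule.mem_sup_right (mem_und.2 hs)) ?_
    obtain ⟨o, ho, rfl⟩ := (mem_gn (degree_toP_lt gs)).1 ht
    refine Submodule.sum_mem _ fun j hj => ?_
    have hj' := Finset.mem_range.1 hj
    obtain ⟨m, hm, hs⟩ := h.mons_red u (ho j)
    have e : o j * (toP (toL V π) gs).coeff j = toL V π gs[j] * m + toL V π gs[j] * (o j - m) := by
      rw [coeff_toP' toL_nil, List.getD_eq_getElem _ _ hj']; ring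
    rw [e]
    refine Submodule.add_mem_sup ?_ (mem_und.2 (Crv.mul_mem (toL_mem _) hs))
    have h1 : spn F (toL V π) ((mons x u.length).map (Ops.mul x.o gs[j])) ≤
        spn F (toL V π) (mkI x u gs).2 := spn_le.2 fun a ha =>
      spn_mem _ (List.mem_flatMap.2 ⟨_, List.getElem_mem hj', ha⟩)
    exact h1 (semI_mul h _ _ ▸ ⟨m, hm, rfl⟩)
  · obtain ⟨g, hg, ha⟩ := List.mem_flatMap.1 ha
    obtain ⟨b, -, rfl⟩ := List.mem_map.1 ha
    rw [h.o.mul, mul_comm]
    refine mem_und.2 (Crv.mul_mem (toL_mem _) (hl.2 (mem_und.1 ?_)))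
    exact (semI_le_coeff.2 fun j => mem_und.2 (coeff_mem_gn _ j)) (spn_mem _ hg)
theorem prodI_spec (h : Ok x π V) {Is : List (Idl E)} {Js : List V.FI}
    (hI : List.Forall₂ (Rep V π) Is Js) : Rep V π (prodI x Is) Js.prod ∧
      mon π (prodI x Is).1 = (Is.map fun I => mon π I.1).prod := by
  have h1 : V.Nice Js.prod (Is.map fun I => mon π I.1).prod ∧
      (Is.map fun I => mon π I.1).prod.natDegree = (Is.map fun I => I.1.length).sum ∧
      (Is.map fun I => V.gn (toLL V π (gen x I))).prod = Js.prod := by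
    induction hI with
    | nil => exact ⟨nice_one, natDegree_one, rfl⟩
    | cons hr _ ih =>
      simp only [List.map_cons, List.prod_cons, List.sum_cons]
      exact ⟨hr.nice.mul ih.1, by rw [(mon_monic _).natDegree_mul ih.1.mon, natDegree_mon, ih.2.1],
        by rw [gen_spec h hr.spn, ih.2.2]⟩
  have h2 : toP π (prodL x.p (Is.map fun I => mono x.c I.1)) = (Is.map fun I => mon π I.1).prod := by
    rw [h.p.prodL, List.map_map]
    exact congrArg List.prod (List.map_congr_left fun I _ => h.hom.mono _)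
  have h3 : mon π (prodI x Is).1 = (Is.map fun I => mon π I.1).prod :=
    (h.hom.mon_fit (h2 ▸ h1.1.mon) (h2 ▸ h1.2.1)).trans h2
  have h4 := mkI_spec h (prodI x Is).1 (prodL x.oo (Is.map (gen x)))
  rw [h.oo.prodL, gn_prod, List.map_map, List.map_map] at h4
  have h5 : V.sp (V.pl (mon π (prodI x Is).1)) + Js.prod = Js.prod := by
    rw [← FractionalIdeal.sup_eq_add, sup_eq_right, h3]
    exact Crv.sp_le.2 h1.1.mem
  refine ⟨⟨?_, h3 ▸ h1.1⟩, h3⟩
  rw [← h5, ← h1.2.2]
  exact h4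
theorem length_prodI (x : Cx C E) (Is : List (Idl E)) :
    (prodI x Is).1.length = (Is.map fun I => I.1.length).sum := by
  exact length_fit _ _ _
/-- product of `I` with `k` copies of `I'` -/
theorem prodI_rep (h : Ok x π V) {I I' : Idl E} {J J' : V.FI} (hI : Rep V π I J)
    (hI' : Rep V π I' J') (k : ℕ) : Rep V π (prodI x (I :: List.replicate k I')) (J * J' ^ k) ∧
      (prodI x (I :: List.replicate k I')).1.length = I.1.length + k * I'.1.length := by
  have h1 : List.Forall₂ (Rep V π) (List.replicate k I') (List.replicate k J') := by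
    induction k with
    | zero => exact .nil
    | succ k ih => exact .cons hI' ih
  have h2 := (prodI_spec h (.cons hI h1)).1
  rw [List.prod_cons, List.prod_replicate] at h2
  exact ⟨h2, by simp [length_prodI]⟩
theorem sgI_spn (h : Ok x π V) {z : E} (hz : π z ^ V.l = 1) {I : Idl E} {J : V.FI}
    (hI : Spn V π I J) : Spn V π (sgI x z I) (V.act (V.sg (π z)) J) := by
  let φ : V.L →ₗ[F] V.L :=
    { toFun := (V.sg (π z)).1, map_add' := map_add _, map_smul' := sg_smul _ }
  have e : spn F (toL V π) (sgI x z I).2 = (spn F (toL V π) I.2).map φ :=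
    semI_map φ _ fun a _ => h.sgO hz a
  have e2 : ∀ w, (V.sg (π z)).1 w ∈ V.sp (V.pl (mon π I.1)) ↔ w ∈ V.sp (V.pl (mon π I.1)) :=
    fun w => by rw [← mem_act (V.sg (π z)) _ w, act_sp, sg_pl]
  intro w
  obtain ⟨w, rfl⟩ := (V.sg (π z)).1.surjective w
  rw [mem_act, hI w, e]
  refine ⟨fun ⟨g, hg, hw⟩ => ⟨_, ⟨g, hg, rfl⟩, ?_⟩, ?_⟩
  · exact map_sub (V.sg (π z)).1 w g ▸ (e2 _).2 hw
  · rintro ⟨_, ⟨g, hg, rfl⟩, hw⟩
    exact ⟨g, hg, (e2 _).1 (by rw [map_sub]; exact hw)⟩
theorem sgI_spec (h : Ok x π V) {z : E} (hz : π z ^ V.l = 1) {I : Idl E} {J : V.FI}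
    (hI : Rep V π I J) : Rep V π (sgI x z I) (V.act (V.sg (π z)) J) := by
  exact ⟨sgI_spn h hz hI.spn, hI.nice.sg _⟩
theorem Ip_spec (h : Ok x π V) {z : E} (hz : π z ^ V.l = 1) {I : Idl E} {J : V.FI}
    (hI : Rep V π I J) (t : ℕ) : Rep V π (Ip x z I t) (V.Ip (π z) J t) := by
  have h1 : List.Forall₂ (Rep V π) ((List.range (x.l - t)).map fun b => sgI x (pw x.c z (t + b)) I)
      ((List.range (x.l - t)).map fun b => V.act (V.sg (π z ^ (t + b))) J) := by
    rw [List.forall₂_map_left_iff, List.forall₂_map_right_iff, List.forall₂_same]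
    intro b _
    rw [← h.hom.pw]
    exact sgI_spec h (by rw [h.hom.pw]; exact int_pow_rt hz _) hI
  have h2 : ∀ (n : ℕ) (g : ℕ → V.FI), ((List.range n).map g).prod = ∏ b ∈ range n, g b :=
    fun n g => by
      induction n with
      | zero => rfl
      | succ n ih => rw [List.prod_range_succ, Finset.prod_range_succ, ih]
  have h3 := (prodI_spec h h1).1
  rw [h2, h.hl] at h3
  rw [Ip, h.hl]
  exact h3
theorem colon_spec (h : Ok x π V) (D : List E) (rs : List (Oe E)) {K : V.FI}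
    (hK : ∀ c, c ∈ K ↔ c ∈ (1 : V.FI) ∧ ∀ r ∈ rs, c * toL V π r ∈ V.sp (V.pl (mon π D)))
    {u : List E} (hu : V.pl (mon π u) ∈ K) : Spn V π (u, colon x u.length D rs) K ∧
      ∀ U : F[X], U ≠ 0 → V.nrmI K = V.sp (V.pl U) →
        π (colonRk x u.length D rs) = U.natDegree := by
  let c₀ : V.L[X] →ₗ[F] V.L := (lcoeff V.L 0).restrictScalars F
  let ι : V.L →ₗ[F] V.L[X] := (monomial (R := V.L) 0).restrictScalars F
  have hι : ∀ b, c₀ (ι b) = b := fun b => by simp [c₀, ι]
  have hinj : Function.Injective ι := Function.LeftInverse.injective hι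
  let Λ : ℕ → V.L[X] →ₗ[F] V.L := fun k => LinearMap.mulRight F (toL V π (rs.getD k [])) ∘ₗ c₀
  have e0 : ∀ b : Oe E, toLL V π [b] = ι (toL V π b) := fun b => toP_single b
  have hΛ : Lin V π (List.replicate rs.length 0) (colS x u.length rs) Λ := fun s hs k hk => by
    obtain ⟨b, -, rfl⟩ := List.mem_map.1 hs
    rw [List.length_replicate] at hk
    rw [List.getD_eq_getElem _ _ (by simpa using hk), List.getElem_map, h.o.mul, e0]
    simp only [Λ, LinearMap.comp_apply, hι, LinearMap.mulRight_apply, List.getD_eq_getElem _ _ hk]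
  set W := spn F (toL V π) (mons x u.length) with hW
  have e1 : spn F (toLL V π) ((colS x u.length rs).map Prod.fst) = W.map ι := by
    rw [colS, List.map_map]
    exact semI_map ι _ fun b _ => e0 b
  have e2 : ∀ b, (∀ k < (List.replicate rs.length 0).length,
      Λ k (ι b) ∈ Wt V π D ((List.replicate rs.length 0).getD k 0)) ↔
      ∀ r ∈ rs, b * toL V π r ∈ V.sp (V.pl (mon π D)) := fun b => by
    have e3 : ∀ k, (List.replicate rs.length 0).getD k 0 = 0 := fun k => by
      simp [List.getD_eq_getElem?_getD, List.getElem?_replicate]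
      split_ifs <;> rfl
    simp only [e3, Wt, if_true, mem_und, List.length_replicate, Λ, LinearMap.comp_apply, hι,
      LinearMap.mulRight_apply]
    refine ⟨fun H r hr => ?_, fun H k hk => ?_⟩
    · obtain ⟨k, hk, rfl⟩ := List.getElem_of_mem hr
      exact List.getD_eq_getElem rs [] hk ▸ H k hk
    · rw [List.getD_eq_getElem _ _ hk]
      exact H _ (List.getElem_mem hk)
  have e4 : spn F (toLL V π) (kerO x (List.replicate rs.length 0) D (colS x u.length rs)) =
      (W ⊓ V.und K).map ι := by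
    ext P
    rw [kerO_spec h D hΛ, e1]
    constructor
    · rintro ⟨⟨b, hb, rfl⟩, H⟩
      exact ⟨b, ⟨hb, mem_und.2 ((hK b).2 ⟨mem_und.1 (semI_le_one _ hb), (e2 b).1 H⟩)⟩, rfl⟩
    · rintro ⟨b, ⟨hb, H⟩, rfl⟩
      exact ⟨⟨b, hb, rfl⟩, (e2 b).2 ((hK b).1 (mem_und.1 H)).2⟩
  have e5 : spn F (toL V π) (colon x u.length D rs) = W ⊓ V.und K := by
    rw [colon, semI_map (g := toLL V π) c₀ _ fun g _ => (coeff_toLL g 0).symm, e4,
      ← Submodule.map_comp, show c₀ ∘ₗ ι = LinearMap.id from LinearMap.ext hι, Submodule.map_id]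
  have hK1 : K ≤ 1 := fun c hc => ((hK c).1 hc).1
  have hu' : V.und (V.sp (V.pl (mon π u))) ≤ V.und K := semI_und_le.2 (Crv.sp_le.2 hu)
  have e6 : ∀ z ∈ V.und 1, ∃ g ∈ W, z - g ∈ V.und (V.sp (V.pl (mon π u))) := fun z hz => by
    simpa only [mem_und] using h.mons_red u (mem_und.1 hz)
  refine ⟨semI_iff.2 ?_, fun U hU hn => ?_⟩
  · change _ = spn F (toL V π) (colon x u.length D rs) ⊔ _
    rw [e5]
    refine le_antisymm (fun z hz => ?_) (sup_le inf_le_right hu')
    obtain ⟨g, hg, hs⟩ := e6 z (semI_und_le.2 hK1 hz)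
    have h1 := (V.und K).sub_mem hz (hu' hs)
    rw [sub_sub_cancel] at h1
    exact add_sub_cancel g z ▸ Submodule.add_mem_sup ⟨hg, h1⟩ hs
  · obtain ⟨r, hr, e⟩ := rkO_spec h D hΛ
    have h1 := cod_eq hK1 hU hn W (semI_le_one _) fun z hz => by
      obtain ⟨g, hg, hs⟩ := e6 z hz
      exact add_sub_cancel g z ▸ Submodule.add_mem_sup hg (hu' hs)
    rw [e4, e1, ← (Submodule.equivMapOfInjective ι hinj _).finrank_eq,
      ← (Submodule.equivMapOfInjective ι hinj _).finrank_eq, h1] at e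
    rw [colonRk, hr, Nat.add_right_cancel e]

end Vale.Agent.P319.A
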