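import Vale.Agent.P319.A.Sem
import Vale.Agent.P319.A.Cls

/-! Meaning of codes: elements of `O` and ideals. -/

namespace Vale.Agent.P319.A

open Polynomial Finset

section defs
variable {C E F : Type} [Ops C E] [Field F]

noncomputable def toL (V : Crv F) (π : E → F) : Oe E → V.L := evq (fun a => V.pl (toP π a)) V.y
noncomputable def toLL (V : Crv F) (π : E → F) : List (Oe E) → V.L[X] := toP (toL V π)
structure Ok (x : Cx C E) (π : E → F) (V : Crv F) : Prop where
  pt : Pt x.c x.Q π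
  hl : x.l = V.l
  hf : mon π x.f = V.f
/-- `J` is spanned by `I.2` modulo the monic polynomial `I.1` -/
def Spn (V : Crv F) (π : E → F) (I : Idl E) (J : V.FI) : Prop :=
  ∀ z, z ∈ J ↔ ∃ g ∈ spn F (toL V π) I.2, z - g ∈ V.sp (V.pl (mon π I.1))
structure Rep (V : Crv F) (π : E → F) (I : Idl E) (J : V.FI) : Prop where
  spn : Spn V π I J
  nice : V.Nice J (mon π I.1)
open Classical in
/-- meaning of a threshold -/
noncomputable def Wt (V : Crv F) (π : E → F) (D : List E) (t : ℕ) : Submodule F V.L :=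
  if t = 0 then V.und (V.sp (V.pl (mon π D))) else V.V t
/-- hypotheses of the main loops -/
structure Good (x : Cx C E) (π : E → F) (V : Crv F) (z w b : E) (v : ℕ) (r : F ≃+* F) : Prop
    extends Ok x π V where
  prim : IsPrimitiveRoot (π z) V.l
  w0 : π w ≠ 0
  w1 : π w ^ ((x.Q - 1) / V.l) ≠ 1
  dv : V.l ∣ x.Q - 1
  chr : ∀ k : ℕ, 0 < k → k ≤ bnd x.n → (k : F) ≠ 0
  fr : ∀ a, (r ^ V.l ^ v) a = a ^ x.Q
  ff : V.f.map r = V.f
  fz : r (π z) = π z
  fb : r (π b) = π b
  fa : ∀ a, V.f.IsRoot a → r a = a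
  b0 : V.f.eval (π b) ≠ 0
  b1 : ((V.l * V.m : ℕ) : F) * π b + V.f.coeff (V.l * V.m - 1) ≠ 0
end defs

variable {C E F : Type} [Ops C E] [Field F] [IsAlgClosed F] {x : Cx C E} {π : E → F} {V : Crv F}

theorem Ok.hom (h : Ok x π V) : Hom x.c π := h.pt.toHom
theorem Ok.n (h : Ok x π V) : x.n = V.l * V.m := by
  rw [← V.deg, ← h.hf, natDegree_mon]
  rfl
theorem Ok.m (h : Ok x π V) : x.m = V.m := by
  rw [Cx.m, h.n, h.hl, Nat.mul_div_cancel_left _ V.hl.pos]
theorem Ok.lc (h : Ok x π V) : π (pinv x.c x.Q (Ops.ofN x.c x.l)) = (V.l : F)⁻¹ := by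
  have e : π (Ops.ofN x.c x.l) = V.l := by rw [h.hom.ofN, h.hl]
  rw [h.pt.pinv (e ▸ V.hc), e]
theorem Ok.p (h : Ok x π V) : Hom x.p (toP π) := h.hom.pol
theorem semO_nil : V.pl (toP π []) = 0 := map_zero _
theorem semO_len (h : Ok x π V) : x.o.md.length = V.l := by
  have := V.hl.pos
  change (List.replicate (x.l - 1) ([] : List E)).length + 1 = _
  rw [List.length_replicate, h.hl]
  omega
theorem semO_root (h : Ok x π V) : (mon (fun a => V.pl (toP π a)) x.o.md).eval V.y = 0 := by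
  rw [mon, semO_len h]
  change eval _ (_ + toP _ (_ :: _)) = 0
  rw [toP_cons, toP_replicate (π := fun a => V.pl (toP π a)) semO_nil, h.hom.pneg, h.hom.mono, h.hf]
  simp [Crv.y_pow]
theorem Ok.o (h : Ok x π V) : Hom x.o (toL V π) := (h.p.comp V.pl).quo (semO_root h)
theorem Ok.oo (h : Ok x π V) : Hom x.oo (toLL V π) := h.o.pol
theorem toL_nil : toL V π [] = 0 := evq_nil _
theorem toL_single (a : List E) : toL V π [a] = V.pl (toP π a) := evq_single _ _
theorem semO_cons (a : List E) (g : Oe E) :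
    toL V π (a :: g) = V.pl (toP π a) + V.y * toL V π g := evq_cons _ _ _
theorem toL_py (b : ℕ) (a : List E) : toL V π (py b a) = V.pl (toP π a) * V.y ^ b := by
  rw [toL, evq, py, toP_append, toP_replicate (π := fun a => V.pl (toP π a)) semO_nil, toP_single]
  rw [zero_add, eval_mul, eval_pow, eval_X, eval_C, List.length_replicate, mul_comm]
theorem toL_range (g : ℕ → List E) (k : ℕ) :
    toL V π ((List.range k).map g) = ∑ b ∈ range k, V.pl (toP π (g b)) * V.y ^ b := by
  rw [toL, evq, toP_range]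
  simp [eval_finsetSum]
theorem semO_sum (g : Oe E) :
    toL V π g = ∑ b ∈ range g.length, V.pl (toP π (g.getD b [])) * V.y ^ b := by
  rw [toL, evq, toP_eq_sum (d := [])]
  simp [eval_finsetSum]
theorem toL_mem (g : Oe E) : toL V π g ∈ (1 : V.FI) := by
  induction g with
  | nil => rw [toL_nil]; exact FractionalIdeal.zero_mem _
  | cons a g ih =>
    rw [semO_cons]
    exact Crv.add_mem (Crv.pl_mem_one _) (Crv.mul_mem Crv.y_mem_one ih)
theorem coeff_toLL (G : List (Oe E)) (j : ℕ) : (toLL V π G).coeff j = toL V π (G.getD j []) :=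
  coeff_toP' toL_nil G j
theorem semO_co {k : ℕ} (hk : k ≤ V.l) (g : ℕ → F[X]) (b : ℕ) :
    V.co b (∑ j ∈ range k, V.pl (g j) * V.y ^ j) =
      if b < k then algebraMap F[X] (RatFunc F) (g b) else 0 := by
  rw [map_sum, sum_congr rfl fun j hj => by
    rw [← Crv.kl_alg, Crv.co_mono ((mem_range.1 hj).trans_le hk)], sum_ite_eq]
  simp only [mem_range]
theorem co_toL {g : Oe E} (hg : g.length ≤ V.l) (b : ℕ) :
    V.co b (toL V π g) = algebraMap F[X] (RatFunc F) (toP π (g.getD b [])) := by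
  rw [semO_sum, semO_co hg]
  split_ifs with hb
  · rfl
  · rw [List.getD_eq_default _ _ (not_lt.1 hb), toP_nil, map_zero]
theorem toL_fr {r : F ≃+* F} (hr : V.f.map r = V.f) (hπ : ∀ a, r (π a) = π a) (g : Oe E) :
    (V.fr r).1 (toL V π g) = toL V π g := by
  induction g with
  | nil => rw [toL_nil, map_zero]
  | cons a g ih =>
    rw [semO_cons, map_add, map_mul, ih, Crv.fr_y, Crv.fr_pl hr, map_toP]
    simp only [RingHom.coe_coe, hπ]
theorem Ok.smO (h : Ok x π V) (s : E) (g : Oe E) : toL V π (smO x s g) = π s • toL V π g := by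
  unfold A.smO
  induction g with
  | nil => rw [List.map_nil, toL_nil, smul_zero]
  | cons a g ih =>
    rw [List.map_cons, semO_cons, semO_cons, ih, h.hom.psmul, map_mul, Crv.pl_C, smul_add,
      mul_smul_comm]
theorem Ok.nrmz (h : Ok x π V) (g : Oe E) :
    toL V π (nrmz x g) = toL V π g ∧ (nrmz x g).length = V.l := by
  refine ⟨?_, (length_prem _ _ _).trans (semO_len h)⟩
  have e := congrArg (eval V.y) ((h.p.comp V.pl).dm x.o.md g)
  rwa [eval_add, eval_mul, semO_root h, zero_mul, add_zero] at e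
theorem Ok.c0 (h : Ok x π V) (g : Oe E) :
    V.co 0 (toL V π g) = algebraMap F[X] (RatFunc F) (toP π (c0 x g)) := by
  obtain ⟨h1, h2⟩ := h.nrmz g
  have h3 : 0 < (A.nrmz x g).length := h2 ▸ V.hl.pos
  rw [← h1, co_toL h2.le]
  change _ = algebraMap F[X] (RatFunc F) (toP π ((A.nrmz x g).getD 0 _))
  rw [List.getD_eq_getElem _ _ h3, List.getD_eq_getElem _ _ h3]
theorem Ok.c0_pl (h : Ok x π V) {g : Oe E} {P : F[X]} (e : toL V π g = V.pl P) :
    toP π (A.c0 x g) = P := by
  apply IsFractionRing.injective F[X] (RatFunc F)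
  rw [← h.c0, e, ← Crv.kl_alg, Crv.int_co_kl, if_pos rfl]
theorem semO_red (h : Ok x π V) (D : List E) (g : Oe E) :
    toL V π (g.map (prem x.c D)) - toL V π g ∈ V.sp (V.pl (mon π D)) := by
  induction g with
  | nil => rw [List.map_nil, sub_self]; exact FractionalIdeal.zero_mem _
  | cons a g ih =>
    rw [List.map_cons, semO_cons, semO_cons, add_sub_add_comm, ← mul_sub, ← map_sub]
    refine Crv.add_mem (Crv.pl_mem_sp.2 ⟨-toP π (pquo x.c D a), ?_⟩) (Crv.mul_mem Crv.y_mem_one ih)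
    rw [← h.hom.dm D a]
    ring
theorem Ok.redO (h : Ok x π V) (D : List E) (g : Oe E) :
    toL V π (redO x D g) - toL V π g ∈ V.sp (V.pl (mon π D)) ∧ (redO x D g).length = V.l ∧
      ∀ a ∈ redO x D g, a.length = D.length := by
  refine ⟨(h.nrmz g).1 ▸ semO_red h D _, (List.length_map _).trans (h.nrmz g).2, fun a ha => ?_⟩
  obtain ⟨b, -, rfl⟩ := List.mem_map.1 ha
  exact length_prem _ _ _
/-- the span of the monomials = elements of `O` with all coordinates of degree below `L` -/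
theorem Ok.mons (h : Ok x π V) (L : ℕ) (z : V.L) : z ∈ spn F (toL V π) (mons x L) ↔
    ∀ b < V.l, ∃ g : F[X], g.degree < L ∧ V.co b z = algebraMap F[X] (RatFunc F) g := by
  constructor
  · intro hz
    induction hz using Submodule.span_induction with
    | mem z hz =>
      obtain ⟨g, hg, rfl⟩ := hz
      obtain ⟨c, hc, hg⟩ := List.mem_flatMap.1 hg
      obtain ⟨a, ha, rfl⟩ := List.mem_map.1 hg
      intro b _
      rw [toL_py, h.hom.xp, ← Crv.kl_alg, Crv.co_mono (h.hl ▸ List.mem_range.1 hc)]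
      split_ifs
      · exact ⟨_, by rw [degree_X_pow]; exact_mod_cast List.mem_range.1 ha, rfl⟩
      · exact ⟨0, WithBot.bot_lt_coe _, (map_zero _).symm⟩
    | zero => exact fun b _ => ⟨0, WithBot.bot_lt_coe _, by rw [map_zero, map_zero]⟩
    | add z w _ _ hz hw =>
      intro b hb
      obtain ⟨g, h1, h2⟩ := hz b hb
      obtain ⟨k, h3, h4⟩ := hw b hb
      exact ⟨g + k, (degree_add_le _ _).trans_lt (max_lt h1 h3), by rw [map_add, map_add, h2, h4]⟩
    | smul a z _ hz =>
      intro b hb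
      obtain ⟨g, h1, h2⟩ := hz b hb
      exact ⟨a • g, (degree_smul_le _ _).trans_lt h1, by
        rw [Crv.co_smul, h2, Algebra.smul_def, Algebra.smul_def, map_mul]; rfl⟩
  · intro hz
    rw [Crv.co_sum z]
    refine Submodule.sum_mem _ fun b hb => ?_
    obtain ⟨g, h1, h2⟩ := hz b (mem_range.1 hb)
    have h3 : g = ∑ a ∈ range L, Polynomial.C (g.coeff a) * X ^ a := by
      ext j
      rw [finsetSum_coeff]
      simp only [coeff_C_mul_X_pow, sum_ite_eq, mem_range]
      split_ifs with hj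
      · rfl
      · exact coeff_eq_zero_of_degree_lt (h1.trans_le (by exact_mod_cast not_lt.1 hj))
    rw [h2, Crv.kl_alg, h3, map_sum, sum_mul]
    refine Submodule.sum_mem _ fun a ha => ?_
    rw [map_mul, mul_assoc, Crv.pl_C, ← h.hom.xp, ← toL_py]
    exact Submodule.smul_mem _ _ (spn_mem _ (List.mem_flatMap.2 ⟨b,
      List.mem_range.2 (h.hl ▸ mem_range.1 hb), List.mem_map.2 ⟨a, List.mem_range.2 (mem_range.1 ha),
        rfl⟩⟩))
theorem Ok.mons_red (h : Ok x π V) (u : List E) {z : V.L} (hz : z ∈ (1 : V.FI)) :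
    ∃ g ∈ spn F (toL V π) (A.mons x u.length), z - g ∈ V.sp (V.pl (mon π u)) := by
  have h1 := Crv.mem_one_iff.1 hz
  choose! g hg using h1
  refine ⟨∑ b ∈ range V.l, V.pl (g b %ₘ mon π u) * V.y ^ b, (h.mons _ _).2 fun b hb =>
    ⟨g b %ₘ mon π u, ?_, by rw [semO_co le_rfl, if_pos hb]⟩,
    Crv.mem_sp_pl.2 fun b hb => ⟨g b /ₘ mon π u, ?_⟩⟩
  · refine (degree_modByMonic_lt _ (mon_monic u)).trans_eq ?_
    rw [degree_eq_natDegree (mon_monic u).ne_zero, natDegree_mon]
  · rw [map_sub, semO_co le_rfl, if_pos hb, hg b hb, ← map_sub, modByMonic_eq_sub_mul_div,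
      sub_sub_cancel]
theorem Ok.sgO (h : Ok x π V) {z : E} (hz : π z ^ V.l = 1) (g : Oe E) :
    toL V π (sgO x z g) = (V.sg (π z)).1 (toL V π g) := by
  rw [A.sgO, toL_range, semO_sum g, map_sum]
  refine sum_congr rfl fun b _ => ?_
  rw [h.hom.psmul, h.hom.pw, map_mul, Crv.pl_C, map_mul, Crv.sg_pl, map_pow, Crv.sg_y hz,
    _root_.smul_pow, smul_mul_assoc, mul_smul_comm]
theorem semO_sg (h : Ok x π V) {z : E} (hz : π z ^ V.l = 1) (t : ℕ) (g : Oe E) :
    toL V π (sgO x (pw x.c z t) g) = (V.sg (π z ^ t)).1 (toL V π g) := by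
  rw [h.sgO (by rw [h.hom.pw]; exact Crv.int_pow_rt hz t), h.hom.pw]
theorem Ok.star (h : Ok x π V) {z : E} (hz : IsPrimitiveRoot (π z) V.l) (g : Oe E) :
    toL V π g * toL V π (star x z g) = V.nrm (toL V π g) := by
  have e : V.l = x.l - 1 + 1 := by
    have := V.hl.pos
    rw [h.hl]
    omega
  rw [A.star, h.o.prodL_range, Crv.nrm_eq hz, e, prod_range_succ', pow_zero, Crv.int_sg_one,
    mul_comm]
  simp only [semO_sg h hz.pow_eq_one]
theorem Ok.nrmO (h : Ok x π V) {z : E} (hz : IsPrimitiveRoot (π z) V.l) (g : Oe E) :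
    V.pl (toP π (nrmO x z g)) = V.nrm (toL V π g) := by
  obtain ⟨P, hP⟩ := Crv.exists_nrm_pl (toL_mem (V := V) (π := π) g)
  rw [A.nrmO, h.c0_pl ((h.o.mul _ _).trans ((h.star hz g).trans hP)), hP]
theorem semO_fold (h : Ok x π V) (l : List (List (Oe E))) (a : List (Oe E)) :
    toLL V π (l.foldl (padd x.o) a) = toLL V π a + (l.map (toLL V π)).sum := by
  induction l generalizing a with
  | nil => simp
  | cons b l ih =>
    rw [List.foldl_cons, ih, List.map_cons, List.sum_cons, ← add_assoc]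
    exact congrArg (· + _) (h.o.padd a b)
theorem semO_smul (h : Ok x π V) (s : E) (G : List (Oe E)) :
    toLL V π (G.map (A.smO x s)) = π s • toLL V π G := by
  unfold toLL
  induction G with
  | nil => rw [List.map_nil, toP_nil, smul_zero]
  | cons a G ih =>
    rw [List.map_cons, toP_cons, toP_cons, ih, h.smO, smul_add, mul_smul_comm, smul_C]
theorem Ok.combO (h : Ok x π V) (lam : List E) (ps : List (List (Oe E))) :
    toLL V π (combO x lam ps) =
      ∑ i ∈ range ps.length, (toP π lam).coeff i • toLL V π (ps.getD i []) := by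
  rw [A.combO, semO_fold h, List.map_map, ← List.sum_toFinset _ List.nodup_range,
    List.toFinset_range]
  change toP _ [] + _ = _
  simp only [toP_nil, zero_add, Function.comp, semO_smul h, h.hom.coeff]
theorem Ok.lead (h : Ok x π V) (cc : E) (t : ℕ) : toL V π (lead x cc t) = V.lead (π cc) t := by
  rw [A.lead, h.o.add, toL_single, h.smO, toL_range, h.hom.mul, h.hom.sub, h.hom.one, h.lc, h.m,
    h.hl, Crv.lead]
  simp only [h.hom.xp]
theorem Ok.tw (h : Ok x π V) {z : E} (hz : π z ^ V.l = 1) (U : List E) (A B : List (Oe E))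
    {k : ℕ} (hk : k < V.l) : toL V π ((tw x z U A B).getD k []) =
      V.tw (π z) (toP π U) (fun j => toL V π (A.getD j [])) (fun j => toL V π (B.getD j [])) k := by
  have hk' : k < (Vale.Agent.P319.A.tw x z U A B).length := by
    rw [Vale.Agent.P319.A.tw, List.length_map, List.length_range, h.hl]
    exact hk
  rw [List.getD_eq_getElem _ _ hk']
  simp only [Vale.Agent.P319.A.tw, List.getElem_map, List.getElem_range]
  rw [h.o.sumL_range, Crv.tw, h.hl]
  refine sum_congr rfl fun a _ => ?_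
  rw [h.o.mul, h.o.mul, semO_sg h hz]
  split_ifs
  · rw [h.o.one]
  · rw [toL_single]
theorem Ok.up (h : Ok x π V) {a : F} (ha : V.f.IsRoot a) (hq : a ^ x.Q = a) :
    Ok (up x) (evq π a) V := by
  refine ⟨h.pt.quo (h.hf ▸ ha) hq, h.hl, ?_⟩
  rw [← h.hf]
  change mon _ (x.f.map fun a => [a]) = _
  rw [mon, mon, List.length_map, toP_map]
  simp only [Function.comp_def, evq_single]
theorem Good.root {z w b : E} {v : ℕ} {r : F ≃+* F} (h : Good x π V z w b v r) {a : F}
    (ha : V.f.IsRoot a) : a ^ x.Q = a := by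
  rw [← h.fr]
  induction V.l ^ v with
  | zero => rfl
  | succ k ih => rw [pow_succ, RingAut.mul_apply, h.fa a ha, ih]
theorem Good.up {z w b : E} {v : ℕ} {r : F ≃+* F} (h : Good x π V z w b v r) {a : F}
    (ha : V.f.IsRoot a) : Good (up x) (evq π a) V [z] [w] [b] v r := by
  have e : (A.up x).n = x.n := List.length_map _
  refine ⟨h.toOk.up ha (h.root ha), ?_, ?_, ?_, h.dv, e ▸ h.chr, h.fr, h.ff, ?_, ?_, h.fa, ?_, ?_⟩ <;>
    rw [evq_single]
  exacts [h.prim, h.w0, h.w1, h.fz, h.fb, h.b0, h.b1]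
theorem Ok.dD_le (h : Ok x π V) : x.l * dD x ≤ bnd x.n := by
  have h1 : x.l ≤ x.n + 2 := by
    rw [h.n, h.hl]
    exact (Nat.le_mul_of_pos_right _ V.hm).trans (Nat.le_add_right _ _)
  obtain ⟨N, hN⟩ : ∃ N, N = x.n + 2 := ⟨_, rfl⟩
  have h2 : 2 ≤ N := by omega
  rw [← hN] at h1
  have h3 : x.ds ≤ N * (2 * N) := Nat.mul_le_mul h1 (by rw [Cx.e]; omega)
  have h4 : x.nu ≤ N + N * (2 * N) := Nat.add_le_add (by omega) h3
  have h5 : dD x ≤ N * (2 * N) + N * ((N + N * (2 * N)) * N) :=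
    Nat.add_le_add h3 (Nat.mul_le_mul h1 (Nat.mul_le_mul h4 (by omega)))
  refine (Nat.mul_le_mul h1 h5).trans ?_
  rw [bnd, ← hN]
  have k3 : N ^ 3 ≤ N ^ 5 := Nat.pow_le_pow_right (by omega) (by norm_num)
  have k4 : N ^ 4 ≤ N ^ 5 := Nat.pow_le_pow_right (by omega) (by norm_num)
  have k8 : 2 ^ 3 * N ^ 5 ≤ N ^ 3 * N ^ 5 := Nat.mul_le_mul_right _ (Nat.pow_le_pow_left h2 3)
  calc N * (N * (2 * N) + N * ((N + N * (2 * N)) * N)) = 2 * N ^ 3 + N ^ 4 + 2 * N ^ 5 := by ring
    _ ≤ N ^ 3 * N ^ 5 := by omega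
    _ = N ^ 8 := by ring

end Vale.Agent.P319.A
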