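import Vale.Agent.P319.A.SemO
import Vale.Agent.P319.A.SemLA

/-! Linear systems over `O`. -/

namespace Vale.Agent.P319.A

open Polynomial Finset

variable {C E F : Type} [Ops C E] [Field F] [IsAlgClosed F] {x : Cx C E} {π : E → F} {V : Crv F}

omit [IsAlgClosed F] in
private theorem semSys_ext {A B : F[X]} {w : ℕ} (hA : A.degree < w) (hB : B.degree < w) :
    (∀ j < w, A.coeff j = B.coeff j) ↔ A = B := by
  refine ⟨fun h => Polynomial.ext fun j => ?_, fun h j _ => h ▸ rfl⟩
  by_cases hj : j < w
  · exact h j hj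
  · have hj' : (w : WithBot ℕ) ≤ j := by exact_mod_cast not_lt.1 hj
    rw [coeff_eq_zero_of_degree_lt (hA.trans_le hj'), coeff_eq_zero_of_degree_lt (hB.trans_le hj')]

omit [IsAlgClosed F] in
private theorem semSys_deg {s : Finset ℕ} (μ : ℕ → F) {g : ℕ → List E} {w : ℕ}
    (h : ∀ i ∈ s, (g i).length ≤ w) : (∑ i ∈ s, μ i • toP π (g i)).degree < w :=
  mem_degreeLT.1 (Submodule.sum_mem _ fun i hi => Submodule.smul_mem _ _
    (mem_degreeLT.2 ((degree_toP_lt _).trans_le (by exact_mod_cast h i hi))))

private theorem semSys_len {α : Type} (g : ℕ → List α) {w : ℕ} (h : ∀ k, (g k).length = w)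
    (n : ℕ) : ((List.range n).flatMap g).length = n * w := by
  induction n with
  | zero => simp
  | succ n ih => simp [List.range_succ, List.flatMap_append, ih, h, Nat.succ_mul]

private theorem semSys_len_flat (L t : ℕ) (g : Oe E) : (flat x L t g).length = x.l * L :=
  semSys_len _ (fun k => by simp) _

omit [IsAlgClosed F] in
private theorem semSys_blocks (s : Finset ℕ) (μ : ℕ → F) (g : ℕ → ℕ → List E) {w : ℕ}
    (h : ∀ i k, (g i k).length = w) (n : ℕ) :
    ∑ i ∈ s, μ i • toP π ((List.range n).flatMap (g i)) = 0 ↔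
      ∀ k < n, ∑ i ∈ s, μ i • toP π (g i k) = 0 := by
  induction n with
  | zero => simp [toP_nil]
  | succ n ih =>
    have h1 := semSys_deg (π := π) (s := s) μ (g := fun i => (List.range n).flatMap (g i))
      (w := n * w) fun i _ => (semSys_len _ (h i) n).le
    rw [Nat.forall_lt_succ_right, ← ih]
    simp only [List.range_succ, List.flatMap_append, List.flatMap_singleton, toP_append,
      semSys_len _ (h _), smul_add, sum_add_distrib, ← mul_smul_comm, ← mul_sum]
    refine ⟨fun e => ?_, fun e => by rw [e.1, e.2, mul_zero, add_zero]⟩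
    have h2 : ∑ i ∈ s, μ i • toP π ((List.range n).flatMap (g i)) = 0 :=
      eq_zero_of_dvd_of_degree_lt ⟨_, (eq_neg_of_add_eq_zero_left e).trans (mul_neg _ _).symm⟩
        (by rwa [degree_X_pow])
    rw [h2, zero_add] at e
    exact ⟨h2, (mul_eq_zero.1 e).resolve_left (pow_ne_zero _ X_ne_zero)⟩

private theorem semSys_foldl (l : List ℕ) (b : ℕ) :
    b ≤ l.foldl max b ∧ ∀ a ∈ l, a ≤ l.foldl max b := by
  induction l generalizing b with
  | nil => simp
  | cons c l ih =>
    refine ⟨(le_max_left b c).trans (ih _).1, fun a ha => ?_⟩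
    rcases List.mem_cons.1 ha with rfl | ha
    · exact (le_max_right b a).trans (ih _).1
    · exact (ih _).2 a ha

private theorem semSys_wid {rs : List (List (Oe E))} {a : List E} (h : a ∈ rs.flatten.flatten) :
    a.length ≤ wid rs := (semSys_foldl _ 0).2 _ (List.mem_map_of_mem h)

private theorem semSys_getD {α : Type} {g : List (List α)} {L : ℕ} (h : ∀ a ∈ g, a.length ≤ L)
    (b : ℕ) : (g.getD b []).length ≤ L := by
  by_cases hb : b < g.length
  · rw [List.getD_eq_getElem _ _ hb]
    exact h _ (List.getElem_mem _)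
  · rw [List.getD_eq_default _ _ (not_lt.1 hb)]
    exact Nat.zero_le _

private theorem semSys_flat (h : Ok x π V) (s : Finset ℕ) (μ : ℕ → F) (g : ℕ → Oe E) (L t : ℕ) :
    ∑ i ∈ s, μ i • toP π (flat x L t (g i)) = 0 ↔ ∀ b < V.l, ∀ a < L,
      t ≤ V.l * (a + V.m * b) + b → (∑ i ∈ s, μ i • toP π ((g i).getD b [])).coeff a = 0 := by
  unfold flat
  rw [semSys_blocks _ _ _ (w := L) fun i k => by simp, h.hl, h.m]
  refine forall_congr' fun b => forall_congr' fun _ => ?_
  rw [← semSys_ext (w := L) (semSys_deg _ fun i _ => by simp) (by simp [WithBot.bot_lt_iff_ne_bot])]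
  refine forall_congr' fun a => forall_congr' fun ha => ?_
  simp only [finsetSum_coeff, coeff_smul, coeff_toP_range, if_pos ha, coeff_zero]
  split_ifs with ht
  · simp [h.hom.zero, ht]
  · simp only [h.hom.coeff, not_lt.1 ht, true_imp_iff]

omit [Ops C E] in
private theorem semSys_co (s : Finset ℕ) (μ : ℕ → F) {g : ℕ → Oe E}
    (hg : ∀ i, (g i).length = V.l) (b : ℕ) : V.co b (∑ i ∈ s, μ i • toL V π (g i)) =
      algebraMap F[X] (RatFunc F) (∑ i ∈ s, μ i • toP π ((g i).getD b [])) := by
  rw [map_sum, map_sum]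
  refine sum_congr rfl fun i _ => ?_
  rw [Crv.co_smul, co_toL (hg i).le, Algebra.smul_def, Algebra.smul_def, map_mul,
    ← IsScalarTower.algebraMap_apply]

private theorem semSys_cnd (h : Ok x π V) (s : Finset ℕ) (μ : ℕ → F) (g : ℕ → Oe E) (D : List E)
    (t : ℕ) {L : ℕ} (hL : ∀ i ∈ s, ∀ a ∈ cnd x D t (g i), a.length ≤ L) :
    ∑ i ∈ s, μ i • toP π (flat x L t (cnd x D t (g i))) = 0 ↔
      ∑ i ∈ s, μ i • toL V π (g i) ∈ Wt V π D t := by
  have hd := fun b => semSys_deg (π := π) μ fun i hi => semSys_getD (hL i hi) b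
  rw [semSys_flat h, Wt]
  unfold cnd at hd ⊢
  split_ifs at hd ⊢ with ht
  · have h1 : ∑ i ∈ s, μ i • toL V π (redO x D (g i)) - ∑ i ∈ s, μ i • toL V π (g i) ∈
        V.und (V.sp (V.pl (mon π D))) := by
      rw [← sum_sub_distrib]
      refine Submodule.sum_mem _ fun i _ => ?_
      rw [← smul_sub]
      exact Submodule.smul_mem _ _ (Crv.mem_und.2 (h.redO D _).1)
    rw [← Submodule.add_mem_iff_right _ h1, sub_add_cancel, Crv.mem_und, Crv.mem_sp_pl]
    refine forall_congr' fun b => forall_congr' fun _ => ?_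
    rw [semSys_co _ _ fun i => (h.redO D (g i)).2.1]
    refine ⟨fun e => ⟨0, ?_⟩, fun ⟨q, e⟩ a _ _ => ?_⟩
    · rw [mul_zero, (semSys_ext (hd b) ((degree_zero.trans_lt (WithBot.bot_lt_coe L)))).1
        fun a ha => e a ha (ht ▸ Nat.zero_le _)]
    · have h2 := semSys_deg (π := π) (s := s) μ fun i _ =>
        semSys_getD (fun a ha => ((h.redO D (g i)).2.2 a ha).le) b
      rw [eq_zero_of_dvd_of_degree_lt ⟨q, IsFractionRing.injective F[X] (RatFunc F) e⟩
        (by rwa [degree_eq_natDegree (mon_monic D).ne_zero, natDegree_mon]), coeff_zero]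
  · rw [← sum_congr rfl fun i _ => congrArg (μ i • ·) (h.nrmz (g i)).1, Crv.mem_V]
    refine forall_congr' fun b => forall_congr' fun _ => ?_
    rw [semSys_co _ _ fun i => (h.nrmz (g i)).2, RatFunc.intDegree_polynomial,
      map_eq_zero_iff _ (IsFractionRing.injective F[X] (RatFunc F))]
    have h2 := hd b
    generalize ∑ i ∈ s, μ i • toP π ((nrmz x (g i)).getD b []) = P at h2
    refine ⟨fun e => or_iff_not_imp_left.2 fun h0 => ?_, fun e a _ ha => ?_⟩
    · have h3 := mt (e P.natDegree ((natDegree_lt_iff_degree_lt h0).2 h2))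
        (leadingCoeff_ne_zero.2 h0)
      exact_mod_cast not_le.1 h3
    · obtain rfl | e := e
      · rfl
      · have h3 : V.l * (P.natDegree + V.m * b) + b < t := by exact_mod_cast e
        have h4 := lt_of_mul_lt_mul_left (lt_of_add_lt_add_right (h3.trans_le ha)) V.l.zero_le
        exact coeff_eq_zero_of_natDegree_lt (lt_of_add_lt_add_right h4)

/-- a combination of the rows vanishes iff the combination of the conditions holds -/
theorem rows_spec (h : Ok x π V) (ths : List ℕ) (D : List E) (cs : List (List (Oe E)))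
    (μ : ℕ → F) : (rows x ths D cs).length = cs.length ∧
    (∀ r ∈ rows x ths D cs, r.length = ((rows x ths D cs).headD []).length) ∧
    (∑ i ∈ range cs.length, μ i • toP π ((rows x ths D cs).getD i []) = 0 ↔ ∀ k < ths.length,
      ∑ i ∈ range cs.length, μ i • toL V π ((cs.getD i []).getD k []) ∈
        Wt V π D (ths.getD k 0)) := by
  have hlen : ∀ gs, (row x (wid (cs.map (cnds x ths D))) ths gs).length =
      ths.length * (x.l * wid (cs.map (cnds x ths D))) := fun gs =>
    semSys_len _ (fun k => semSys_len_flat _ _ _) _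
  refine ⟨by simp [rows], fun r hr => ?_, ?_⟩
  · obtain _ | ⟨c, cs⟩ := cs
    · simp [rows] at hr
    · obtain ⟨gs, -, rfl⟩ := List.mem_map.1 hr
      rw [hlen]
      exact (hlen _).symm
  · have e : ∀ i ∈ range cs.length, μ i • toP π ((rows x ths D cs).getD i []) =
        μ i • toP π ((List.range ths.length).flatMap fun k => flat x (wid (cs.map (cnds x ths D)))
          (ths.getD k 0) ((cnds x ths D (cs.getD i [])).getD k [])) := by
      intro i hi
      rw [mem_range] at hi
      rw [rows, List.map_map, List.getD_eq_getElem _ _ (by simpa using hi), List.getElem_map,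
        List.getD_eq_getElem _ _ hi]
      rfl
    rw [sum_congr rfl e, semSys_blocks _ _ _ fun i k => semSys_len_flat _ _ _]
    refine forall_congr' fun k => forall_congr' fun hk => ?_
    have e' : ∀ gs, (cnds x ths D gs).getD k [] = cnd x D (ths.getD k 0) (gs.getD k []) := by
      intro gs
      rw [cnds, List.getD_eq_getElem _ _ (by simpa using hk), List.getElem_map, List.getElem_range]
    simp only [e']
    refine semSys_cnd h _ _ _ _ _ fun i hi a ha => semSys_wid (List.mem_flatten.2
      ⟨_, List.mem_flatten.2 ⟨cnds x ths D (cs.getD i []), List.mem_map_of_mem ?_, ?_⟩, ha⟩)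
    · rw [List.getD_eq_getElem _ _ (mem_range.1 hi)]
      exact List.getElem_mem _
    · exact List.mem_map.2 ⟨k, List.mem_range.2 hk, rfl⟩
/-- the conditions of every source are the values of `Λ` on its payload -/
def Lin (V : Crv F) (π : E → F) (ths : List ℕ) (src : List (List (Oe E) × List (Oe E)))
    (Λ : ℕ → V.L[X] →ₗ[F] V.L) : Prop :=
  ∀ s ∈ src, ∀ k < ths.length, toL V π (s.2.getD k []) = Λ k (toLL V π s.1)

/-- the combination of the values of a list with the coefficients of a polynomial -/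
private noncomputable def semSys_cmb {M W : Type} [AddCommGroup W] [Module F W] (g : M → W)
    (l : List M) (d : M) : F[X] →ₗ[F] W :=
  ∑ i ∈ range l.length, (lcoeff F i).smulRight (g (l.getD i d))

omit [IsAlgClosed F] in
private theorem semSys_cmb_apply {M W : Type} [AddCommGroup W] [Module F W] (g : M → W)
    (l : List M) (d : M) (p : F[X]) :
    semSys_cmb g l d p = ∑ i ∈ range l.length, p.coeff i • g (l.getD i d) := by
  simp only [semSys_cmb, LinearMap.sum_apply, LinearMap.smulRight_apply, lcoeff_apply]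

omit [IsAlgClosed F] in
private theorem semSys_spn {M W : Type} [AddCommGroup W] [Module F W] (g : M → W) (l : List M)
    (d : M) : spn F g l = (degreeLT F l.length).map (semSys_cmb g l d) := by
  ext v
  rw [mem_spn g l d, Submodule.mem_map]
  refine ⟨fun ⟨μ, e⟩ => ⟨∑ i ∈ range l.length, monomial i (μ i), Submodule.sum_mem _ fun i hi =>
    mem_degreeLT.2 ((degree_monomial_le _ _).trans_lt (by exact_mod_cast mem_range.1 hi)), ?_⟩,
    fun ⟨p, _, e⟩ => ⟨p.coeff, by rw [← e, semSys_cmb_apply]⟩⟩
  rw [e, semSys_cmb_apply]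
  refine sum_congr rfl fun i hi => ?_
  simp only [finsetSum_coeff, coeff_monomial, sum_ite_eq', if_pos hi]

omit [IsAlgClosed F] in
private theorem semSys_rank {U W : Type} [AddCommGroup U] [Module F U] [AddCommGroup W]
    [Module F W] (f : U →ₗ[F] W) (S : Submodule F U) [FiniteDimensional F S] :
    Module.finrank F (S.map f) + Module.finrank F (S ⊓ LinearMap.ker f :) =
      Module.finrank F S := by
  rw [← (f.domRestrict S).finrank_range_add_finrank_ker, LinearMap.range_domRestrict,
    LinearMap.ker_domRestrict, ← Submodule.map_comap_subtype, Submodule.finrank_map_subtype_eq]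

omit [Ops C E] [IsAlgClosed F] in
private theorem semSys_lin {ths : List ℕ} {src : List (List (Oe E) × List (Oe E))}
    {Λ : ℕ → V.L[X] →ₗ[F] V.L} (hΛ : Lin V π ths src Λ) (μ : ℕ → F) {k : ℕ}
    (hk : k < ths.length) :
    ∑ i ∈ range src.length, μ i • toL V π (((src.map Prod.snd).getD i []).getD k []) =
      Λ k (∑ i ∈ range src.length, μ i • toLL V π ((src.map Prod.fst).getD i [])) := by
  rw [map_sum]
  refine sum_congr rfl fun i hi => ?_
  rw [mem_range] at hi
  rw [map_smul, List.getD_eq_getElem (src.map Prod.snd) _ (by simpa using hi),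
    List.getD_eq_getElem (src.map Prod.fst) _ (by simpa using hi), List.getElem_map,
    List.getElem_map, hΛ _ (List.getElem_mem _) k hk]

private theorem semSys_ker (h : Ok x π V) {ths : List ℕ} (D : List E)
    {src : List (List (Oe E) × List (Oe E))} {Λ : ℕ → V.L[X] →ₗ[F] V.L} (hΛ : Lin V π ths src Λ)
    (p : F[X]) : semSys_cmb (toP π) (rows x ths D (src.map Prod.snd)) [] p = 0 ↔
      ∀ k < ths.length, Λ k (semSys_cmb (toLL V π) (src.map Prod.fst) [] p) ∈
        Wt V π D (ths.getD k 0) := by
  obtain ⟨h1, -, h3⟩ := rows_spec h ths D (src.map Prod.snd) p.coeff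
  rw [semSys_cmb_apply, semSys_cmb_apply, h1, h3, List.length_map, List.length_map]
  exact forall_congr' fun k => forall_congr' fun hk => by rw [semSys_lin hΛ _ hk]

private theorem semSys_kerO (h : Ok x π V) (ths : List ℕ) (D : List E)
    (src : List (List (Oe E) × List (Oe E))) :
    spn F (toLL V π) (kerO x ths D src) = (degreeLT F src.length ⊓
      LinearMap.ker (semSys_cmb (toP π) (rows x ths D (src.map Prod.snd)) [])).map
        (semSys_cmb (toLL V π) (src.map Prod.fst) []) := by
  obtain ⟨h1, h2, -⟩ := rows_spec h ths D (src.map Prod.snd) 0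
  have h3 : spn F (toP π) (kerC x.c x.Q ((rows x ths D (src.map Prod.snd)).headD []).length
      (rows x ths D (src.map Prod.snd))) = degreeLT F src.length ⊓
        LinearMap.ker (semSys_cmb (toP π) (rows x ths D (src.map Prod.snd)) []) := by
    ext p
    rw [kerC_spec h.pt, Submodule.mem_inf, mem_degreeLT, LinearMap.mem_ker, semSys_cmb_apply,
      ← semSys_ext (semSys_deg _ fun i _ => semSys_getD (fun a ha => (h2 a ha).le) i)
        (degree_zero.trans_lt (WithBot.bot_lt_coe _)), h1, List.length_map]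
    simp only [finsetSum_coeff, coeff_smul, smul_eq_mul, coeff_zero]
  rw [← h3, spn, spn, Submodule.map_span, Set.image_image]
  congr 1
  ext P
  simp only [kerO, Set.mem_image, Set.mem_ofPred_eq, List.mem_map, exists_exists_and_eq_and,
    h.combO, semSys_cmb_apply]

theorem kerO_spec (h : Ok x π V) {ths : List ℕ} (D : List E)
    {src : List (List (Oe E) × List (Oe E))} {Λ : ℕ → V.L[X] →ₗ[F] V.L} (hΛ : Lin V π ths src Λ)
    (P : V.L[X]) : P ∈ spn F (toLL V π) (kerO x ths D src) ↔
      P ∈ spn F (toLL V π) (src.map Prod.fst) ∧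
        ∀ k < ths.length, Λ k P ∈ Wt V π D (ths.getD k 0) := by
  rw [semSys_kerO h, semSys_spn _ _ [], List.length_map]
  refine ⟨?_, ?_⟩
  · rintro ⟨p, hp, rfl⟩
    exact ⟨⟨p, hp.1, rfl⟩, (semSys_ker h D hΛ p).1 hp.2⟩
  · rintro ⟨⟨p, hp, rfl⟩, e⟩
    exact ⟨p, ⟨hp, (semSys_ker h D hΛ p).2 e⟩, rfl⟩
theorem rkO_spec (h : Ok x π V) {ths : List ℕ} (D : List E)
    {src : List (List (Oe E) × List (Oe E))} {Λ : ℕ → V.L[X] →ₗ[F] V.L} (hΛ : Lin V π ths src Λ) :
    ∃ r : ℕ, π (rkO x ths D (src.map Prod.snd)) = r ∧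
      r + Module.finrank F (spn F (toLL V π) (kerO x ths D src)) =
        Module.finrank F (spn F (toLL V π) (src.map Prod.fst)) := by
  obtain ⟨h1, h2, -⟩ := rows_spec h ths D (src.map Prod.snd) 0
  refine ⟨_, rk_spec h.pt fun r hr => (h2 r hr).le, ?_⟩
  rw [semSys_kerO h, semSys_spn _ _ [], semSys_spn _ _ [], h1, List.length_map, List.length_map]
  have : FiniteDimensional F (degreeLT F src.length) :=
    Module.Finite.equiv (degreeLTEquiv F src.length).symm
  set Ψ : F[X] →ₗ[F] F[X] := semSys_cmb (toP π) (rows x ths D (src.map Prod.snd)) []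
  set Φ : F[X] →ₗ[F] V.L[X] := semSys_cmb (toLL V π) (src.map Prod.fst) []
  have h3 : LinearMap.ker Φ ≤ LinearMap.ker Ψ := fun p hp =>
    (semSys_ker h D hΛ p).2 fun k _ => by
      rw [LinearMap.mem_ker.1 hp, map_zero]
      exact Submodule.zero_mem _
  have h4 := semSys_rank Ψ (degreeLT F src.length)
  have h5 := semSys_rank Φ (degreeLT F src.length)
  have h6 := semSys_rank Φ (degreeLT F src.length ⊓ LinearMap.ker Ψ)
  rw [inf_assoc, inf_eq_right.2 h3] at h6
  omega

private theorem semSys_sol (h : Ok x π V) {ths : List ℕ} (D : List E)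
    {src : List (List (Oe E) × List (Oe E))} {Λ : ℕ → V.L[X] →ₗ[F] V.L} (hΛ : Lin V π ths src Λ)
    (tg : List (Oe E)) (ν : ℕ → F) : ∑ i ∈ range src.length,
      ν i • toP π ((rows x ths D (tg :: src.map Prod.snd)).tail.getD i []) =
        toP π ((rows x ths D (tg :: src.map Prod.snd)).headD []) ↔ ∀ k < ths.length,
      Λ k (∑ i ∈ range src.length, ν i • toLL V π ((src.map Prod.fst).getD i [])) -
        toL V π (tg.getD k []) ∈ Wt V π D (ths.getD k 0) := by
  obtain ⟨h1, -, h3⟩ := rows_spec h ths D (tg :: src.map Prod.snd)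
    fun i => Nat.casesOn i (-1) ν
  generalize rows x ths D (tg :: src.map Prod.snd) = r at h1 h3
  obtain _ | ⟨r0, r⟩ := r
  · simp at h1
  simp only [List.length_cons, List.length_map, sum_range_succ', List.getD_cons_succ,
    List.getD_cons_zero, Nat.rec_zero, neg_smul, one_smul, ← sub_eq_add_neg, sub_eq_zero] at h3
  rw [List.tail_cons, List.headD_cons, h3]
  exact forall_congr' fun k => forall_congr' fun hk => by rw [semSys_lin hΛ _ hk]

theorem solO_spec (h : Ok x π V) {ths : List ℕ} (D : List E)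
    {src : List (List (Oe E) × List (Oe E))} {Λ : ℕ → V.L[X] →ₗ[F] V.L} (hΛ : Lin V π ths src Λ)
    (tg : List (Oe E)) {P : V.L[X]} (hP : P ∈ spn F (toLL V π) (src.map Prod.fst))
    (hc : ∀ k < ths.length, Λ k P - toL V π (tg.getD k []) ∈ Wt V π D (ths.getD k 0)) :
    toLL V π (solO x ths D src tg) ∈ spn F (toLL V π) (src.map Prod.fst) ∧ ∀ k < ths.length,
      Λ k (toLL V π (solO x ths D src tg)) - toL V π (tg.getD k []) ∈
        Wt V π D (ths.getD k 0) := by
  obtain ⟨h1, h2, -⟩ := rows_spec h ths D (tg :: src.map Prod.snd) 0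
  have key := semSys_sol h D hΛ tg
  obtain ⟨μ, rfl⟩ := (mem_spn _ _ []).1 hP
  rw [solO, h.combO]
  refine ⟨(mem_spn _ _ []).2 ⟨_, rfl⟩, ?_⟩
  rw [List.length_map] at hc ⊢
  generalize rows x ths D (tg :: src.map Prod.snd) = r at h1 h2 key
  have h3 : r.tail.length = src.length := by simp [h1]
  have h4 : ∀ ν : ℕ → F, (∀ j < (r.headD []).length, ∑ i ∈ range r.tail.length,
      ν i * (toP π (r.tail.getD i [])).coeff j = (toP π (r.headD [])).coeff j) ↔
        ∑ i ∈ range src.length, ν i • toP π (r.tail.getD i []) = toP π (r.headD []) := by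
    intro ν
    rw [← semSys_ext (semSys_deg _ fun i _ =>
      semSys_getD (fun a ha => (h2 a (List.mem_of_mem_tail ha)).le) i) (degree_toP_lt _), h3]
    simp only [finsetSum_coeff, coeff_smul, smul_eq_mul]
  exact (key _).1 ((h4 _).1 (solC_spec h.pt _ _ _ μ ((h4 μ).2 ((key μ).2 hc))))

end Vale.Agent.P319.A
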