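import Vale.Agent.P319.A.Sem

/-! Top level: definitions and the worklist. -/

namespace Vale.Agent.P319.A

open Polynomial Finset

variable {p : ℕ} [Fact p.Prime]

abbrev pz (p : ℕ) : ℕ → ZMod p := Nat.cast
abbrev Fb (p : ℕ) [Fact p.Prime] : Type := AlgebraicClosure (ZMod p)
noncomputable abbrev pb (p : ℕ) [Fact p.Prime] : ℕ → Fb p := Nat.cast
/-- `t.1` defines a field with the `l`-th roots of unity, `t.2` is not an `l`-th power in it -/
def FieldOK (p : ℕ) [Fact p.Prime] (l : ℕ) (t : List ℕ × List ℕ) : Prop :=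
  Irreducible (mon (pz p) t.1) ∧ l ∣ p ^ t.1.length - 1 ∧ (l = 2 → 4 ∣ p ^ t.1.length - 1) ∧
    ∃ u : Fb p, (mon (pb p) t.1).eval u = 0 ∧ evq (pb p) u t.2 ≠ 0 ∧
      evq (pb p) u t.2 ^ ((p ^ t.1.length - 1) / l) ≠ 1
def TabOK (p : ℕ) [Fact p.Prime] (tab : Tab) (N : ℕ) : Prop :=
  ∀ l, l.Prime → l ≤ N → bnd l < p → FieldOK p l (tab.getD l ([], []))
/-- some candidate has a proper common factor with `mono u` -/
def Cut (p : ℕ) (u : List ℕ) (cs : List (List ℕ)) : Prop :=
  ∃ e ∈ cs, ¬ IsCoprime (mon (pz p) u) (toP (pz p) e) ∧ ¬ mon (pz p) u ∣ toP (pz p) e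
/-- small primes `r` modulo which `p` is not an `l`-th power -/
def NT (C : ℕ) : Prop := ∀ l p : ℕ, l.Prime → p.Prime → 3 < p → l ≠ p → ∃ r : ℕ, r.Prime ∧
  12 * l ∣ r - 1 ∧ r ≤ (l * (Nat.log 2 p + 1)) ^ C ∧ ¬ ∃ x : ZMod r, x ^ l = (p : ZMod r)

theorem pt_pz : Pt p p (pz p) := by
  have h := pt_nat (ZMod p) (p := p) (k := 1) one_pos
  rwa [pow_one] at h
theorem faith_pz : Faith p (pz p) := faith_nat (ZMod p) (Fact.out : p.Prime).pos

private theorem top_foldl_max (l : List ℕ) (a : ℕ) :
    a ≤ l.foldl max a ∧ (∀ j ∈ l, j ≤ l.foldl max a) ∧ (l.foldl max a = a ∨ l.foldl max a ∈ l) := by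
  induction l generalizing a with
  | nil => simp
  | cons b l ih =>
    obtain ⟨h1, h2, h3⟩ := ih (max a b)
    rw [List.foldl_cons]
    refine ⟨(le_max_left a b).trans h1, fun j hj => ?_, ?_⟩
    · rcases List.mem_cons.1 hj with rfl | hj
      · exact (le_max_right a j).trans h1
      · exact h2 j hj
    · rcases h3 with h3 | h3
      · rcases max_choice a b with h4 | h4
        · exact Or.inl (h3.trans h4)
        · exact Or.inr (by rw [h3, h4]; exact List.mem_cons_self)
      · exact Or.inr (List.mem_cons_of_mem _ h3)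

private theorem top_natDegree_lt {a : List ℕ} (h : toP (pz p) a ≠ 0) :
    (toP (pz p) a).natDegree < a.length :=
  (natDegree_lt_iff_degree_lt h).2 (degree_toP_lt a)

private theorem top_all_isZ (a : List ℕ) : a.all (Ops.isZ p) = true ↔ toP (pz p) a = 0 := by
  rw [List.all_eq_true, toP_eq_zero]
  exact forall₂_congr fun b _ => faith_pz b

theorem mnc_spec {a : List ℕ} (h : toP (pz p) a ≠ 0) :
    (mnc p a).length = (toP (pz p) a).natDegree ∧
      Polynomial.C (toP (pz p) a).leadingCoeff * mon (pz p) (mnc p a) = toP (pz p) a := by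
  have H : Hom p (pz p) := pt_pz.toHom
  have hmem : ∀ j, j ∈ ((List.range a.length).filter fun j => !Ops.isZ p (cf p a j)) ↔
      j < a.length ∧ (toP (pz p) a).coeff j ≠ 0 := by
    intro j
    rw [List.mem_filter, List.mem_range, H.coeff, Ne, ← faith_pz (cf p a j)]
    simp
  obtain ⟨-, h2, h3⟩ :=
    top_foldl_max ((List.range a.length).filter fun j => !Ops.isZ p (cf p a j)) 0
  have hd : ((List.range a.length).filter fun j => !Ops.isZ p (cf p a j)).foldl max 0 =
      (toP (pz p) a).natDegree := by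
    refine le_antisymm ?_ (h2 _ ((hmem _).2 ⟨top_natDegree_lt h, leadingCoeff_ne_zero.2 h⟩))
    rcases h3 with h3 | h3
    · rw [h3]
      exact Nat.zero_le _
    · exact le_natDegree_of_ne_zero ((hmem _).1 h3).2
  have hl : (toP (pz p) a).leadingCoeff ≠ 0 := leadingCoeff_ne_zero.2 h
  have hc : pz p (cf p a (toP (pz p) a).natDegree) = (toP (pz p) a).leadingCoeff :=
    (H.coeff a _).symm
  have he : toP (pz p) (psmul p (pinv p p (cf p a (toP (pz p) a).natDegree)) a) =
      Polynomial.C (toP (pz p) a).leadingCoeff⁻¹ * toP (pz p) a := by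
    rw [H.psmul, pt_pz.pinv (by rw [hc]; exact hl), hc]
  simp only [mnc]
  rw [hd]
  refine ⟨length_fit _ _ _, ?_⟩
  rw [H.mon_fit, he, ← mul_assoc, ← map_mul, mul_inv_cancel₀ hl, map_one, one_mul]
  · rw [he]
    exact monic_C_mul_of_mul_leadingCoeff_eq_one (inv_mul_cancel₀ hl)
  · rw [he, natDegree_C_mul (inv_ne_zero hl)]

private theorem top_gcd_inv (u b : List ℕ) (k : ℕ) :
    let s := (List.range k).foldl (fun s _ => gcdStep p s) (u, prem p u b)
    (∀ d, (d ∣ mon (pz p) s.1 ∧ d ∣ toP (pz p) s.2) ↔ (d ∣ mon (pz p) u ∧ d ∣ toP (pz p) b)) ∧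
      s.2.length = s.1.length ∧ (toP (pz p) s.2 = 0 ∨ s.1.length + k ≤ u.length) := by
  have H : Hom p (pz p) := pt_pz.toHom
  induction k with
  | zero =>
    refine ⟨fun d => and_congr_right fun hd => ?_, length_prem _ _ _, Or.inr le_rfl⟩
    change d ∣ toP (pz p) (prem p u b) ↔ _
    rw [← H.dm u b]
    exact (dvd_add_left (hd.mul_right _)).symm
  | succ k ih =>
    rw [List.range_succ, List.foldl_append]
    generalize (List.range k).foldl (fun s _ => gcdStep p s) (u, prem p u b) = s at ih ⊢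
    obtain ⟨h1, h2, h3⟩ := ih
    simp only [List.foldl_cons, List.foldl_nil]
    by_cases h0 : toP (pz p) s.2 = 0
    · have e : gcdStep p s = s := by rw [gcdStep, (top_all_isZ _).2 h0, cond_true]
      rw [e]
      exact ⟨h1, h2, Or.inl h0⟩
    · have e : gcdStep p s = (mnc p s.2, prem p (mnc p s.2) (mono p s.1)) := by
        rw [gcdStep, Bool.eq_false_iff.2 (fun h => h0 ((top_all_isZ _).1 h)), cond_false]
      rw [e]
      obtain ⟨h4, h5⟩ := mnc_spec h0
      refine ⟨fun d => Iff.trans ?_ (h1 d), length_prem _ _ _, Or.inr ?_⟩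
      · have h6 : d ∣ mon (pz p) (mnc p s.2) ↔ d ∣ toP (pz p) s.2 := by
          conv_rhs => rw [← h5]
          exact ((isUnit_C.2 (leadingCoeff_ne_zero.2 h0).isUnit).dvd_mul_left).symm
        rw [and_comm (a := d ∣ mon (pz p) s.1), ← h6]
        refine and_congr_right fun hd => ?_
        rw [← H.mono s.1, ← H.dm (mnc p s.2) (mono p s.1)]
        exact (dvd_add_left (hd.mul_right _)).symm
      · have h7 := top_natDegree_lt h0
        have h8 := h3.resolve_left h0
        change (mnc p s.2).length + (k + 1) ≤ u.length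
        omega

theorem pgcd_spec (u b : List ℕ) : mon (pz p) (pgcd p u b) ∣ mon (pz p) u ∧
    mon (pz p) (pgcd p u b) ∣ toP (pz p) b ∧
    ∀ d, d ∣ mon (pz p) u → d ∣ toP (pz p) b → d ∣ mon (pz p) (pgcd p u b) := by
  obtain ⟨h1, -, h3⟩ := top_gcd_inv (p := p) u b (u.length + 1)
  have h4 := (h1 _).1 ⟨dvd_rfl, by rw [h3.resolve_right (by omega)]; exact dvd_zero _⟩
  exact ⟨h4.1, h4.2, fun d hd hd' => ((h1 d).2 ⟨hd, hd'⟩).1⟩

private theorem top_cut {u e : List ℕ} (h1 : ¬ IsCoprime (mon (pz p) u) (toP (pz p) e))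
    (h2 : ¬ mon (pz p) u ∣ toP (pz p) e) :
    0 < (pgcd p u e).length ∧ (pgcd p u e).length < u.length := by
  obtain ⟨h3, h4, h5⟩ := pgcd_spec (p := p) u e
  constructor
  · refine Nat.pos_of_ne_zero fun h0 => h1 ?_
    have h6 : mon (pz p) (pgcd p u e) = 1 :=
      (mon_monic _).natDegree_eq_zero.1 (by rw [natDegree_mon, h0])
    exact isRelPrime_iff_isCoprime.1 fun d hd hd' => isUnit_of_dvd_one (h6 ▸ h5 d hd hd')
  · by_contra h6
    have h7 := eq_of_monic_of_dvd_of_natDegree_le (mon_monic _) (mon_monic _) h3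
      (by rw [natDegree_mon, natDegree_mon]; omega)
    exact h2 (h7 ▸ h4)

theorem trySplit_spec (u : List ℕ) (cs : List (List ℕ)) :
    ((trySplit p u cs).map (mon (pz p))).prod = mon (pz p) u ∧
    (0 < u.length → ∀ g ∈ trySplit p u cs, 0 < g.length) ∧
    (Irreducible (mon (pz p) u) → trySplit p u cs = [u]) ∧
    (Cut p u cs → (trySplit p u cs).length = 2) ∧ trySplit p u cs ≠ [] := by
  have H : Hom p (pz p) := pt_pz.toHom
  rcases hf : (cs.map (pgcd p u)).filter fun d => decide (0 < d.length ∧ d.length < u.length)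
    with _ | ⟨d, L⟩
  · have e : trySplit p u cs = [u] := by rw [trySplit, hf]
    rw [e]
    refine ⟨by simp, fun h g hg => by rwa [List.mem_singleton.1 hg], fun _ => rfl, ?_, by simp⟩
    rintro ⟨c, hc, h1, h2⟩
    have h3 : pgcd p u c ∈ (cs.map (pgcd p u)).filter
        fun d => decide (0 < d.length ∧ d.length < u.length) :=
      List.mem_filter.2 ⟨List.mem_map_of_mem hc, decide_eq_true (top_cut h1 h2)⟩
    rw [hf] at h3
    exact absurd h3 List.not_mem_nil
  · have e : trySplit p u cs = [d, fit p (u.length - d.length) (pquo p d (mono p u))] := by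
      rw [trySplit, hf]
    have h3 : d ∈ (cs.map (pgcd p u)).filter
        fun d => decide (0 < d.length ∧ d.length < u.length) := by
      rw [hf]
      exact List.mem_cons_self
    obtain ⟨h4, h5⟩ := List.mem_filter.1 h3
    obtain ⟨h6, h7⟩ := of_decide_eq_true h5
    obtain ⟨c, -, rfl⟩ := List.mem_map.1 h4
    obtain ⟨q, hq⟩ := (pgcd_spec (p := p) u c).1
    have hm : q.Monic := (mon_monic _).of_mul_monic_left (hq ▸ mon_monic u)
    have hd : q.natDegree = u.length - (pgcd p u c).length := by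
      have h8 := congrArg natDegree hq
      rw [(mon_monic _).natDegree_mul hm, natDegree_mon, natDegree_mon] at h8
      omega
    have h9 : toP (pz p) (pquo p (pgcd p u c) (mono p u)) = q := H.pquo_mul (by rw [H.mono, hq])
    have h10 : mon (pz p) (fit p (u.length - (pgcd p u c).length)
        (pquo p (pgcd p u c) (mono p u))) = q := by
      rw [H.mon_fit (h9 ▸ hm) (h9 ▸ hd), h9]
    rw [e]
    refine ⟨by simp [h10, ← hq], fun _ g hg => ?_, fun hi => ?_, fun _ => rfl, by simp⟩
    · rcases List.mem_pair.1 hg with rfl | rfl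
      · exact h6
      · rw [length_fit]
        omega
    · exfalso
      rcases hi.isUnit_or_isUnit hq with h | h
      · have h11 := natDegree_eq_zero_of_isUnit h
        rw [natDegree_mon] at h11
        omega
      · have h11 := natDegree_eq_zero_of_isUnit h
        omega

private theorem top_len_flatMap {α : Type} (f : α → List α) (L : List α)
    (h : ∀ g, f g ≠ []) : L.length ≤ (L.flatMap f).length ∧
      ((∃ g ∈ L, (f g).length = 2) → L.length + 1 ≤ (L.flatMap f).length) := by
  induction L with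
  | nil => simp
  | cons a L ih =>
    have h1 : 0 < (f a).length := List.length_pos_iff.2 (h a)
    rw [List.flatMap_cons, List.length_append, List.length_cons]
    refine ⟨by omega, ?_⟩
    rintro ⟨g, hg, h2⟩
    rcases List.mem_cons.1 hg with rfl | hg
    · omega
    · have := ih.2 ⟨g, hg, h2⟩
      omega

private theorem top_len_le (L : List (List ℕ)) (h : ∀ g ∈ L, 0 < g.length) :
    L.length ≤ (L.map (mon (pz p))).prod.natDegree ∧ (L.map (mon (pz p))).prod.Monic := by
  induction L with
  | nil => simp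
  | cons a L ih =>
    obtain ⟨h1, h2⟩ := ih fun g hg => h g (List.mem_cons_of_mem _ hg)
    have h3 := h a List.mem_cons_self
    rw [List.map_cons, List.prod_cons, (mon_monic a).natDegree_mul h2, natDegree_mon,
      List.length_cons]
    exact ⟨by omega, (mon_monic a).mul h2⟩

private theorem top_prod_flatMap (cand : List ℕ → List (List ℕ)) (L : List (List ℕ)) :
    ((L.flatMap fun g => trySplit p g (cand g)).map (mon (pz p))).prod =
      (L.map (mon (pz p))).prod := by
  induction L with
  | nil => rfl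
  | cons a L ih =>
    rw [List.flatMap_cons, List.map_append, List.prod_append, ih, (trySplit_spec a _).1,
      List.map_cons, List.prod_cons]

theorem refine_nil (p : ℕ) (cand : List ℕ → List (List ℕ)) : refine p cand [] = [[]] := rfl
theorem refine_spec {cand : List ℕ → List (List ℕ)} {u : List ℕ} (h0 : 0 < u.length)
    (hc : ∀ g, mon (pz p) g ∣ mon (pz p) u → 0 < g.length → ¬ Irreducible (mon (pz p) g) →
      Cut p g (cand g)) : ((refine p cand u).map (mon (pz p))).prod = mon (pz p) u ∧
      ∀ g ∈ refine p cand u, Irreducible (mon (pz p) g) := by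
  have key : ∀ k, ∀ L, L = (List.range k).foldl
      (fun L _ => L.flatMap fun g => trySplit p g (cand g)) [u] →
      (L.map (mon (pz p))).prod = mon (pz p) u ∧ (∀ g ∈ L, 0 < g.length) ∧
        ((∀ g ∈ L, Irreducible (mon (pz p) g)) ∨ k + 1 ≤ L.length) := by
    intro k
    induction k with
    | zero =>
      rintro _ rfl
      exact ⟨by simp, by simpa using h0, Or.inr (by simp)⟩
    | succ k ih =>
      rintro _ rfl
      rw [List.range_succ, List.foldl_append]
      obtain ⟨h1, h2, h3⟩ := ih _ rfl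
      generalize (List.range k).foldl
        (fun L _ => L.flatMap fun g => trySplit p g (cand g)) [u] = L at h1 h2 h3 ⊢
      simp only [List.foldl_cons, List.foldl_nil]
      refine ⟨(top_prod_flatMap cand L).trans h1, fun g hg => ?_, ?_⟩
      · obtain ⟨a, ha, hg⟩ := List.mem_flatMap.1 hg
        exact (trySplit_spec a _).2.1 (h2 a ha) g hg
      · by_cases hi : ∀ g ∈ L, Irreducible (mon (pz p) g)
        · refine Or.inl fun g hg => ?_
          obtain ⟨a, ha, hg⟩ := List.mem_flatMap.1 hg
          rw [(trySplit_spec a _).2.2.1 (hi a ha), List.mem_singleton] at hg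
          exact hg ▸ hi a ha
        · have h4 := h3.resolve_left hi
          push Not at hi
          obtain ⟨g, hg, hi⟩ := hi
          have h5 := (top_len_flatMap (fun g => trySplit p g (cand g)) L
            fun g => (trySplit_spec g _).2.2.2.2).2 ⟨g, hg, (trySplit_spec g _).2.2.2.1
              (hc g (h1 ▸ List.dvd_prod (List.mem_map_of_mem hg)) (h2 g hg) hi)⟩
          exact Or.inr (by omega)
  obtain ⟨h1, h2, h3⟩ := key u.length _ rfl
  refine ⟨h1, h3.resolve_right fun h4 => ?_⟩
  have h5 := (top_len_le (p := p) _ h2).1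
  rw [h1, natDegree_mon] at h5
  omega

private theorem top_headD (q : ℕ → Bool) {m N : ℕ} (d : ℕ) (h1 : m < N) (h2 : q m = true)
    (h3 : ∀ j, j < m → q j = false) : ((List.range N).filter q).headD d = m := by
  obtain ⟨k, rfl⟩ : ∃ k, N = m + (k + 1) := ⟨N - m - 1, by omega⟩
  rw [List.range_add, List.filter_append, List.filter_eq_nil_iff.2 (fun j hj => by
    rw [h3 j (List.mem_range.1 hj)]; simp), List.range_succ_eq_map, List.map_cons,
    List.filter_cons_of_pos (by simpa using h2)]
  rfl

theorem minF_eq {n : ℕ} (h : 2 ≤ n) : minF n = n.minFac := by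
  refine top_headD _ 1 (Nat.lt_succ_of_le (Nat.minFac_le (by omega)))
    (decide_eq_true ⟨(Nat.minFac_prime (by omega)).two_le,
      Nat.mod_eq_zero_of_dvd (Nat.minFac_dvd n)⟩) fun j hj => decide_eq_false ?_
  rintro ⟨h1, h2⟩
  exact absurd (Nat.minFac_le_of_dvd h1 (Nat.dvd_of_mod_eq_zero h2)) (by omega)
theorem valu_spec {l n : ℕ} (hl : l.Prime) (hn : 0 < n) :
    ∃ n1, n = l ^ valu l n * n1 ∧ ¬ l ∣ n1 := by
  obtain ⟨e, n1, h1, h2⟩ := Nat.exists_eq_pow_mul_and_not_dvd hn.ne' l hl.ne_one
  have he : e ≤ n := by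
    have h3 : l ^ e ≤ n := Nat.le_of_dvd hn ⟨n1, h2⟩
    exact (Nat.lt_pow_self hl.one_lt).le.trans h3
  have h4 : ∀ j, n % l ^ (j + 1) = 0 ↔ j < e := by
    intro j
    rw [← Nat.dvd_iff_mod_eq_zero]
    constructor
    · intro h5
      by_contra h6
      refine h1 ?_
      have h7 : l ^ e * l ∣ l ^ e * n1 := by
        rw [← h2, ← pow_succ]
        exact (pow_dvd_pow l (by omega)).trans h5
      exact Nat.dvd_of_mul_dvd_mul_left (pow_pos hl.pos e) h7
    · intro h5
      exact (pow_dvd_pow l h5).trans ⟨n1, h2⟩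
  have h5 : valu l n = e := by
    obtain ⟨k, hk⟩ := Nat.exists_eq_add_of_le he
    simp only [valu, h4]
    rw [hk, List.range_add, List.filter_append, List.filter_eq_self.2 (fun j hj => by
      simpa using hj), List.filter_eq_nil_iff.2 (fun j hj => by
        obtain ⟨i, -, rfl⟩ := List.mem_map.1 hj
        simp)]
    simp
  exact ⟨n1, h5 ▸ h2, h1⟩

end Vale.Agent.P319.A
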